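import Vale.Agent.P232.Uniq.Marginal

/-!
Consequences of the one-dimensional test inequality at volume `1/π`: the lines of positive length
fill one interval of width `2/π`, and the second moment about its middle is `1/(4π³)`.
-/

open MeasureTheory Set Filter
open scoped ENNReal Topology Interval

namespace Vale.Agent.P232

/-- The signed distance to the nearest integer. -/
noncomputable def dnear (x : ℝ) : ℝ := x - round x

lemma dnear_sq_of_abs_le {s : ℝ} (h : |s| ≤ 1 / 2) : dnear s ^ 2 = s ^ 2 := by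
  obtain ⟨h1, h2⟩ := abs_le.1 h
  rcases h2.lt_or_eq with h2 | h2
  · have : round s = 0 := by
      rw [round_eq, Int.floor_eq_iff]; push_cast; constructor <;> linarith
    simp [dnear, this]
  · subst h2; norm_num [dnear, round_eq]

lemma dnear_add_one (x : ℝ) : dnear (x + 1) = dnear x := by
  simp [dnear, round_add_one]

lemma measurable_dnear : Measurable dnear := by
  unfold dnear
  simp only [round_eq]
  exact measurable_id.sub
    (measurable_from_top.comp (measurable_id.add_const _).floor)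

lemma dnear_mem (x : ℝ) : |dnear x| ≤ 1 / 2 := abs_sub_round x

lemma integral_sq_mul_sqrt :
    ∫ u in (-1 : ℝ)..1, u ^ 2 * Real.sqrt (1 - u ^ 2) = Real.pi / 8 := by
  have hc : Continuous fun u : ℝ => u * ((1 - u ^ 2) * Real.sqrt (1 - u ^ 2)) := by fun_prop
  have h : ∫ u in (-1 : ℝ)..1,
      (Real.sqrt (1 - u ^ 2) - 4 * (u ^ 2 * Real.sqrt (1 - u ^ 2))) = 0 := by
    rw [intervalIntegral.integral_eq_sub_of_hasDerivAt_of_le (by norm_num) hc.continuousOn
      (f' := fun u => Real.sqrt (1 - u ^ 2) - 4 * (u ^ 2 * Real.sqrt (1 - u ^ 2))) (fun u hu => ?_)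
      ((by fun_prop : Continuous _).intervalIntegrable _ _)]
    · norm_num
    have h0 : 0 < 1 - u ^ 2 := by nlinarith [hu.1, hu.2]
    have d1 : HasDerivAt (fun u : ℝ => 1 - u ^ 2) (-(2 * u)) u := by
      simpa using ((hasDerivAt_id' u).pow 2).const_sub 1
    refine ((hasDerivAt_id' u).mul (d1.mul (d1.sqrt h0.ne'))).congr_deriv ?_
    have hs := Real.sqrt_pos.2 h0
    have hsq := Real.mul_self_sqrt h0.le
    field_simp
    simp only [Pi.mul_apply]
    nlinarith
  rw [intervalIntegral.integral_sub ((by fun_prop : Continuous _).intervalIntegrable _ _)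
    ((by fun_prop : Continuous _).intervalIntegrable _ _), intervalIntegral.integral_const_mul,
    integral_sqrt_one_sub_sq] at h
  linarith

/-- A perturbed identity. -/
def pert (ε v : ℝ) : ℝ := v + ε * (v - v ^ 3)

lemma contDiff_pert (ε : ℝ) : ContDiff ℝ 1 (pert ε) := by unfold pert; fun_prop

lemma deriv_pert (ε v : ℝ) : deriv (pert ε) v = 1 + ε * (1 - 3 * v ^ 2) := by
  have := (hasDerivAt_id' v).add (((hasDerivAt_id' v).sub ((hasDerivAt_id' v).pow 3)).const_mul ε)
  refine (this.congr_deriv ?_).deriv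
  simp

lemma abs_pert_le {ε : ℝ} (hε : |ε| ≤ 1 / 8) {v : ℝ} (hv : v ∈ Icc (-1 : ℝ) 1) : |pert ε v| ≤ 1 := by
  obtain ⟨hε1, hε2⟩ := abs_le.1 hε
  have h1 : 0 ≤ 1 - v ^ 2 := by nlinarith [hv.1, hv.2]
  have ha : |ε * v| ≤ 1 / 8 := by
    rw [abs_mul]
    exact (mul_le_of_le_one_right (abs_nonneg _) (abs_le.2 hv)).trans hε
  obtain ⟨ha1, ha2⟩ := abs_le.1 ha
  rw [abs_le, pert]
  constructor
  · have : 0 ≤ 1 + ε * v * (1 - v) := by nlinarith [hv.1, hv.2]
    nlinarith [mul_nonneg (neg_le_iff_add_nonneg.1 hv.1) this]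
  · have : 0 ≤ 1 - ε * v * (1 + v) := by nlinarith [hv.1, hv.2]
    nlinarith [mul_nonneg (sub_nonneg.2 hv.2) this]

lemma pert_root {ε : ℝ} (hε : |ε| ≤ 1 / 8) :
    Real.pi / 2 - ε * (Real.pi / 8) - 3 * ε ^ 2 * Real.pi
      ≤ ∫ v in (-1 : ℝ)..1, Real.sqrt (1 - pert ε v ^ 2) := by
  have hpc : Continuous (pert ε) := (contDiff_pert ε).continuous
  have hlow : ∫ v in (-1 : ℝ)..1, (Real.sqrt (1 - v ^ 2) - ε * (v ^ 2 * Real.sqrt (1 - v ^ 2))
      - 6 * ε ^ 2 * Real.sqrt (1 - v ^ 2)) ≤ ∫ v in (-1 : ℝ)..1, Real.sqrt (1 - pert ε v ^ 2) := by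
    refine intervalIntegral.integral_mono_on (by norm_num)
      ((by fun_prop : Continuous _).intervalIntegrable _ _)
      ((by fun_prop : Continuous _).intervalIntegrable _ _) fun v hv => ?_
    have h1 : 0 ≤ 1 - v ^ 2 := by nlinarith [hv.1, hv.2]
    have hv2 : 0 ≤ v ^ 2 := sq_nonneg v
    set x := 2 * ε * v ^ 2 + ε ^ 2 * v ^ 2 * (1 - v ^ 2) with hx
    have hprod : 0 ≤ v ^ 2 * (1 - v ^ 2) := mul_nonneg hv2 h1
    have hprod1 : v ^ 2 * (1 - v ^ 2) ≤ 1 := by nlinarith
    have he : 1 - pert ε v ^ 2 = (1 - v ^ 2) * (1 - x) := by rw [pert, hx]; ring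
    have hxb : |x| ≤ 3 * |ε| := by
      refine (abs_add_le _ _).trans ?_
      rw [show 2 * ε * v ^ 2 = ε * (2 * v ^ 2) by ring,
        show ε ^ 2 * v ^ 2 * (1 - v ^ 2) = ε * (ε * (v ^ 2 * (1 - v ^ 2))) by ring,
        abs_mul ε (2 * v ^ 2), abs_mul ε (ε * (v ^ 2 * (1 - v ^ 2))),
        abs_mul ε (v ^ 2 * (1 - v ^ 2)), abs_of_nonneg (show 0 ≤ 2 * v ^ 2 by positivity),
        abs_of_nonneg hprod]
      nlinarith [abs_nonneg ε, mul_le_mul hε hprod1 hprod (by norm_num : (0:ℝ) ≤ 1/8)]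
    have hx1 : |x| ≤ 1 := hxb.trans (by linarith)
    have hs : 1 - x / 2 - x ^ 2 / 2 ≤ Real.sqrt (1 - x) := by
      obtain ⟨a, b⟩ := abs_le.1 hx1
      refine Real.le_sqrt_of_sq_le ?_
      nlinarith [mul_nonneg (sq_nonneg x) (show 0 ≤ 3 - 2 * x - x ^ 2 by nlinarith)]
    rw [he, Real.sqrt_mul h1]
    refine le_trans ?_ (mul_le_mul_of_nonneg_left hs (Real.sqrt_nonneg _))
    have : x ^ 2 ≤ 9 * ε ^ 2 := by
      nlinarith [sq_abs x, sq_abs ε, abs_nonneg x, abs_nonneg ε]
    have hb : 1 - ε * v ^ 2 - 6 * ε ^ 2 ≤ 1 - x / 2 - x ^ 2 / 2 := by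
      rw [hx] at this ⊢; nlinarith [sq_nonneg ε]
    nlinarith [Real.sqrt_nonneg (1 - v ^ 2)]
  rw [intervalIntegral.integral_sub ((by fun_prop : Continuous _).intervalIntegrable _ _)
      ((by fun_prop : Continuous _).intervalIntegrable _ _),
    intervalIntegral.integral_sub ((by fun_prop : Continuous _).intervalIntegrable _ _)
      ((by fun_prop : Continuous _).intervalIntegrable _ _),
    intervalIntegral.integral_const_mul, intervalIntegral.integral_const_mul,
    integral_sqrt_one_sub_sq, integral_sq_mul_sqrt] at hlow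
  linarith

/-- What is known of the line lengths. -/
structure TestIneq (f : ℝ → ℝ) : Prop where
  meas : Measurable f
  mem : ∀ s, f s ∈ Icc (0 : ℝ) 1
  periodic : Function.Periodic f 1
  test : ∀ p a : ℝ, p ≤ a → a ≤ p + 1 → EmptyAt f p → EmptyAt f a → ∀ A₁ A₂ : ℝ → ℝ,
    ContDiff ℝ 1 A₁ → ContDiff ℝ 1 A₂ → (∀ s ∈ Icc p a, |A₁ s| ≤ 1) →
    (∀ s ∈ Icc a (p + 1), |A₂ s| ≤ 1) → testVal f A₁ p a + testVal f A₂ a (p + 1) ≤ 2

lemma intervalIntegrable_unit {f : ℝ → ℝ} (hm : Measurable f) (h01 : ∀ s, f s ∈ Icc (0 : ℝ) 1)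
    (u v : ℝ) : IntervalIntegrable f volume u v :=
  intervalIntegrable_const.mono_fun' (g := fun _ => (1 : ℝ)) hm.aestronglyMeasurable
    (ae_of_all _ fun s => by simpa [abs_of_nonneg (h01 s).1] using (h01 s).2)

lemma mul_occ (f : ℝ → ℝ) (s : ℝ) : f s * occ f s = f s := by
  unfold occ; split_ifs with h <;> simp [h]

/-- Continuous approximation of the occupied heights. -/
lemma exists_approx_occ {f : ℝ → ℝ} (hm : Measurable f) {p q : ℝ} (hpq : p ≤ q) {δ : ℝ}
    (hδ : 0 < δ) : ∃ g : ℝ → ℝ, Continuous g ∧ (∀ s, g s ∈ Icc (0 : ℝ) 1) ∧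
      ∫ s in p..q, |g s - occ f s| ≤ δ := by
  set h : ℝ → ℝ := (Ioc p q).indicator (occ f) with hh
  have hi : Integrable h volume := by
    rw [hh, integrable_indicator_iff measurableSet_Ioc, ← intervalIntegrable_iff_integrableOn_Ioc_of_le hpq]
    exact intervalIntegrable_unit (measurable_occ hm) (occ_mem f) p q
  obtain ⟨g, -, hg, hgc, hgi⟩ := hi.exists_hasCompactSupport_integral_sub_le hδ
  refine ⟨fun s => max 0 (min 1 (g s)), by fun_prop,
    fun s => ⟨le_max_left _ _, max_le zero_le_one (min_le_left _ _)⟩, ?_⟩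
  refine le_trans ?_ hg
  rw [intervalIntegral.integral_of_le hpq, ← integral_indicator measurableSet_Ioc]
  refine integral_mono_of_nonneg (ae_of_all _ fun s => indicator_nonneg (fun _ _ => abs_nonneg _) s)
    (hi.sub hgi).norm (ae_of_all _ fun s => ?_)
  by_cases a : s ∈ Ioc p q
  · simp only [indicator_of_mem a, hh, Real.norm_eq_abs, Pi.sub_apply]
    rw [abs_sub_comm (occ f s) (g s)]
    have h1 : max 0 (min 1 (occ f s)) = occ f s := by
      rw [min_eq_right (occ_mem f s).2, max_eq_right (occ_mem f s).1]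
    conv_lhs => rw [← h1]
    exact (abs_max_sub_max_le_max _ _ _ _).trans (max_le (by simp)
      ((abs_min_sub_min_le_max _ _ _ _).trans (max_le (by simp) le_rfl)))
  · rw [indicator_of_notMem a]; exact norm_nonneg _

/-- The test value of a reparametrised function on an interval. -/
lemma part_lower {f : ℝ → ℝ} (hm : Measurable f) (h01 : ∀ s, f s ∈ Icc (0 : ℝ) 1) {g : ℝ → ℝ}
    (hg : Continuous g) (hg01 : ∀ s, g s ∈ Icc (0 : ℝ) 1) {p q m : ℝ} (hpq : p ≤ q)
    (hm' : ∫ s in p..q, g s = m) (hm0 : 0 < m) {Φ : ℝ → ℝ} (hΦ : ContDiff ℝ 1 Φ)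
    (hΦb : ∀ u ∈ Icc (-1 : ℝ) 1, |Φ u| ≤ 1) :
    ∃ A : ℝ → ℝ, ContDiff ℝ 1 A ∧ (∀ s ∈ Icc p q, |A s| ≤ 1) ∧
      (2 / m) * (∫ s in p..q, f s * g s * deriv Φ (2 * (∫ t in p..s, g t) / m - 1))
        + m * (∫ u in (-1 : ℝ)..1, Real.sqrt (1 - Φ u ^ 2))
        - 2 * ∫ s in p..q, |g s - occ f s| ≤ testVal f A p q := by
  set G : ℝ → ℝ := fun s => ∫ t in p..s, g t with hG
  have hGd : ∀ s, HasDerivAt G (g s) s := fun s =>
    intervalIntegral.integral_hasDerivAt_right (hg.intervalIntegrable _ _)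
      (hg.stronglyMeasurableAtFilter _ _) hg.continuousAt
  set U : ℝ → ℝ := fun s => 2 * G s / m - 1 with hU
  have hUd : ∀ s, HasDerivAt U (2 * g s / m) s := fun s =>
    ((((hGd s).const_mul 2).div_const m).sub_const 1)
  have hUc : ContDiff ℝ 1 U := by
    rw [contDiff_one_iff_deriv]
    exact ⟨fun s => (hUd s).differentiableAt, by
      rw [funext fun s => (hUd s).deriv]; exact (continuous_const.mul hg).div_const m⟩
  have hUb : ∀ s ∈ Icc p q, U s ∈ Icc (-1 : ℝ) 1 := fun s hs => by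
    have h0 : 0 ≤ G s := intervalIntegral.integral_nonneg hs.1 fun t _ => (hg01 t).1
    have h1 : G s ≤ m := by
      rw [← hm', hG]
      exact intervalIntegral.integral_mono_interval le_rfl hs.1 hs.2
        (ae_of_all _ fun t => (hg01 t).1) (hg.intervalIntegrable _ _)
    simp only [hU]
    constructor
    · have : 0 ≤ 2 * G s / m := by positivity
      linarith
    · have : 2 * G s / m ≤ 2 := by rw [div_le_iff₀ hm0]; linarith
      linarith
  set A : ℝ → ℝ := fun s => Φ (U s) with hA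
  have hAc : ContDiff ℝ 1 A := hΦ.comp hUc
  have hAb : ∀ s ∈ Icc p q, |A s| ≤ 1 := fun s hs => hΦb _ (hUb s hs)
  refine ⟨A, hAc, hAb, ?_⟩
  have hAd : ∀ s, deriv A s = deriv Φ (U s) * (2 * g s / m) := fun s =>
    (((hΦ.differentiable one_ne_zero _).hasDerivAt).comp s (hUd s)).deriv
  set Q : ℝ → ℝ := fun s => Real.sqrt (1 - A s ^ 2) with hQ
  have hQc : Continuous Q := (continuous_const.sub (hAc.continuous.pow 2)).sqrt
  have hQ01 : ∀ s, Q s ∈ Icc (0 : ℝ) 1 := fun s =>
    ⟨Real.sqrt_nonneg _, Real.sqrt_le_one.2 (sub_le_self _ (sq_nonneg _))⟩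
  have hsub : ∫ s in p..q, Real.sqrt (1 - A s ^ 2) * (2 * g s / m)
      = ∫ u in (-1 : ℝ)..1, Real.sqrt (1 - Φ u ^ 2) := by
    have := intervalIntegral.integral_comp_mul_deriv (f := U) (f' := fun s => 2 * g s / m)
      (g := fun u => Real.sqrt (1 - Φ u ^ 2)) (a := p) (b := q) (fun s _ => hUd s)
      ((continuous_const.mul hg).div_const m).continuousOn
      (continuous_const.sub (hΦ.continuous.pow 2)).sqrt
    rw [show U q = 1 by simp only [hU, hG, hm']; field_simp; norm_num,
      show U p = -1 by simp [hU, hG] ] at this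
    exact this
  have fi := intervalIntegrable_unit hm h01 p q
  have oi := intervalIntegrable_unit (measurable_occ hm) (occ_mem f) p q
  have j1 : IntervalIntegrable (fun s => f s * g s * deriv Φ (U s)) volume p q :=
    (fi.mul_continuousOn hg.continuousOn).mul_continuousOn
      ((hΦ.continuous_deriv le_rfl).comp hUc.continuous).continuousOn
  have j2 : IntervalIntegrable (fun s => Q s * g s) volume p q :=
    (hQc.mul hg).intervalIntegrable _ _
  have j3 : IntervalIntegrable (fun s => |g s - occ f s|) volume p q :=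
    ((hg.intervalIntegrable _ _).sub oi).abs
  have j4 : IntervalIntegrable (fun s => occ f s * Q s) volume p q :=
    oi.mul_continuousOn hQc.continuousOn
  have hlow : ∫ s in p..q, (2 / m * (f s * g s * deriv Φ (U s)) + 2 * (Q s * g s - |g s - occ f s|))
      ≤ testVal f A p q := by
    refine intervalIntegral.integral_mono_on hpq ((j1.const_mul _).add ((j2.sub j3).const_mul 2))
      ((fi.mul_continuousOn (hAc.continuous_deriv le_rfl).continuousOn).add (j4.const_mul 2))
      fun s _ => ?_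
    have h2 : Q s * g s - |g s - occ f s| ≤ occ f s * Q s := by
      nlinarith [le_abs_self (g s - occ f s), abs_nonneg (g s - occ f s), (hQ01 s).1, (hQ01 s).2]
    rw [hAd]
    have h1 : 2 / m * (f s * g s * deriv Φ (U s)) = f s * (deriv Φ (U s) * (2 * g s / m)) := by
      field_simp
    linarith
  rw [intervalIntegral.integral_add (j1.const_mul _) ((j2.sub j3).const_mul 2),
    intervalIntegral.integral_const_mul, intervalIntegral.integral_const_mul,
    intervalIntegral.integral_sub j2 j3] at hlow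
  have h3 : 2 * ∫ s in p..q, Q s * g s = m * ∫ u in (-1 : ℝ)..1, Real.sqrt (1 - Φ u ^ 2) := by
    rw [← hsub, ← intervalIntegral.integral_const_mul, ← intervalIntegral.integral_const_mul]
    exact intervalIntegral.integral_congr fun s _ => by simp only [hQ]; field_simp
  linarith [hlow]

variable {f : ℝ → ℝ}

/-- One part costs at least the perimeter of a disc of its area. -/
lemma TestIneq.part_bound (hf : TestIneq f) {p q δ : ℝ} (hpq : p ≤ q) (hδ : 0 < δ)
    (hδV : δ < ∫ s in p..q, f s) :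
    ∃ A : ℝ → ℝ, ContDiff ℝ 1 A ∧ (∀ s ∈ Icc p q, |A s| ≤ 1) ∧
      2 * Real.sqrt (Real.pi * ((∫ s in p..q, f s) - δ)) - 2 * δ ≤ testVal f A p q := by
  obtain ⟨g, hg, hg01, hgd⟩ := exists_approx_occ hf.meas hpq hδ
  have fi := intervalIntegrable_unit hf.meas hf.mem p q
  have oi := intervalIntegrable_unit (measurable_occ hf.meas) (occ_mem f) p q
  have hV : (∫ s in p..q, f s) - δ ≤ ∫ s in p..q, f s * g s := by
    have h1 : ∫ s in p..q, (f s - |g s - occ f s|) ≤ ∫ s in p..q, f s * g s := by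
      refine intervalIntegral.integral_mono_on hpq (fi.sub ((hg.intervalIntegrable _ _).sub oi).abs)
        (fi.mul_continuousOn hg.continuousOn) fun s _ => ?_
      nlinarith [neg_abs_le (g s - occ f s), abs_nonneg (g s - occ f s), (hf.mem s).1, (hf.mem s).2,
        mul_occ f s]
    rw [intervalIntegral.integral_sub fi ((hg.intervalIntegrable _ _).sub oi).abs] at h1
    linarith
  have hm0 : 0 < ∫ s in p..q, g s := by
    refine lt_of_lt_of_le (show 0 < (∫ s in p..q, f s) - δ by linarith) (hV.trans ?_)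
    exact intervalIntegral.integral_mono_on hpq (fi.mul_continuousOn hg.continuousOn)
      (hg.intervalIntegrable _ _) fun s _ => mul_le_of_le_one_left (hg01 s).1 (hf.mem s).2
  obtain ⟨A, hA, hAb, hle⟩ := part_lower hf.meas hf.mem hg hg01 hpq rfl hm0 (Φ := fun u => u)
    contDiff_id fun u hu => abs_le.2 hu
  refine ⟨A, hA, hAb, le_trans ?_ hle⟩
  set m := ∫ s in p..q, g s
  set W := (∫ s in p..q, f s) - δ
  simp only [deriv_id'', mul_one, integral_sqrt_one_sub_sq]
  have hW : 0 ≤ W := by linarith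
  have hamgm : 2 * Real.sqrt (Real.pi * W) ≤ 2 / m * W + m * (Real.pi / 2) := by
    rw [show 2 / m * W + m * (Real.pi / 2) = (4 * W + Real.pi * m ^ 2) / (2 * m) by field_simp; ring,
      le_div_iff₀ (by positivity)]
    have hsq : Real.sqrt (Real.pi * W) ^ 2 = Real.pi * W := Real.sq_sqrt (by positivity)
    have : (Real.pi * m - 2 * Real.sqrt (Real.pi * W)) ^ 2 ≥ 0 := sq_nonneg _
    nlinarith [Real.pi_pos]
  have : 2 / m * W ≤ 2 / m * ∫ s in p..q, f s * g s :=
    mul_le_mul_of_nonneg_left hV (by positivity)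
  linarith

/-- There are no two parts. -/
lemma TestIneq.no_two_parts (hf : TestIneq f) (hV : ∫ s in (0 : ℝ)..1, f s = 1 / Real.pi) {p a : ℝ}
    (hpa : p ≤ a) (hap : a ≤ p + 1) (hep : EmptyAt f p) (hea : EmptyAt f a)
    (h1 : 0 < ∫ s in p..a, f s) (h2 : 0 < ∫ s in a..(p + 1), f s) : False := by
  have fi := intervalIntegrable_unit hf.meas hf.mem
  set V₁ := ∫ s in p..a, f s
  set V₂ := ∫ s in a..(p + 1), f s
  have hsum : V₁ + V₂ = 1 / Real.pi := by
    rw [intervalIntegral.integral_add_adjacent_intervals (fi _ _) (fi _ _),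
      hf.periodic.intervalIntegral_add_eq p 0, zero_add, hV]
  have hle : ∀ δ : ℝ, 0 < δ → δ < min V₁ V₂ →
      2 * Real.sqrt (Real.pi * (V₁ - δ)) + 2 * Real.sqrt (Real.pi * (V₂ - δ)) - 4 * δ ≤ 2 := by
    intro δ hδ hlt
    obtain ⟨A₁, hA₁, hb1, l1⟩ := hf.part_bound hpa hδ (lt_of_lt_of_le hlt (min_le_left _ _))
    obtain ⟨A₂, hA₂, hb2, l2⟩ := hf.part_bound hap hδ (lt_of_lt_of_le hlt (min_le_right _ _))
    linarith [hf.test p a hpa hap hep hea A₁ A₂ hA₁ hA₂ hb1 hb2]
  have hcont : Continuous fun δ =>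
      2 * Real.sqrt (Real.pi * (V₁ - δ)) + 2 * Real.sqrt (Real.pi * (V₂ - δ)) - 4 * δ := by fun_prop
  have hev : ∀ᶠ δ in 𝓝[>] (0 : ℝ),
      2 * Real.sqrt (Real.pi * (V₁ - δ)) + 2 * Real.sqrt (Real.pi * (V₂ - δ)) - 4 * δ ≤ 2 := by
    filter_upwards [self_mem_nhdsWithin,
      mem_nhdsWithin_of_mem_nhds (eventually_lt_nhds (lt_min h1 h2))] with δ hδ hlt
    exact hle δ hδ hlt
  have := le_of_tendsto ((hcont.tendsto 0).mono_left nhdsWithin_le_nhds) hev
  simp only [sub_zero, mul_zero] at this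
  have e : Real.pi * V₁ + Real.pi * V₂ = 1 := by
    rw [← mul_add, hsum]; field_simp
  have s1 := Real.sq_sqrt (show 0 ≤ Real.pi * V₁ by positivity)
  have s2 := Real.sq_sqrt (show 0 ≤ Real.pi * V₂ by positivity)
  have p1 : 0 < Real.sqrt (Real.pi * V₁) := Real.sqrt_pos.2 (by positivity)
  have p2 : 0 < Real.sqrt (Real.pi * V₂) := Real.sqrt_pos.2 (by positivity)
  nlinarith [mul_pos p1 p2]

/-- The occupied heights form an interval. -/
lemma TestIneq.exists_interval (hf : TestIneq f) (hV : ∫ s in (0 : ℝ)..1, f s = 1 / Real.pi)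
    {s₀ : ℝ} (he : EmptyAt f s₀) :
    ∃ p q, s₀ ≤ p ∧ p < q ∧ q ≤ s₀ + 1 ∧
      ∀ᵐ s ∂volume.restrict (Ioc s₀ (s₀ + 1)), occ f s = (Ioo p q).indicator (1 : ℝ → ℝ) s := by
  have fi := intervalIntegrable_unit hf.meas hf.mem
  have hVpos : 0 < 1 / Real.pi := by positivity
  set F : ℝ → ℝ := fun t => ∫ s in s₀..t, f s with hF
  have hFc : Continuous F := intervalIntegral.continuous_primitive fi s₀
  have hF1 : F (s₀ + 1) = 1 / Real.pi := by
    simp only [hF]
    rw [hf.periodic.intervalIntegral_add_eq s₀ 0, zero_add, hV]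
  have hF0 : F s₀ = 0 := intervalIntegral.integral_same
  set S₁ : Set ℝ := Icc s₀ (s₀ + 1) ∩ {t | F t ≤ 0} with hS₁
  set S₂ : Set ℝ := Icc s₀ (s₀ + 1) ∩ {t | 1 / Real.pi ≤ F t} with hS₂
  have b1 : BddAbove S₁ := ⟨s₀ + 1, fun t ht => ht.1.2⟩
  have b2 : BddBelow S₂ := ⟨s₀, fun t ht => ht.1.1⟩
  have n1 : S₁.Nonempty := ⟨s₀, ⟨le_rfl, by linarith⟩, hF0.le⟩
  have n2 : S₂.Nonempty := ⟨s₀ + 1, ⟨by linarith, le_rfl⟩, hF1.ge⟩
  set p := sSup S₁
  set q := sInf S₂
  have hp : p ∈ S₁ := (isClosed_Icc.inter (isClosed_le hFc continuous_const)).csSup_mem n1 b1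
  have hq : q ∈ S₂ := (isClosed_Icc.inter (isClosed_le continuous_const hFc)).csInf_mem n2 b2
  have hmono : ∀ u v, s₀ ≤ u → u ≤ v → F u ≤ F v := fun u v _ huv => by
    have := intervalIntegral.integral_nonneg (μ := volume) huv fun s _ => (hf.mem s).1
    simp only [hF]
    rw [← intervalIntegral.integral_add_adjacent_intervals (fi s₀ u) (fi u v)]
    linarith
  have hpq : p < q := by
    by_contra h
    linarith [hmono q p hq.1.1 (not_lt.1 h), hp.2.out, hq.2.out]
  refine ⟨p, q, hp.1.1, hpq, hq.1.2, ?_⟩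
  have hzero : ∀ u v, u ≤ v → ∫ s in u..v, f s = 0 →
      ∀ᵐ s, s ∈ Ioc u v → f s = 0 := fun u v huv h0 =>
    (ae_restrict_iff' measurableSet_Ioc).1
      ((intervalIntegral.integral_eq_zero_iff_of_le_of_nonneg_ae huv
        (ae_of_all _ fun s => (hf.mem s).1) (fi u v)).1 h0)
  have hz1 := hzero s₀ p hp.1.1 (le_antisymm hp.2 (by simpa [hF0] using hmono s₀ p le_rfl hp.1.1))
  have hz2 := hzero q (s₀ + 1) hq.1.2 (by
    have e := intervalIntegral.integral_add_adjacent_intervals (fi s₀ q) (fi q (s₀ + 1))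
    have h := intervalIntegral.integral_nonneg (μ := volume) hq.1.2 fun s _ => (hf.mem s).1
    simp only [hF] at hF1
    have := hq.2.out
    simp only [hF] at this
    linarith)
  have hne : ∀ᵐ s : ℝ, s ≠ q := measure_eq_zero_iff_ae_notMem.1 (measure_singleton _)
  rw [ae_restrict_iff' measurableSet_Ioc]
  filter_upwards [hz1, hz2, hne, ae_emptyAt hf.meas hf.mem] with s a1 a2 hsq hse hs
  by_cases hm : s ∈ Ioo p q
  · rw [indicator_of_mem hm, Pi.one_apply, occ, if_neg]
    intro h0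
    have hl : 0 < F s := by
      by_contra h
      exact not_lt.2 (le_csSup b1 ⟨⟨hs.1.le, hs.2⟩, not_lt.1 h⟩) hm.1
    have hr : F s < 1 / Real.pi := by
      by_contra h
      exact not_lt.2 (csInf_le b2 ⟨⟨hs.1.le, hs.2⟩, not_lt.1 h⟩) hm.2
    refine hf.no_two_parts hV hs.1.le hs.2 he (hse h0) hl ?_
    have e := intervalIntegral.integral_add_adjacent_intervals (fi s₀ s) (fi s (s₀ + 1))
    simp only [hF] at hF1 hr
    linarith
  · rw [indicator_of_notMem hm, occ, if_pos]
    rcases le_or_gt s p with h | h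
    · exact a1 ⟨hs.1, h⟩
    · exact a2 ⟨lt_of_le_of_ne (not_lt.1 fun h' => hm ⟨h, h'⟩) (Ne.symm hsq), hs.2⟩

/-- The inequality for the perturbed linear functions on the occupied interval. -/
lemma TestIneq.pert_ineq (hf : TestIneq f) (hV : ∫ s in (0 : ℝ)..1, f s = 1 / Real.pi)
    {s₀ : ℝ} (he : EmptyAt f s₀) {p q : ℝ} (hp : s₀ ≤ p) (hpq : p < q) (hq : q ≤ s₀ + 1)
    (hocc : ∀ᵐ s ∂volume.restrict (Ioc s₀ (s₀ + 1)),
      occ f s = (Ioo p q).indicator (1 : ℝ → ℝ) s) {ε : ℝ} (hε : |ε| ≤ 1 / 8) :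
    2 / (q - p) * (1 / Real.pi * (1 + ε)
        - 3 * ε * ∫ s in s₀..(s₀ + 1), f s * (2 * (s - p) / (q - p) - 1) ^ 2)
      + (q - p) * (Real.pi / 2 - ε * (Real.pi / 8) - 3 * ε ^ 2 * Real.pi) ≤ 2 := by
  have hs01 : s₀ ≤ s₀ + 1 := by linarith
  have fi := intervalIntegrable_unit hf.meas hf.mem s₀ (s₀ + 1)
  have oi := intervalIntegrable_unit (measurable_occ hf.meas) (occ_mem f) s₀ (s₀ + 1)
  set F : ℝ → ℝ := fun s => ∫ t in s₀..s, occ f t with hF
  have hFeq : ∀ s ∈ Icc p q, F s = s - p := fun s hs => by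
    simp only [hF, intervalIntegral.integral_of_le (hp.trans hs.1)]
    have hsub : Ioc s₀ s ⊆ Ioc s₀ (s₀ + 1) := Ioc_subset_Ioc_right (hs.2.trans hq)
    rw [integral_congr_ae (ae_restrict_of_ae_restrict_of_subset hsub hocc),
      setIntegral_indicator measurableSet_Ioo]
    have : (Ioc s₀ s ∩ Ioo p q : Set ℝ) =ᵐ[volume] (Ioo p s : Set ℝ) := by
      have hne : ∀ᵐ t : ℝ, t ≠ s := measure_eq_zero_iff_ae_notMem.1 (measure_singleton _)
      filter_upwards [hne] with t ht
      refine propext ⟨fun h => ⟨h.2.1, lt_of_le_of_ne h.1.2 ht⟩, fun h => ?_⟩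
      exact ⟨⟨lt_of_le_of_lt hp h.1, h.2.le⟩, h.1, lt_of_lt_of_le h.2 hs.2⟩
    rw [setIntegral_congr_set this]
    simp [Measure.real, Real.volume_Ioo, hs.1]
  set m := q - p with hmdef
  have hm0 : 0 < m := by linarith
  set μ := volume.restrict (Ioc s₀ (s₀ + 1))
  have hFm : F (s₀ + 1) = m := by
    simp only [hF, intervalIntegral.integral_of_le hs01]
    rw [integral_congr_ae hocc, setIntegral_indicator measurableSet_Ioo,
      inter_eq_right.2 (show Ioo p q ⊆ Ioc s₀ (s₀ + 1) from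
        fun t ht => ⟨lt_of_le_of_lt hp ht.1, ht.2.le.trans hq⟩)]
    simp [Measure.real, Real.volume_Ioo, hpq.le, hmdef]
  set u : ℝ → ℝ := fun s => 2 * (s - p) / m - 1 with hu
  have hfu : ∀ᵐ s ∂μ, f s ≠ 0 → s ∈ Ioo p q := hocc.mono fun s hs h => by
    by_contra hn
    simp [occ, h, indicator_of_notMem hn] at hs
  choose g hg hg01 hgd using fun n : ℕ => exists_approx_occ hf.meas hs01
    (δ := 1 / ((n : ℝ) + 1)) (by positivity)
  set M : ℝ := ∫ s in s₀..(s₀ + 1), f s * u s ^ 2 with hM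
  have hδt : Tendsto (fun n : ℕ => ∫ s in s₀..(s₀ + 1), |g n s - occ f s|) atTop (𝓝 0) :=
    squeeze_zero (fun n => intervalIntegral.integral_nonneg hs01 fun s _ => abs_nonneg _) hgd
      tendsto_one_div_add_atTop_nhds_zero_nat
  have hGt : ∀ s ∈ Icc s₀ (s₀ + 1),
      Tendsto (fun n => ∫ t in s₀..s, g n t) atTop (𝓝 (F s)) := fun s hs => by
    refine tendsto_iff_norm_sub_tendsto_zero.2 (squeeze_zero (fun _ => norm_nonneg _) (fun n => ?_)
      hδt)
    have oi' := intervalIntegrable_unit (measurable_occ hf.meas) (occ_mem f) s₀ s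
    rw [hF, ← intervalIntegral.integral_sub ((hg n).intervalIntegrable _ _) oi', Real.norm_eq_abs]
    refine (intervalIntegral.abs_integral_le_integral_abs hs.1).trans ?_
    exact intervalIntegral.integral_mono_interval le_rfl hs.1 hs.2
      (ae_of_all _ fun t => abs_nonneg _) (((hg n).intervalIntegrable _ _).sub oi).abs
  obtain ⟨hε1, hε2⟩ := abs_le.1 hε
  set Φ : ℝ → ℝ := pert ε with hΦ
  have hΦc : ContDiff ℝ 1 Φ := contDiff_pert ε
  have hΦd : ∀ v, deriv Φ v = 1 + ε * (1 - 3 * v ^ 2) := deriv_pert ε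
  have hΦb : ∀ v ∈ Icc (-1 : ℝ) 1, |Φ v| ≤ 1 := fun v hv => abs_pert_le hε hv
  have hroot : Real.pi / 2 - ε * (Real.pi / 8) - 3 * ε ^ 2 * Real.pi
      ≤ ∫ v in (-1 : ℝ)..1, Real.sqrt (1 - Φ v ^ 2) := pert_root hε
  set J := ∫ v in (-1 : ℝ)..1, Real.sqrt (1 - Φ v ^ 2)
  set mn : ℕ → ℝ := fun n => ∫ t in s₀..(s₀ + 1), g n t
  have hmn : Tendsto mn atTop (𝓝 m) := hFm ▸ hGt _ ⟨hs01, le_rfl⟩
  set H : ℕ → ℝ := fun n => ∫ s in s₀..(s₀ + 1),
    f s * deriv Φ (2 * (∫ t in s₀..s, g n t) / mn n - 1) with hH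
  have hΦ' : ∀ v ∈ Icc (-1 : ℝ) 1, |deriv Φ v| ≤ 2 := fun v hv => by
    rw [hΦd, abs_le]
    have : v ^ 2 ≤ 1 := by nlinarith [hv.1, hv.2]
    constructor <;> nlinarith [sq_nonneg v]
  have hev : ∀ᶠ n in atTop, 2 / mn n * (H n - 2 * ∫ s in s₀..(s₀ + 1), |g n s - occ f s|)
      + mn n * J - 2 * ∫ s in s₀..(s₀ + 1), |g n s - occ f s| ≤ 2 := by
    filter_upwards [hmn.eventually (lt_mem_nhds hm0)] with n hn
    obtain ⟨A, hA, hAb, hle⟩ := part_lower hf.meas hf.mem (hg n) (hg01 n) hs01 rfl hn hΦc hΦb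
    have ht := hf.test s₀ (s₀ + 1) hs01 le_rfl he (he.add_one hf.periodic) A (fun _ => 0) hA
      contDiff_const hAb (fun _ _ => by simp)
    have hz : testVal f (fun _ => (0:ℝ)) (s₀ + 1) (s₀ + 1) = 0 := intervalIntegral.integral_same
    rw [hz, add_zero] at ht
    refine le_trans (le_trans ?_ hle) ht
    have hUb : ∀ s ∈ Icc s₀ (s₀ + 1),
        2 * (∫ t in s₀..s, g n t) / mn n - 1 ∈ Icc (-1 : ℝ) 1 := fun s hs => by
      have h0 : 0 ≤ ∫ t in s₀..s, g n t :=
        intervalIntegral.integral_nonneg hs.1 fun t _ => (hg01 n t).1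
      have h1 : (∫ t in s₀..s, g n t) ≤ mn n := intervalIntegral.integral_mono_interval le_rfl
        hs.1 hs.2 (ae_of_all _ fun t => (hg01 n t).1) ((hg n).intervalIntegrable _ _)
      constructor
      · have : 0 ≤ 2 * (∫ t in s₀..s, g n t) / mn n := by positivity
        linarith
      · have : 2 * (∫ t in s₀..s, g n t) / mn n ≤ 2 := by rw [div_le_iff₀ hn]; linarith
        linarith
    have hUc : Continuous fun s => deriv Φ (2 * (∫ t in s₀..s, g n t) / mn n - 1) :=
      (hΦc.continuous_deriv le_rfl).comp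
        (((continuous_const.mul (intervalIntegral.continuous_primitive
          (fun a b => (hg n).intervalIntegrable a b) s₀)).div_const _).sub continuous_const)
    have hdiff : H n - 2 * (∫ s in s₀..(s₀ + 1), |g n s - occ f s|) ≤ ∫ s in s₀..(s₀ + 1),
        f s * g n s * deriv Φ (2 * (∫ t in s₀..s, g n t) / mn n - 1) := by
      have ia := ((hg n).intervalIntegrable (μ := volume) s₀ (s₀ + 1)).sub oi |>.abs
      rw [hH, ← intervalIntegral.integral_const_mul, ← intervalIntegral.integral_sub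
        (fi.mul_continuousOn hUc.continuousOn) (ia.const_mul 2)]
      refine intervalIntegral.integral_mono_on hs01
        ((fi.mul_continuousOn hUc.continuousOn).sub (ia.const_mul 2))
        ((fi.mul_continuousOn (hg n).continuousOn).mul_continuousOn hUc.continuousOn) fun s hs => ?_
      set D := deriv Φ (2 * (∫ t in s₀..s, g n t) / mn n - 1)
      have hD := hΦ' _ (hUb s hs)
      have : f s * g n s * D = f s * D + f s * ((g n s - occ f s) * D) := by
        conv_rhs => enter [1]; rw [← mul_occ f s]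
        ring
      rw [this]
      have : |f s * ((g n s - occ f s) * D)| ≤ |g n s - occ f s| * 2 := by
        rw [abs_mul, abs_mul, abs_of_nonneg (hf.mem s).1]
        exact (mul_le_of_le_one_left (by positivity) (hf.mem s).2).trans
          (mul_le_mul_of_nonneg_left hD (abs_nonneg _))
      linarith [neg_abs_le (f s * ((g n s - occ f s) * D))]
    have := mul_le_mul_of_nonneg_left hdiff (show 0 ≤ 2 / mn n by positivity)
    linarith
  have hHt : Tendsto H atTop (𝓝 (1 / Real.pi * (1 + ε) - 3 * ε * M)) := by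
    have hlim : ∫ s in s₀..(s₀ + 1), f s * deriv Φ (u s)
        = 1 / Real.pi * (1 + ε) - 3 * ε * M := by
      have hfu2 : IntervalIntegrable (fun s => f s * u s ^ 2) volume s₀ (s₀ + 1) :=
        fi.mul_continuousOn (by fun_prop : Continuous fun s => u s ^ 2).continuousOn
      have e : ∀ s, f s * deriv Φ (u s) = (1 + ε) * f s - 3 * ε * (f s * u s ^ 2) := fun s => by
        rw [hΦd]; ring
      simp only [e]
      rw [intervalIntegral.integral_sub (fi.const_mul _) (hfu2.const_mul _),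
        intervalIntegral.integral_const_mul, intervalIntegral.integral_const_mul,
        hf.periodic.intervalIntegral_add_eq s₀ 0, zero_add, hV, hM]
      ring
    rw [← hlim]
    simp only [hH, intervalIntegral.integral_of_le hs01]
    obtain ⟨K, hK⟩ := isCompact_Icc.exists_bound_of_continuousOn
      (hΦc.continuous_deriv le_rfl).continuousOn (s := Icc (-1 : ℝ) 1)
    refine tendsto_integral_filter_of_dominated_convergence (fun _ => 2) ?_ ?_
      (integrable_const _) ?_
    · refine Eventually.of_forall fun n => ((hf.meas.mul ((hΦc.continuous_deriv le_rfl).comp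
        (((continuous_const.mul (intervalIntegral.continuous_primitive
          (fun a b => (hg n).intervalIntegrable a b) s₀)).div_const _).sub
            continuous_const)).measurable)).aestronglyMeasurable
    · filter_upwards [hmn.eventually (lt_mem_nhds hm0)] with n hn
      filter_upwards [ae_restrict_mem measurableSet_Ioc] with s hs
      rw [norm_mul, Real.norm_of_nonneg (hf.mem s).1]
      refine (mul_le_of_le_one_left (norm_nonneg _) (hf.mem s).2).trans (hΦ' _ ?_)
      have h0 : 0 ≤ ∫ t in s₀..s, g n t :=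
        intervalIntegral.integral_nonneg hs.1.le fun t _ => (hg01 n t).1
      have h1 : (∫ t in s₀..s, g n t) ≤ mn n := intervalIntegral.integral_mono_interval le_rfl
        hs.1.le hs.2 (ae_of_all _ fun t => (hg01 n t).1) ((hg n).intervalIntegrable _ _)
      constructor
      · have : 0 ≤ 2 * (∫ t in s₀..s, g n t) / mn n := by positivity
        linarith
      · have : 2 * (∫ t in s₀..s, g n t) / mn n ≤ 2 := by rw [div_le_iff₀ hn]; linarith
        linarith
    · filter_upwards [ae_restrict_mem measurableSet_Ioc, hfu] with s hs hsu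
      by_cases a : f s = 0
      · simp [a]
      refine Tendsto.const_mul _ ?_
      have : u s = 2 * F s / m - 1 := by rw [hu, hFeq s (Ioo_subset_Icc_self (hsu a))]
      rw [this]
      exact ((hΦc.continuous_deriv le_rfl).tendsto _).comp
        (((((hGt s ⟨hs.1.le, hs.2⟩).const_mul 2).div hmn hm0.ne')).sub_const 1)
  have hlimit := le_of_tendsto
    ((((tendsto_const_nhds (x := (2:ℝ))).div hmn hm0.ne').mul (hHt.sub (hδt.const_mul 2))).add
      (hmn.mul_const J) |>.sub (hδt.const_mul 2)) hev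
  simp only [mul_zero, sub_zero] at hlimit
  linarith [mul_le_mul_of_nonneg_left hroot hm0.le]

/-- The second moment about the middle of the occupied interval. -/
theorem TestIneq.exists_moment (hf : TestIneq f) (hV : ∫ s in (0 : ℝ)..1, f s = 1 / Real.pi)
    {s₀ : ℝ} (he : EmptyAt f s₀) :
    ∃ c, ∫ s in (0 : ℝ)..1, f s * dnear (s - c) ^ 2 = 1 / (4 * Real.pi ^ 3) := by
  obtain ⟨p, q, hp, hpq, hq, hocc⟩ := hf.exists_interval hV he
  have hs01 : s₀ ≤ s₀ + 1 := by linarith
  set m := q - p with hmdef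
  have hm0 : 0 < m := by linarith
  set u : ℝ → ℝ := fun s => 2 * (s - p) / m - 1 with hu
  have hfu : ∀ᵐ s ∂volume.restrict (Ioc s₀ (s₀ + 1)), f s ≠ 0 → s ∈ Ioo p q :=
    hocc.mono fun s hs h => by
      by_contra hn
      simp [occ, h, indicator_of_notMem hn] at hs
  set M : ℝ := ∫ s in s₀..(s₀ + 1), f s * u s ^ 2 with hM
  have key : ∀ ε : ℝ, |ε| ≤ 1 / 8 →
      2 / m * (1 / Real.pi * (1 + ε) - 3 * ε * M)
        + m * (Real.pi / 2 - ε * (Real.pi / 8) - 3 * ε ^ 2 * Real.pi) ≤ 2 :=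
    fun ε hε => hf.pert_ineq hV he hp hpq hq hocc hε
  -- the width and the moment
  have hpi := Real.pi_pos
  have hm : m = 2 / Real.pi := by
    have h := key 0 (by norm_num)
    simp only [mul_zero, add_zero, sub_zero, mul_one, zero_mul, ne_eq, OfNat.ofNat_ne_zero,
      not_false_eq_true, zero_pow] at h
    have e : 2 / m * (1 / Real.pi) + m * (Real.pi / 2) - 2
        = (Real.pi * m - 2) ^ 2 / (2 * Real.pi * m) := by field_simp; ring
    have hnum : (Real.pi * m - 2) ^ 2 ≤ 0 := by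
      have : (Real.pi * m - 2) ^ 2 / (2 * Real.pi * m) ≤ 0 := by linarith
      rwa [div_le_iff₀ (by positivity), zero_mul] at this
    rw [eq_div_iff hpi.ne']
    nlinarith [sq_nonneg (Real.pi * m - 2)]
  have hMv : M = 1 / (4 * Real.pi) := by
    set K := 3 / 4 - 3 * Real.pi * M
    have hK : ∀ ε : ℝ, |ε| ≤ 1 / 8 → ε * K ≤ 6 * ε ^ 2 := fun ε hε => by
      have h := key ε hε
      rw [hm] at h
      field_simp at h
      simp only [K]
      nlinarith
    have hK0 : K = 0 := by
      by_contra hne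
      rcases lt_or_gt_of_ne hne with h | h
      · set t := min (1 / 8) (-K / 12)
        have ht : 0 < t := lt_min (by norm_num) (by linarith)
        have := hK (-t) (by rw [abs_neg, abs_of_pos ht]; exact min_le_left _ _)
        nlinarith [min_le_right (1 / 8 : ℝ) (-K / 12)]
      · set t := min (1 / 8) (K / 12)
        have ht : 0 < t := lt_min (by norm_num) (by linarith)
        have := hK t (by rw [abs_of_pos ht]; exact min_le_left _ _)
        nlinarith [min_le_right (1 / 8 : ℝ) (K / 12)]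
    simp only [K] at hK0
    field_simp
    linarith
  refine ⟨(p + q) / 2, ?_⟩
  set c := (p + q) / 2
  have hper : Function.Periodic (fun s => f s * dnear (s - c) ^ 2) 1 := fun s => by
    simp only [hf.periodic s, show s + 1 - c = s - c + 1 by ring, dnear_add_one]
  have hwin := hper.intervalIntegral_add_eq 0 s₀
  rw [zero_add] at hwin
  rw [hwin]
  have hcongr : ∫ s in s₀..(s₀ + 1), f s * dnear (s - c) ^ 2
      = 1 / Real.pi ^ 2 * M := by
    rw [hM, ← intervalIntegral.integral_const_mul, intervalIntegral.integral_of_le hs01,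
      intervalIntegral.integral_of_le hs01]
    refine integral_congr_ae (hfu.mono fun s hs => ?_)
    by_cases a : f s = 0
    · simp [a]
    obtain ⟨h1, h2⟩ := hs a
    have hsc : |s - c| ≤ 1 / 2 := by
      have : 1 / Real.pi ≤ 1 / 2 := one_div_le_one_div_of_le two_pos (by linarith [Real.pi_gt_three])
      have e2 : q - p = 2 * (1 / Real.pi) := by rw [← hmdef, hm]; ring
      rw [abs_le]; constructor <;> simp only [c] <;> linarith
    have hud : u s = Real.pi * (s - c) := by
      have hq' : q = p + 2 / Real.pi := by linarith [hm, hmdef]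
      simp only [hu, c, hm, hq']
      field_simp
      ring
    simp only [dnear_sq_of_abs_le hsc, hud]
    field_simp
  rw [hcongr, hMv]
  field_simp

end Vale.Agent.P232
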