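import Vale.Agent.P232.Uniq.Main

/-!
A periodic set with the slice functions of a ball or a tube is that ball or tube: the bathtub
principle for the separable height of the paraboloid.
-/

open MeasureTheory Set Filter
open scoped ENNReal Topology Interval

namespace Vale.Agent.P232

lemma mem_ballSet_iff (c : R3) (r : ℝ) (x : R3) :
    x ∈ ballSet c r ↔ ∑ l, dnear (x l - c l) ^ 2 < r ^ 2 := by
  simp only [ballSet, mem_ofPred_eq]
  refine ⟨fun ⟨m, hm⟩ => lt_of_le_of_lt (Finset.sum_le_sum fun l _ => ?_) hm,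
    fun h => ⟨fun l => round (x l - c l), h⟩⟩
  exact sq_le_sq.2 (round_le (x l - c l) (m l))

lemma isOpen_ballSet (c : R3) (r : ℝ) : IsOpen (ballSet c r) := by
  simp only [ballSet, Set.ofPred_exists]
  exact isOpen_iUnion fun m => isOpen_lt (continuous_finsetSum _ fun i _ =>
    (((PiLp.continuous_apply 2 _ i).sub continuous_const).sub continuous_const).pow 2)
    continuous_const

lemma isPeriodicSet_ballSet (c : R3) (r : ℝ) : IsPeriodicSet (ballSet c r) := fun i x => by
  simp only [mem_ballSet_iff]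
  refine iff_of_eq (congrArg (· < r ^ 2) (Finset.sum_congr rfl fun l _ => ?_))
  by_cases h : l = i
  · subst h
    simp only [PiLp.add_apply, e_self]
    rw [show x l + 1 - c l = x l - c l + 1 by ring, dnear_add_one]
  · simp [e_ne (Ne.symm h)]

lemma integral_ind_sq_lt {R : ℝ} (hR : R ≤ 1 / 4) :
    ∫ t in (-1/2 : ℝ)..(1/2), (if t ^ 2 < R then (1 : ℝ) else 0) = 2 * Real.sqrt R := by
  have hw : Real.sqrt R ≤ 1 / 2 := Real.sqrt_le_iff.2 ⟨by norm_num, by linarith⟩
  have hw0 : 0 ≤ Real.sqrt R := Real.sqrt_nonneg R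
  have e : (fun t : ℝ => if t ^ 2 < R then (1 : ℝ) else 0)
      = (Ioo (-Real.sqrt R) (Real.sqrt R)).indicator fun _ => 1 := by
    funext t
    have h : t ∈ Ioo (-Real.sqrt R) (Real.sqrt R) ↔ t ^ 2 < R := by
      rw [mem_Ioo, ← abs_lt, Real.lt_sqrt (abs_nonneg t), sq_abs]
    by_cases ht : t ^ 2 < R
    · rw [if_pos ht, indicator_of_mem (h.2 ht)]
    · rw [if_neg ht, indicator_of_notMem (mt h.1 ht)]
  rw [intervalIntegral.integral_of_le (by norm_num), e, setIntegral_indicator measurableSet_Ioo,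
    inter_eq_right.2 (show Ioo (-Real.sqrt R) (Real.sqrt R) ⊆ Ioc (-1/2 : ℝ) (1/2) from
      fun t ht => ⟨by linarith [ht.1], by linarith [ht.2]⟩)]
  simp [Measure.real, Real.volume_Ioo, ENNReal.toReal_ofReal (by linarith : (0:ℝ) ≤
    Real.sqrt R + Real.sqrt R)]
  ring

lemma integral_sqrt_sub_sq {R : ℝ} (hR : R ≤ 1 / 4) :
    ∫ s in (-1/2 : ℝ)..(1/2), Real.sqrt (R - s ^ 2) = Real.pi / 2 * max 0 R := by
  have hc : Continuous fun s : ℝ => Real.sqrt (R - s ^ 2) := by fun_prop
  rcases le_or_gt R 0 with h | h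
  · rw [max_eq_left h, mul_zero,
      intervalIntegral.integral_congr (g := fun _ => (0 : ℝ)) fun t _ => ?_,
      intervalIntegral.integral_zero]
    exact Real.sqrt_eq_zero'.2 (by nlinarith [sq_nonneg t])
  rw [max_eq_right h.le]
  set w := Real.sqrt R with hw
  have hw2 : w ^ 2 = R := Real.sq_sqrt h.le
  have hw0 : 0 < w := Real.sqrt_pos.2 h
  have hwh : w ≤ 1 / 2 := Real.sqrt_le_iff.2 ⟨by norm_num, by linarith⟩
  have hz : ∀ u v, u ≤ v → (v ≤ -w ∨ w ≤ u) → ∫ s in u..v, Real.sqrt (R - s ^ 2) = 0 := by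
    intro u v huv hside
    rw [intervalIntegral.integral_congr (g := fun _ => (0 : ℝ)) fun t ht => ?_,
      intervalIntegral.integral_zero]
    rw [uIcc_of_le huv] at ht
    refine Real.sqrt_eq_zero'.2 ?_
    rcases hside with h' | h' <;> nlinarith [ht.1, ht.2]
  have hin : ∀ s ∈ uIcc (-w) w, Real.sqrt (R - s ^ 2) = w * Real.sqrt (1 - (w⁻¹ * s) ^ 2) := by
    intro s _
    rw [show R - s ^ 2 = w ^ 2 * (1 - (w⁻¹ * s) ^ 2) by rw [← hw2]; field_simp,
      Real.sqrt_mul (sq_nonneg w), Real.sqrt_sq hw0.le]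
  rw [← intervalIntegral.integral_add_adjacent_intervals (hc.intervalIntegrable (-1/2) (-w))
      (hc.intervalIntegrable (-w) _),
    ← intervalIntegral.integral_add_adjacent_intervals (hc.intervalIntegrable (-w) w)
      (hc.intervalIntegrable w _), hz _ _ (by linarith) (Or.inl le_rfl),
    hz w _ hwh (Or.inr le_rfl), zero_add, add_zero, intervalIntegral.integral_congr hin,
    intervalIntegral.integral_const_mul,
    intervalIntegral.integral_comp_mul_left (fun u => Real.sqrt (1 - u ^ 2)) (inv_ne_zero hw0.ne'),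
    mul_neg, inv_mul_cancel₀ hw0.ne', inv_inv, integral_sqrt_one_sub_sq, smul_eq_mul, ← hw2]
  ring

/-- The area of a periodic disc in the cell. -/
lemma integral_disc {i j : Fin 3} (hij : i ≠ j) {R : ℝ} (hR : R ≤ 1 / 4) (a b : ℝ) :
    ∫ x in cell, (if dnear (x i - a) ^ 2 + dnear (x j - b) ^ 2 < R then (1 : ℝ) else 0)
      = Real.pi * max 0 R := by
  rw [plane_integral hij
    (φ := fun s t => if dnear s ^ 2 + dnear t ^ 2 < R then (1 : ℝ) else 0)
    (Measurable.ite (measurableSet_lt (((measurable_dnear.comp measurable_fst).pow_const 2).add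
      ((measurable_dnear.comp measurable_snd).pow_const 2)) measurable_const)
      measurable_const measurable_const)
    (D := 1) (fun s t => by split_ifs <;> simp) (fun s t => by simp only [dnear_add_one])
    (fun s t => by simp only [dnear_add_one]) a b,
    intervalIntegral.integral_congr (g := fun s => 2 * Real.sqrt (R - s ^ 2)) fun s hs => ?_,
    intervalIntegral.integral_const_mul, integral_sqrt_sub_sq hR]
  · ring
  rw [uIcc_of_le (by norm_num)] at hs
  refine Eq.trans ?_ (integral_ind_sq_lt (R := R - s ^ 2) (by nlinarith [sq_nonneg s]))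
  refine intervalIntegral.integral_congr fun t ht => ?_
  rw [uIcc_of_le (by norm_num)] at ht
  simp only [dnear_sq_of_abs_le (abs_le.2 ⟨by linarith [hs.1], hs.2⟩),
    dnear_sq_of_abs_le (abs_le.2 ⟨by linarith [ht.1], ht.2⟩), lt_sub_iff_add_lt']

/-- The length of a periodic interval, as a slice of a slab in the cell. -/
lemma integral_segment {j l : Fin 3} (hjl : j ≠ l) {R : ℝ} (hR : R ≤ 1 / 4) (b : ℝ) :
    ∫ x in cell, (if dnear (x j - b) ^ 2 < R then (1 : ℝ) else 0) = 2 * Real.sqrt R := by
  refine (plane_integral hjl (φ := fun s _ => if dnear s ^ 2 < R then (1 : ℝ) else 0)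
    (Measurable.ite (measurableSet_lt ((measurable_dnear.comp measurable_fst).pow_const 2)
      measurable_const) measurable_const measurable_const)
    (D := 1) (fun s t => by split_ifs <;> simp) (fun s t => by simp only [dnear_add_one])
    (fun s t => rfl) b 0).trans ?_
  refine Eq.trans ?_ (integral_ind_sq_lt hR)
  refine intervalIntegral.integral_congr fun s hs => ?_
  rw [uIcc_of_le (by norm_num)] at hs
  simp only [intervalIntegral.integral_const, smul_eq_mul,
    dnear_sq_of_abs_le (abs_le.2 ⟨by linarith [hs.1], hs.2⟩)]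
  norm_num

/-- The slice areas of a ball. -/
lemma sliceVol_ballSet {c : R3} {r : ℝ} (hr0 : 0 ≤ r) (hr : r ≤ 1 / 2) (k : Fin 3) (s : ℝ) :
    sliceVol (ballSet c r) k s = Real.pi * max 0 (r ^ 2 - dnear (s - c k) ^ 2) := by
  obtain ⟨i, hik, -⟩ := exists_ne_two k k
  obtain ⟨j, hjk, hji⟩ := exists_ne_two k i
  rw [← integral_disc hji.symm (R := r ^ 2 - dnear (s - c k) ^ 2)
    (by nlinarith [sq_nonneg (dnear (s - c k))]) (c i) (c j)]
  refine setIntegral_congr_fun measurableSet_cell fun x _ => ?_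
  rw [ind_sliceCyl]
  have h : toSlice k s x ∈ ballSet c r ↔
      dnear (x i - c i) ^ 2 + dnear (x j - c j) ^ 2 < r ^ 2 - dnear (s - c k) ^ 2 := by
    rw [mem_ballSet_iff, three_sum hji.symm hik hjk, toSlice_apply_self,
      toSlice_apply_ne hik.symm, toSlice_apply_ne hjk.symm]
    constructor <;> intro h <;> linarith
  by_cases hx : toSlice k s x ∈ ballSet c r
  · rw [ind_of_mem hx, if_pos (h.1 hx)]
  · rw [ind_of_notMem hx, if_neg (mt h.2 hx)]

/-- The line lengths of a tube. -/
lemma sliceVol_tube {i j k : Fin 3} (hij : i ≠ j) (hik : i ≠ k) (hjk : j ≠ k) (a b : ℝ) {r : ℝ}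
    (hr0 : 0 ≤ r) (hr : r ≤ 1 / 2) (s : ℝ) :
    sliceVol (tube k (a • e i + b • e j) r) i s = 2 * Real.sqrt (r ^ 2 - dnear (s - a) ^ 2) := by
  rw [← integral_segment hjk (R := r ^ 2 - dnear (s - a) ^ 2)
    (by nlinarith [sq_nonneg (dnear (s - a))]) b]
  refine setIntegral_congr_fun measurableSet_cell fun x _ => ?_
  rw [ind_sliceCyl]
  have h : toSlice i s x ∈ tube k (a • e i + b • e j) r ↔
      dnear (x j - b) ^ 2 < r ^ 2 - dnear (s - a) ^ 2 := by
    rw [mem_tube_iff hij hik hjk, toSlice_apply_self, toSlice_apply_ne hij]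
    constructor <;> intro h <;> linarith
  by_cases hx : toSlice i s x ∈ tube k (a • e i + b • e j) r
  · rw [ind_of_mem hx, if_pos (h.1 hx)]
  · rw [ind_of_notMem hx, if_neg (mt h.2 hx)]

/-- An integral of a function of one coordinate over a periodic set. -/
lemma integral_ind_mul_coord {C : Set R3} (hC : MeasurableSet C) (hp : IsPeriodicSet C)
    {φ : ℝ → ℝ} (hm : Measurable φ) (hb : ∀ u, |φ u| ≤ 1) (hφ : Function.Periodic φ 1)
    (k : Fin 3) :
    ∫ x in cell, ind C x * φ (x k) = ∫ s in Ioc (0 : ℝ) 1, φ s * sliceVol C k s := by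
  rw [← setIntegral_toSlice (h := fun x => ind C x * φ (x k)) (C := 1)
    ((measurable_ind hC).mul (hm.comp (PiLp.continuous_apply 2 _ k).measurable))
    (fun x => by rw [abs_mul]; exact mul_le_one₀ (abs_ind_le C x) (abs_nonneg _) (hb _))
    ((isPer_ind hp).comp₂ (fun l x => show φ ((x + e l) k) = φ (x k) by
      by_cases a : k = l
      · subst a
        simp only [PiLp.add_apply, e_self]
        exact hφ _
      · simp [e_ne (Ne.symm a)]) fun u v => u * v) k]
  refine setIntegral_congr_fun measurableSet_Ioc fun s _ => ?_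
  simp only [toSlice_apply_self, integral_mul_const, sliceVol, ind_sliceCyl]
  ring

/-- **The bathtub principle.** A set with the slice functions of a sublevel set of a sum of
functions of single coordinates is that sublevel set. -/
theorem aeEq_of_slices {C B : Set R3} (hC : MeasurableSet C) (hpC : IsPeriodicSet C)
    (hB : MeasurableSet B) (hpB : IsPeriodicSet B) {T : Finset (Fin 3)} {l₀ : Fin 3}
    (hl₀ : l₀ ∈ T) (c : R3) (R : ℝ)
    (hmem : ∀ x, x ∈ B ↔ ∑ l ∈ T, dnear (x l - c l) ^ 2 < R)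
    (hs : ∀ l ∈ T, ∀ᵐ s ∂volume.restrict (Ioc (0 : ℝ) 1), sliceVol C l s = sliceVol B l s) :
    AEEq C B := by
  have hco : ∀ l : Fin 3, Measurable fun x : R3 => x l := fun l =>
    (PiLp.continuous_apply 2 _ l).measurable
  have heq : ∀ l ∈ T, ∀ φ : ℝ → ℝ, Measurable φ → (∀ u, |φ u| ≤ 1) → Function.Periodic φ 1 →
      ∫ x in cell, ind C x * φ (x l) = ∫ x in cell, ind B x * φ (x l) := fun l hl φ hm hb hφ => by
    rw [integral_ind_mul_coord hC hpC hm hb hφ, integral_ind_mul_coord hB hpB hm hb hφ]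
    exact integral_congr_ae ((hs l hl).mono fun s h => by simp only [h])
  have hvol : ∫ x in cell, ind C x = ∫ x in cell, ind B x := by
    simpa using heq l₀ hl₀ (fun _ => 1) measurable_const (by simp) (fun _ => rfl)
  set d : Fin 3 → R3 → ℝ := fun l x => dnear (x l - c l) ^ 2 with hd
  have hdb : ∀ (l : Fin 3) (x : R3), |d l x| ≤ 1 := fun l x => by
    simp only [hd, abs_pow]
    nlinarith [dnear_mem (x l - c l), abs_nonneg (dnear (x l - c l))]
  have hdm : ∀ l, Measurable (d l) := fun l =>
    ((measurable_dnear.comp ((hco l).sub_const (c l))).pow_const 2)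
  have hiC : IntegrableOn (ind C) cell := integrable_cell_of_bound (measurable_ind hC) (abs_ind_le C)
  have hiB : IntegrableOn (ind B) cell := integrable_cell_of_bound (measurable_ind hB) (abs_ind_le B)
  have hid : ∀ {A : Set R3}, MeasurableSet A → ∀ l,
      IntegrableOn (fun x => ind A x * d l x) cell := fun {A} hA l =>
    integrable_cell_of_bound (C := 1) ((measurable_ind hA).mul (hdm l)) fun x => by
      rw [abs_mul]; exact mul_le_one₀ (abs_ind_le A x) (abs_nonneg _) (hdb l x)
  set g : R3 → ℝ := fun x => R - ∑ l ∈ T, d l x with hg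
  have hint : ∀ {A : Set R3}, MeasurableSet A → IntegrableOn (fun x => ind A x * g x) cell
      ∧ ∫ x in cell, ind A x * g x
        = R * (∫ x in cell, ind A x) - ∑ l ∈ T, ∫ x in cell, ind A x * d l x := fun {A} hA => by
    have hiA : IntegrableOn (ind A) cell :=
      integrable_cell_of_bound (measurable_ind hA) (abs_ind_le A)
    have e : (fun x => ind A x * g x) = fun x => R * ind A x - ∑ l ∈ T, ind A x * d l x := by
      funext x; simp only [hg, mul_sub, Finset.mul_sum]; ring
    have hsum : IntegrableOn (fun x => ∑ l ∈ T, ind A x * d l x) cell :=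
      integrable_finsetSum _ fun l _ => hid hA l
    rw [e]
    refine ⟨(hiA.const_mul R).sub hsum, ?_⟩
    rw [integral_sub (hiA.const_mul R) hsum, integral_const_mul,
      integral_finsetSum _ fun l _ => hid hA l]
  have hgg : ∫ x in cell, (ind B x * g x - ind C x * g x) = 0 := by
    rw [integral_sub (hint hB).1 (hint hC).1, (hint hB).2, (hint hC).2, hvol,
      Finset.sum_congr rfl fun l hl => heq l hl (fun u => dnear (u - c l) ^ 2)
        ((measurable_dnear.comp (measurable_id.sub_const _)).pow_const 2)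
        (fun u => by rw [abs_pow]; nlinarith [dnear_mem (u - c l), abs_nonneg (dnear (u - c l))])
        (fun u => by simp only [show u + 1 - c l = u - c l + 1 by ring, dnear_add_one]),
      sub_self]
  have hnn : ∀ x, 0 ≤ ind B x * g x - ind C x * g x := fun x => by
    by_cases hx : x ∈ B
    · have : 0 < g x := sub_pos.2 ((hmem x).1 hx)
      rw [ind_of_mem hx]
      nlinarith [(ind_mem C x).2]
    · have : g x ≤ 0 := sub_nonpos.2 (not_lt.1 (mt (hmem x).2 hx))
      rw [ind_of_notMem hx]
      nlinarith [(ind_mem C x).1]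
  have hsub : ∀ᵐ x ∂volume.restrict cell, 0 ≤ ind C x - ind B x := by
    filter_upwards [(integral_eq_zero_iff_of_nonneg hnn ((hint hB).1.sub (hint hC).1)).1 hgg]
      with x hx
    by_cases hxB : x ∈ B
    · have : 0 < g x := sub_pos.2 ((hmem x).1 hxB)
      simp only [Pi.zero_apply, ind_of_mem hxB] at hx
      rw [ind_of_mem hxB]
      nlinarith
    · rw [ind_of_notMem hxB, sub_zero]
      exact (ind_mem C x).1
  have hz : ∫ x in cell, (ind C x - ind B x) = 0 := by rw [integral_sub hiC hiB, hvol, sub_self]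
  filter_upwards [(integral_eq_zero_iff_of_nonneg_ae hsub (hiC.sub hiB)).1 hz] with x hx
  simp only [Pi.zero_apply] at hx
  refine propext ?_
  show x ∈ C ↔ x ∈ B
  by_cases h1 : x ∈ C <;> by_cases h2 : x ∈ B <;>
    simp [h1, h2, ind_of_mem, ind_of_notMem] at hx ⊢

/-- **A set with the slice areas of a ball is that ball.** -/
theorem aeEq_ball_of_slices {C : Set R3} (hC : MeasurableSet C) (hp : IsPeriodicSet C) (c : R3)
    {r : ℝ} (hr0 : 0 ≤ r) (hr : r ≤ 1 / 2)
    (hs : ∀ k, ∀ᵐ s ∂volume.restrict (Ioc (0 : ℝ) 1),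
      sliceVol C k s = Real.pi * max 0 (r ^ 2 - dnear (s - c k) ^ 2)) :
    AEEq C (ballSet c r) := by
  refine aeEq_of_slices hC hp (isOpen_ballSet c r).measurableSet (isPeriodicSet_ballSet c r)
    (Finset.mem_univ (0 : Fin 3)) c (r ^ 2) (mem_ballSet_iff c r) fun k _ => ?_
  filter_upwards [hs k] with s h
  rw [h, sliceVol_ballSet hr0 hr]

/-- **A set with the line lengths of a disc in two directions is that tube.** -/
theorem aeEq_tube_of_slices {C : Set R3} {i j k : Fin 3} (hij : i ≠ j) (hik : i ≠ k) (hjk : j ≠ k)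
    (hC : MeasurableSet C) (hp : IsPeriodicSet C) {a b r : ℝ} (hr0 : 0 ≤ r) (hr : r ≤ 1 / 2)
    (hi : ∀ᵐ s ∂volume.restrict (Ioc (0 : ℝ) 1),
      sliceVol C i s = 2 * Real.sqrt (r ^ 2 - dnear (s - a) ^ 2))
    (hj : ∀ᵐ s ∂volume.restrict (Ioc (0 : ℝ) 1),
      sliceVol C j s = 2 * Real.sqrt (r ^ 2 - dnear (s - b) ^ 2)) :
    AEEq C (tube k (a • e i + b • e j) r) := by
  refine aeEq_of_slices hC hp (isOpen_tube _ _ _).measurableSet (isPeriodicSet_tube _ _ _)
    (T := {i, j}) (Finset.mem_insert_self i _) (a • e i + b • e j) (r ^ 2) (fun x => ?_)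
    fun l hl => ?_
  · rw [mem_tube_iff hij hik hjk, Finset.sum_pair hij]
    simp [e_self, e_ne hij, e_ne hij.symm]
  · simp only [Finset.mem_insert, Finset.mem_singleton] at hl
    rcases hl with rfl | rfl
    · filter_upwards [hi] with s h
      rw [h, sliceVol_tube hij hik hjk a b hr0 hr]
    · filter_upwards [hj] with s h
      rw [h, add_comm, sliceVol_tube hij.symm hjk hik b a hr0 hr]

end Vale.Agent.P232
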