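import Vale.Agent.P232.Uniq.Select

/-!
An invariant set that leaves, in both planar directions, a set of lines of positive measure empty
can be compressed; this gives the planar isoperimetric bound from the single volume `1/π`.
-/

open MeasureTheory Set Filter
open scoped ENNReal Topology Pointwise

namespace Vale.Agent.P232

/-- The widths of the cut-offs. -/
noncomputable def cutR (n : ℕ) : ℝ := 1 / ((n : ℝ) + 4)

lemma cutR_pos (n : ℕ) : 0 < cutR n := by unfold cutR; positivity

lemma cutR_le (n : ℕ) : cutR n ≤ 1 / 4 :=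
  one_div_le_one_div_of_le (by norm_num) (by linarith [(Nat.cast_nonneg n : (0:ℝ) ≤ n)])

lemma tendsto_cutR : Tendsto cutR atTop (𝓝 0) := by
  have h := (tendsto_add_atTop_iff_nat 3).2
    (tendsto_one_div_add_atTop_nhds_zero_nat : Tendsto (fun n : ℕ => 1 / ((n : ℝ) + 1)) atTop (𝓝 0))
  refine h.congr fun n => ?_
  simp only [cutR]; push_cast; ring_nf

/-- A periodic cut-off, zero near the integers. -/
noncomputable def cut (n : ℕ) (s : ℝ) : ℝ :=
  Real.smoothTransition ((Real.sin (Real.pi * s) ^ 2 - cutR n ^ 2) / (3 * cutR n ^ 2))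

lemma cut_periodic (n : ℕ) : Function.Periodic (cut n) 1 := fun s => by
  simp only [cut, mul_add, mul_one, Real.sin_add_pi, neg_sq]

lemma contDiff_cut (n : ℕ) : ContDiff ℝ 1 (cut n) :=
  Real.smoothTransition.contDiff.comp
    ((((Real.contDiff_sin.comp (contDiff_const.mul contDiff_id)).pow 2).sub contDiff_const).div_const
      _)

lemma cut_mem (n : ℕ) (s : ℝ) : cut n s ∈ Icc (0 : ℝ) 1 :=
  ⟨Real.smoothTransition.nonneg _, Real.smoothTransition.le_one _⟩

lemma cut_eventually_zero (n : ℕ) (m : ℤ) : ∀ᶠ s in 𝓝 (m : ℝ), cut n s = 0 := by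
  have hc : Continuous fun s : ℝ => Real.sin (Real.pi * s) ^ 2 := by fun_prop
  have h0 : Real.sin (Real.pi * (m : ℝ)) ^ 2 < cutR n ^ 2 := by
    rw [mul_comm, Real.sin_int_mul_pi]
    simpa using pow_pos (cutR_pos n) 2
  filter_upwards [hc.continuousAt.eventually (eventually_lt_nhds h0)] with s hs
  exact Real.smoothTransition.zero_of_nonpos
    (div_nonpos_of_nonpos_of_nonneg (by linarith) (by positivity))

lemma tendsto_cut {s : ℝ} (hs : Real.sin (Real.pi * s) ≠ 0) :
    Tendsto (fun n => cut n s) atTop (𝓝 1) := by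
  refine tendsto_const_nhds.congr' ?_
  have h4 : Tendsto (fun n => 4 * cutR n ^ 2) atTop (𝓝 0) := by
    simpa using (tendsto_cutR.pow 2).const_mul 4
  have hp : (0 : ℝ) < Real.sin (Real.pi * s) ^ 2 := by positivity
  filter_upwards [h4.eventually (eventually_lt_nhds hp)] with n hn
  refine (Real.smoothTransition.one_of_one_le ?_).symm
  rw [le_div_iff₀ (by have := cutR_pos n; positivity)]
  linarith

lemma exists_deriv_cut_bound : ∃ A, 0 ≤ A ∧ ∀ n s, |deriv (cut n) s| ≤ A / cutR n ∧
    (|s| ≤ 1/2 → cutR n < |s| → deriv (cut n) s = 0) := by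
  set T : ℝ → ℝ := Real.smoothTransition with hT
  have hTd : ∀ t, HasDerivAt T (deriv T t) t := fun t =>
    ((Real.smoothTransition.contDiff (n := 1)).differentiable one_ne_zero t).hasDerivAt
  have hTc : Continuous (deriv T) :=
    (Real.smoothTransition.contDiff (n := 1)).continuous_deriv le_rfl
  obtain ⟨K, hK⟩ := (isCompact_Icc (a := (0:ℝ)) (b := 1)).exists_bound_of_continuousOn hTc.continuousOn
  have hK' : ∀ t, |deriv T t| ≤ max K 0 := fun t => by
    by_cases ht : t ∈ Icc (0 : ℝ) 1
    · exact (hK t ht).trans (le_max_left _ _)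
    · have h0 : deriv T t = 0 := by
        rw [mem_Icc, not_and_or, not_le, not_le] at ht
        rcases ht with h | h
        · have : T =ᶠ[𝓝 t] fun _ => 0 := (eventually_lt_nhds h).mono fun u hu =>
            Real.smoothTransition.zero_of_nonpos hu.le
          rw [this.deriv_eq]; simp
        · have : T =ᶠ[𝓝 t] fun _ => 1 := (eventually_gt_nhds h).mono fun u hu =>
            Real.smoothTransition.one_of_one_le hu.le
          rw [this.deriv_eq]; simp
      rw [h0]; simp
  refine ⟨max K 0 * (4 * Real.pi / 3), by positivity, fun n s => ?_⟩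
  set r := cutR n
  have hr := cutR_pos n
  set u := (Real.sin (Real.pi * s) ^ 2 - r ^ 2) / (3 * r ^ 2) with hu
  have hder : deriv (cut n) s =
      deriv T u * (2 * Real.sin (Real.pi * s) * (Real.cos (Real.pi * s) * Real.pi) / (3 * r ^ 2)) := by
    have h1 : HasDerivAt (fun s : ℝ => Real.sin (Real.pi * s))
        (Real.cos (Real.pi * s) * Real.pi) s := by
      simpa using ((hasDerivAt_id s).const_mul Real.pi).sin
    have h2 : HasDerivAt (fun s : ℝ => (Real.sin (Real.pi * s) ^ 2 - r ^ 2) / (3 * r ^ 2))
        (2 * Real.sin (Real.pi * s) * (Real.cos (Real.pi * s) * Real.pi) / (3 * r ^ 2)) s := by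
      simpa using ((h1.pow 2).sub_const (r ^ 2)).div_const (3 * r ^ 2)
    exact ((hTd u).comp s h2).deriv
  have hzero : 2 * r < |Real.sin (Real.pi * s)| → deriv (cut n) s = 0 := by
    intro h
    have hu1 : 1 < u := by
      rw [hu, lt_div_iff₀ (by positivity)]
      nlinarith [sq_abs (Real.sin (Real.pi * s)), abs_nonneg (Real.sin (Real.pi * s))]
    have h0 : deriv T u = 0 := by
      have : T =ᶠ[𝓝 u] fun _ => 1 := (eventually_gt_nhds hu1).mono fun v hv =>
        Real.smoothTransition.one_of_one_le hv.le
      rw [this.deriv_eq]; simp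
    rw [hder, h0, zero_mul]
  refine ⟨?_, fun h1 h2 => hzero ?_⟩
  · by_cases h : 2 * r < |Real.sin (Real.pi * s)|
    · rw [hzero h, abs_zero]; positivity
    · rw [hder, abs_mul]
      have h' := not_lt.1 h
      have hc := Real.abs_cos_le_one (Real.pi * s)
      calc _ ≤ max K 0 * (4 * r * Real.pi / (3 * r ^ 2)) := by
            refine mul_le_mul (hK' u) ?_ (abs_nonneg _) (le_max_right _ _)
            simp only [abs_div, abs_mul, abs_two, abs_of_pos Real.pi_pos]
            rw [abs_of_nonneg (sq_nonneg r), abs_of_pos (by norm_num : (0:ℝ) < 3)]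
            refine div_le_div_of_nonneg_right ?_ (by positivity)
            nlinarith [mul_le_mul h' hc (abs_nonneg _) (by positivity), Real.pi_pos]
        _ = _ := by field_simp
  · have hx : |Real.pi * s| ≤ Real.pi / 2 := by
      rw [abs_mul, abs_of_pos Real.pi_pos]; nlinarith [Real.pi_pos]
    have := Real.mul_abs_le_abs_sin hx
    rw [abs_mul, abs_of_pos Real.pi_pos, ← mul_assoc, div_mul_cancel₀ _ Real.pi_ne_zero] at this
    linarith

lemma periodic_sliceVol {C : Set R3} (hp : IsPeriodicSet C) (k : Fin 3) :
    Function.Periodic (sliceVol C k) 1 := fun s => by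
  simp only [sliceVol, ind_sliceCyl]
  refine setIntegral_congr_fun measurableSet_cell fun x _ => ?_
  rw [show toSlice k (s + 1) x = toSlice k s x + e k by simp only [toSlice]; module]
  exact isPer_ind hp k _

lemma measurable_sliceVol {C : Set R3} (hC : MeasurableSet C) (k : Fin 3) :
    Measurable (sliceVol C k) := by
  have hm : Measurable fun p : ℝ × R3 => ind C (toSlice k p.1 p.2) :=
    (measurable_ind hC).comp (continuous_toSlice k).measurable
  simp only [funext fun s => show sliceVol C k s = ∫ x in cell, ind C (toSlice k s x) by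
    simp only [sliceVol, ind_sliceCyl]]
  exact (hm.stronglyMeasurable.integral_prod_right' (ν := volume.restrict cell)).measurable

lemma sliceVol_mem (C : Set R3) (k : Fin 3) (s : ℝ) : sliceVol C k s ∈ Icc (0 : ℝ) 1 := by
  refine ⟨integral_nonneg fun x => (ind_mem _ x).1, (le_abs_self _).trans ?_⟩
  refine (norm_integral_le_of_norm_le_const (ae_of_all _ fun x => (Real.norm_eq_abs _).le.trans (abs_ind_le _ x))).trans ?_
  simp [Measure.real, volume_cell]

/-- A height with an empty slice where the slices are empty in density. -/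
lemma exists_empty_height {C : Set R3} (hC : MeasurableSet C) (k : Fin 3)
    (h : ¬ ∀ᵐ s ∂volume.restrict (Ioc (0 : ℝ) 1), sliceVol C k s ≠ 0) :
    ∃ s₀, Tendsto (fun n => (∫ s in (s₀ - cutR n)..(s₀ + cutR n), sliceVol C k s) / cutR n)
      atTop (𝓝 0) := by
  have hloc : LocallyIntegrable (sliceVol C k) volume :=
    (locallyIntegrable_const (1 : ℝ)).mono (measurable_sliceVol hC k).aestronglyMeasurable
      (ae_of_all _ fun s => by
        simpa [abs_of_nonneg (sliceVol_mem C k s).1] using (sliceVol_mem C k s).2)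
  obtain ⟨s₀, hs0, hd⟩ : ∃ s₀, sliceVol C k s₀ = 0 ∧
      HasDerivAt (fun x => ∫ t in (0 : ℝ)..x, sliceVol C k t) (sliceVol C k s₀) s₀ := by
    by_contra hcon
    push Not at hcon
    exact h ((ae_restrict_of_ae (LocallyIntegrable.ae_hasDerivAt_integral hloc)).mono fun s hs hz =>
      hcon s hz (hs 0))
  refine ⟨s₀, ?_⟩
  rw [hs0] at hd
  set G : ℝ → ℝ := fun x => ∫ t in (0 : ℝ)..x, sliceVol C k t
  have hr : Tendsto cutR atTop (𝓝[>] 0) := tendsto_nhdsWithin_iff.2
    ⟨tendsto_cutR, Eventually.of_forall fun n => cutR_pos n⟩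
  have hl : Tendsto (fun n => -cutR n) atTop (𝓝[<] 0) := tendsto_nhdsWithin_iff.2
    ⟨by simpa using tendsto_cutR.neg, Eventually.of_forall fun n => neg_lt_zero.2 (cutR_pos n)⟩
  have key := (hd.tendsto_slope_zero_right.comp hr).add (hd.tendsto_slope_zero_left.comp hl)
  rw [add_zero] at key
  refine key.congr fun n => ?_
  have i : ∀ a b : ℝ, IntervalIntegrable (sliceVol C k) volume a b := fun a b =>
    intervalIntegrable_iff.2 ((hloc.integrableOn_isCompact isCompact_uIcc).mono_set uIoc_subset_uIcc)
  rw [← intervalIntegral.integral_interval_sub_left (i 0 _) (i 0 _)]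
  simp only [Function.comp_apply, smul_eq_mul, G]
  have := cutR_pos n
  field_simp
  ring

lemma fract_add_e (l m : Fin 3) (x : R3) : Int.fract ((x + e m) l) = Int.fract (x l) := by
  by_cases a : m = l
  · subst a; simp [e_self, Int.fract_add_one]
  · simp [e_ne a]

lemma coord_cases : ∀ {i j k : Fin 3}, i ≠ j → i ≠ k → j ≠ k → ∀ l, l = i ∨ l = j ∨ l = k := by
  decide

lemma three_sum {i j k : Fin 3} (hij : i ≠ j) (hik : i ≠ k) (hjk : j ≠ k) (f : Fin 3 → ℝ) :
    ∑ l, f l = f i + f j + f k := by
  rw [show (Finset.univ : Finset (Fin 3)) = {i, j, k} from (Finset.eq_univ_of_forall fun l => by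
      simpa using coord_cases hij hik hjk l).symm]
  simp [hij, hik, hjk, add_assoc]

lemma eq_three {i j k : Fin 3} (hij : i ≠ j) (hik : i ≠ k) (hjk : j ≠ k) (x : R3) :
    x = x i • e i + x j • e j + x k • e k := by
  ext l
  rcases coord_cases hij hik hjk l with rfl | rfl | rfl <;>
    simp [e_self, e_ne, hij, hik, hjk, hij.symm, hik.symm, hjk.symm]

/-- The planar point above which the compressed set is evaluated. -/
noncomputable def plane (i j : Fin 3) (lam : ℝ) (x : R3) : R3 :=
  (Int.fract (x i) / lam) • e i + (Int.fract (x j) / lam) • e j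

/-- The compressed set. -/
def squeezeSet (C : Set R3) (i j : Fin 3) (lam : ℝ) : Set R3 :=
  {x | (Int.fract (x i) < lam ∧ Int.fract (x j) < lam) ∧ plane i j lam x ∈ C}

lemma isPeriodicSet_squeeze (C : Set R3) (i j : Fin 3) (lam : ℝ) :
    IsPeriodicSet (squeezeSet C i j lam) := fun m x => by
  simp only [squeezeSet, plane, mem_ofPred_eq, fract_add_e]

lemma measurableSet_squeeze {C : Set R3} (hC : MeasurableSet C) (i j : Fin 3) (lam : ℝ) :
    MeasurableSet (squeezeSet C i j lam) := by
  have hfm : ∀ l : Fin 3, Measurable fun x : R3 => Int.fract (x l) := fun l =>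
    measurable_fract.comp (PiLp.continuous_apply 2 _ l).measurable
  exact ((measurableSet_lt (hfm i) measurable_const).inter
    (measurableSet_lt (hfm j) measurable_const)).inter
    (hC.preimage (((hfm i).div_const lam).smul_const (e i) |>.add
      (((hfm j).div_const lam).smul_const (e j))))

lemma invAlong_squeeze (C : Set R3) {i j k : Fin 3} (hik : i ≠ k) (hjk : j ≠ k) (lam : ℝ) :
    InvAlong (squeezeSet C i j lam) k := fun x t => by
  simp [squeezeSet, plane, e_ne (Ne.symm hik), e_ne (Ne.symm hjk)]

section core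

variable {C : Set R3} {i j k : Fin 3} (hij : i ≠ j) (hik : i ≠ k) (hjk : j ≠ k)
  (hC : MeasurableSet C) (hp : IsPeriodicSet C) (hk : InvAlong C k)

include hij hik hjk hk in
lemma ind_plane (x : R3) : ind C ((x i) • e i + (x j) • e j) = ind C x := by
  conv_rhs => rw [eq_three hij hik hjk x]
  exact (hk.ind_eq _ _).symm

include hij hik hjk hC hk in
/-- The integral over the compressed set. -/
lemma setIntegral_squeeze {lam : ℝ} (h0 : 0 < lam) (h1 : lam ≤ 1) {h : R3 → ℝ} {D : ℝ}
    (hm : Measurable h) (hb : ∀ x, |h x| ≤ D) (hhp : IsPer h)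
    (hhi : ∀ x (t : ℝ), h (x + t • e k) = h x) :
    ∫ x in cell, ind (squeezeSet C i j lam) x * h x
      = lam ^ 2 * ∫ y in cell, ind C y * h (lam • y) := by
  set B := squeezeSet C i j lam with hB
  have hBm : MeasurableSet B := measurableSet_squeeze hC i j lam
  have hBp : IsPeriodicSet B := isPeriodicSet_squeeze C i j lam
  have hBk : InvAlong B k := invAlong_squeeze C hik hjk lam
  have hHm : Measurable fun x => ind B x * h x := (measurable_ind hBm).mul hm
  have hHb : ∀ x, |ind B x * h x| ≤ D := fun x => by
    rw [abs_mul]; exact (mul_le_of_le_one_left (abs_nonneg _) (abs_ind_le B x)).trans (hb x)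
  -- only the heights below `lam` are needed
  set H := heights k (Ico (0 : ℝ) lam) with hH
  have hHH : Measurable fun x => ind H x * (ind B x * h x) :=
    (measurable_ind (measurableSet_heights k measurableSet_Ico)).mul hHm
  have hcut : ∫ x in cell, ind H x * (ind B x * h x) = lam * ∫ x in cell, ind B x * h x := by
    rw [← setIntegral_toSlice hHH (C := D) (fun x => by
        rw [abs_mul]; exact (mul_le_of_le_one_left (abs_nonneg _) (abs_ind_le H x)).trans (hHb x))
      ((isPer_ind (isPeriodicSet_heights k _)).comp₂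
        ((isPer_ind hBp).comp₂ hhp fun a b => a * b) fun a b => a * b) k]
    have e1 : ∀ᵐ s ∂volume.restrict (Ioc (0 : ℝ) 1),
        (∫ x in cell, ind H (toSlice k s x) * (ind B (toSlice k s x) * h (toSlice k s x)))
          = (Ioo (0 : ℝ) lam).indicator (fun _ => ∫ x in cell, ind B x * h x) s := by
      rw [← Measure.restrict_congr_set Ioo_ae_eq_Ioc]
      filter_upwards [ae_restrict_mem measurableSet_Ioo] with s hs
      have hf : Int.fract s = s := Int.fract_eq_self.2 ⟨hs.1.le, hs.2⟩
      have hinv : ∀ x, ind B (toSlice k s x) * h (toSlice k s x) = ind B x * h x := fun x => by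
        simp only [toSlice, hBk.ind_eq, hhi]
      simp only [hinv]
      by_cases a : s < lam
      · rw [indicator_of_mem (show s ∈ Ioo (0:ℝ) lam from ⟨hs.1, a⟩)]
        refine setIntegral_congr_fun measurableSet_cell fun x _ => ?_
        rw [ind_of_mem, one_mul]
        simp [hH, heights, toSlice_apply_self, hf, hs.1.le, a]
      · rw [indicator_of_notMem (fun m : s ∈ Ioo (0:ℝ) lam => a m.2)]
        refine integral_eq_zero_of_ae (ae_of_all _ fun x => ?_)
        simp only [Pi.zero_apply]
        rw [ind_of_notMem]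
        · simp
        · simp [hH, heights, toSlice_apply_self, hf, a]
    rw [integral_congr_ae e1, setIntegral_indicator measurableSet_Ioo,
      inter_eq_right.2 (show Ioo (0:ℝ) lam ⊆ Ioc 0 1 from fun s hs => ⟨hs.1, hs.2.le.trans h1⟩)]
    simp [Measure.real, Real.volume_Ioo, h0.le]
  -- the scaled cell
  have hsub : lam • cell ⊆ cell := by
    rintro _ ⟨y, hy, rfl⟩ l
    obtain ⟨a, b⟩ := hy l
    simp only [PiLp.smul_apply, smul_eq_mul]
    constructor <;> nlinarith
  have hscell : MeasurableSet (lam • cell) := measurableSet_cell.const_smul₀ lam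
  have hpt : ∀ x ∈ cell, ind H x * (ind B x * h x)
      = (lam • cell).indicator (fun x => ind B x * h x) x := fun x hx => by
    have hf : ∀ l, Int.fract (x l) = x l := fun l => Int.fract_eq_self.2 ⟨(hx l).1, (hx l).2⟩
    have hmem : x ∈ lam • cell ↔ ∀ l, x l < lam := by
      rw [mem_smul_set_iff_inv_smul_mem₀ h0.ne']
      simp only [cell, mem_ofPred_eq, PiLp.smul_apply, smul_eq_mul, mem_Ico]
      refine forall_congr' fun l => ?_
      rw [inv_mul_lt_iff₀ h0, mul_one]
      exact ⟨fun a => a.2, fun a => ⟨mul_nonneg (inv_nonneg.2 h0.le) (hx l).1, a⟩⟩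
    by_cases a : x ∈ lam • cell
    · rw [indicator_of_mem a, ind_of_mem, one_mul]
      simp [hH, heights, hf, (hmem.1 a) k]
    · rw [indicator_of_notMem a]
      by_cases b : x k < lam
      · rw [ind_of_notMem (E := B)]
        · simp
        · intro hxB
          obtain ⟨⟨bi, bj⟩, -⟩ := hxB
          rw [hf] at bi bj
          exact a (hmem.2 fun l => by
            rcases coord_cases hij hik hjk l with rfl | rfl | rfl
            exacts [bi, bj, b])
      · rw [ind_of_notMem (E := H)]
        · simp
        · simp [hH, heights, hf, b]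
  rw [setIntegral_congr_fun measurableSet_cell hpt, setIntegral_indicator hscell,
    inter_eq_right.2 hsub] at hcut
  have hsc := Measure.setIntegral_comp_smul_of_pos volume (fun x => ind B x * h x) cell h0
  rw [finrank_euclideanSpace_fin, smul_eq_mul, hcut] at hsc
  have hscaled : ∀ y ∈ cell, ind B (lam • y) * h (lam • y) = ind C y * h (lam • y) := fun y hy => by
    have hlt : ∀ l, Int.fract ((lam • y) l) = lam * y l ∧ lam * y l < lam := fun l => by
      obtain ⟨a, b⟩ := hy l
      exact ⟨Int.fract_eq_self.2 ⟨by simp; positivity, by simp; nlinarith⟩, by nlinarith⟩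
    congr 1
    have hq : plane i j lam (lam • y) = (y i) • e i + (y j) • e j := by
      simp only [plane, (hlt i).1, (hlt j).1, mul_div_cancel_left₀ _ h0.ne']
    have hiff : lam • y ∈ B ↔ (y i) • e i + (y j) • e j ∈ C := by
      simp only [hB, squeezeSet, mem_ofPred_eq, hq, (hlt i).1, (hlt j).1, (hlt i).2, (hlt j).2,
        and_self, true_and]
    rw [← ind_plane hij hik hjk hk y]
    by_cases a : (y i) • e i + (y j) • e j ∈ C
    · rw [ind_of_mem a, ind_of_mem (hiff.2 a)]
    · rw [ind_of_notMem a, ind_of_notMem (mt hiff.1 a)]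
  rw [setIntegral_congr_fun measurableSet_cell hscaled] at hsc
  rw [hsc]
  field_simp

include hij hik hjk hC hp hk in
/-- An invariant set with empty slices in density at height zero in both planar directions can
be compressed. -/
theorem per_squeeze_le {P lam : ℝ} (h0 : 0 < lam) (h1 : lam ≤ 1)
    (hP : per C ≤ ENNReal.ofReal P) (hP0 : 0 ≤ P)
    (hdi : Tendsto (fun n => (∫ s in (-cutR n)..(cutR n), sliceVol C i s) / cutR n) atTop (𝓝 0))
    (hdj : Tendsto (fun n => (∫ s in (-cutR n)..(cutR n), sliceVol C j s) / cutR n) atTop (𝓝 0)) :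
    per (squeezeSet C i j lam) ≤ ENNReal.ofReal (lam * P) := by
  set B := squeezeSet C i j lam with hB
  have hBm : MeasurableSet B := measurableSet_squeeze hC i j lam
  have hBp : IsPeriodicSet B := isPeriodicSet_squeeze C i j lam
  have hBk : InvAlong B k := invAlong_squeeze C hik hjk lam
  refine iSup₂_le fun X hX => ?_
  obtain ⟨Y, hY, hXY⟩ := exists_flat hBm hBp hBk hX
  refine ENNReal.ofReal_le_ofReal (hXY.trans ?_)
  obtain ⟨D, hD0, hD⟩ := hY.test.periodic.dv.bounded (continuous_dv hY.test.smooth)
  have hYc := continuous_dv hY.test.smooth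
  rw [setIntegral_inter_cell hBm]
  have hsq := setIntegral_squeeze hij hik hjk hC hk h0 h1 (h := dv Y) hYc.measurable hD
    hY.test.periodic.dv (fun x t => dv_line hY x t)
  simp only [ind] at hsq
  rw [hsq, sq, mul_assoc]
  refine mul_le_mul_of_nonneg_left ?_ h0.le
  -- the cut-off fields
  obtain ⟨A, hA0, hA⟩ := exists_deriv_cut_bound
  set pi' : R3 →L[ℝ] ℝ := EuclideanSpace.proj i with hpi
  set pj' : R3 →L[ℝ] ℝ := EuclideanSpace.proj j with hpj
  set Z : ℕ → R3 → R3 := fun n y => (cut n (y i) * cut n (y j)) •
    Y (lam • (Int.fract (y i) • e i + Int.fract (y j) • e j)) with hZ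
  set W : ℕ → R3 → R3 → R3 := fun n m y => (cut n (y i) * cut n (y j)) • Y (lam • (y - m)) with hW
  set mfl : R3 → R3 := fun x => (⌊x i⌋ : ℝ) • e i + (⌊x j⌋ : ℝ) • e j with hmfl
  have hloc : ∀ n x, Z n =ᶠ[𝓝 x] W n (mfl x) := by
    intro n x
    by_cases a : Int.fract (x i) = 0
    · have hx : x i = (⌊x i⌋ : ℝ) := by linarith [Int.floor_add_fract (x i)]
      have ev : ∀ᶠ s in 𝓝 (x i), cut n s = 0 := hx ▸ cut_eventually_zero n ⌊x i⌋
      filter_upwards [(PiLp.continuous_apply 2 _ i).continuousAt.eventually ev] with y hy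
      simp [hZ, hW, hy]
    by_cases b : Int.fract (x j) = 0
    · have hx : x j = (⌊x j⌋ : ℝ) := by linarith [Int.floor_add_fract (x j)]
      have ev : ∀ᶠ s in 𝓝 (x j), cut n s = 0 := hx ▸ cut_eventually_zero n ⌊x j⌋
      filter_upwards [(PiLp.continuous_apply 2 _ j).continuousAt.eventually ev] with y hy
      simp [hZ, hW, hy]
    have key : ∀ l : Fin 3, Int.fract (x l) ≠ 0 → ∀ᶠ y in 𝓝 x, ⌊y l⌋ = ⌊x l⌋ := fun l hl => by
      have hmem : Ioo (⌊x l⌋ : ℝ) (⌊x l⌋ + 1) ∈ 𝓝 (x l) := Ioo_mem_nhds
        (lt_of_le_of_ne (Int.floor_le _) fun h => hl (by linarith [Int.floor_add_fract (x l)]))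
        (Int.lt_floor_add_one _)
      filter_upwards [(PiLp.continuous_apply 2 _ l).continuousAt.eventually hmem] with y hy
      exact Int.floor_eq_iff.2 ⟨hy.1.le, hy.2⟩
    filter_upwards [key i a, key j b] with y hyi hyj
    simp only [hZ, hW]
    congr 1
    rw [← hY.inv (lam • (Int.fract (y i) • e i + Int.fract (y j) • e j)) (lam * y k)]
    congr 1
    rw [← smul_smul, ← smul_add]
    congr 1
    simp only [hmfl, ← hyi, ← hyj, ← Int.self_sub_floor]
    rw [eq_sub_iff_add_eq]
    conv_rhs => rw [eq_three hij hik hjk y]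
    module
  have hWc : ∀ n m, ContDiff ℝ 1 (W n m) := fun n m =>
    (((contDiff_cut n).comp pi'.contDiff).mul ((contDiff_cut n).comp pj'.contDiff)).smul
      (hY.test.smooth.comp ((contDiff_id.sub contDiff_const).const_smul lam))
  have hZt : ∀ n, IsTestField (Z n) := fun n => by
    refine ⟨contDiff_iff_contDiffAt.2 fun x =>
      (hWc n (mfl x)).contDiffAt.congr_of_eventuallyEq (hloc n x), fun l x => ?_, fun x => ?_⟩
    · simp only [hZ, fract_add_e]
      congr 1
      have hc : ∀ q : Fin 3, cut n ((x + e l) q) = cut n (x q) := fun q => by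
        by_cases a : l = q
        · subst a; simp only [PiLp.add_apply, e_self]; exact cut_periodic n _
        · simp [e_ne a]
      rw [hc, hc]
    · simp only [hZ, norm_smul, Real.norm_eq_abs]
      have a := cut_mem n (x i)
      have b := cut_mem n (x j)
      rw [abs_mul, abs_of_nonneg a.1, abs_of_nonneg b.1]
      exact mul_le_one₀ (mul_le_one₀ a.2 b.1 b.2) (norm_nonneg _) (hY.test.norm_le _)
  have hbd : ∀ (v : R3) (l : Fin 3), |v l| ≤ ‖v‖ := fun v l => by
    simpa using PiLp.norm_apply_le v l
  have hdv : ∀ n, ∀ x ∈ cell, cut n (x i) * cut n (x j) * (lam * dv Y (lam • x))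
      - (|deriv (cut n) (x i)| + |deriv (cut n) (x j)|) ≤ dv (Z n) x := by
    intro n x hx
    have hm : mfl x = 0 := by
      simp [hmfl, Int.floor_eq_zero_iff.2 ⟨(hx i).1, (hx i).2⟩,
        Int.floor_eq_zero_iff.2 ⟨(hx j).1, (hx j).2⟩]
    have heq : fderiv ℝ (Z n) x = fderiv ℝ (W n (mfl x)) x := (hloc n x).fderiv_eq
    have h1 : HasFDerivAt (fun y => cut n (pi' y)) (deriv (cut n) (pi' x) • pi') x :=
      ((contDiff_cut n).differentiable one_ne_zero _).hasDerivAt.comp_hasFDerivAt x pi'.hasFDerivAt
    have h2 : HasFDerivAt (fun y => cut n (pj' y)) (deriv (cut n) (pj' x) • pj') x :=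
      ((contDiff_cut n).differentiable one_ne_zero _).hasDerivAt.comp_hasFDerivAt x pj'.hasFDerivAt
    have h3 : HasFDerivAt (fun y => Y (lam • (y - mfl x)))
        ((fderiv ℝ Y (lam • (x - mfl x))).comp (lam • ContinuousLinearMap.id ℝ R3)) x :=
      ((hY.test.smooth.differentiable one_ne_zero) _).hasFDerivAt.comp x
        (((hasFDerivAt_id x).sub_const (mfl x)).const_smul lam)
    have h4 := (h1.mul h2).smul h3
    have e5 : dv (Z n) x = cut n (x i) * cut n (x j) * (lam * dv Y (lam • x))
        + (cut n (x i) * deriv (cut n) (x j) * Y (lam • x) j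
          + cut n (x j) * deriv (cut n) (x i) * Y (lam • x) i) := by
      have h6 : fderiv ℝ (W n (mfl x)) x = _ := h4.fderiv
      simp only [dv, heq]
      rw [h6]
      simp only [hm, sub_zero, hpi, hpj, three_sum hij hik hjk]
      simp [e_self, e_ne hij, e_ne hij.symm, e_ne (Ne.symm hik), e_ne (Ne.symm hjk)]
      ring
    rw [e5]
    have bnd : ∀ a b c : ℝ, a ∈ Icc (0:ℝ) 1 → |c| ≤ 1 → -|b| ≤ a * b * c := fun a b c ha hc => by
      refine le_trans (neg_le_neg ?_) (neg_abs_le _)
      rw [abs_mul, abs_mul, abs_of_nonneg ha.1]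
      exact mul_le_of_le_one_right (mul_nonneg ha.1 (abs_nonneg _)) hc |>.trans
        (mul_le_of_le_one_left (abs_nonneg _) ha.2)
    have := bnd _ (deriv (cut n) (x j)) _ (cut_mem n (x i))
      ((hbd (Y (lam • x)) j).trans (hY.test.norm_le _))
    have := bnd _ (deriv (cut n) (x i)) _ (cut_mem n (x j))
      ((hbd (Y (lam • x)) i).trans (hY.test.norm_le _))
    linarith
  -- the two error terms
  have hcm : ∀ n, Measurable fun s => |deriv (cut n) s| := fun n =>
    ((contDiff_cut n).continuous_deriv le_rfl).abs.measurable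
  have herr : ∀ (l : Fin 3) (n : ℕ), ∫ x in cell, ind C x * |deriv (cut n) (x l)|
      ≤ A * ((∫ s in (-cutR n)..(cutR n), sliceVol C l s) / cutR n) := by
    intro l n
    have hqm : Measurable fun x => ind C x * |deriv (cut n) (x l)| :=
      (measurable_ind hC).mul ((hcm n).comp (PiLp.continuous_apply 2 _ l).measurable)
    have hqp : IsPer fun x => ind C x * |deriv (cut n) (x l)| := fun m x => by
      simp only [isPer_ind hp m x]
      by_cases a : m = l
      · subst a
        simp only [PiLp.add_apply, e_self]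
        rw [← deriv_comp_add_const, show (fun s => cut n (s + 1)) = cut n from
          funext (cut_periodic n)]
      · simp [e_ne a]
    rw [← setIntegral_toSlice hqm (C := A / cutR n) (fun x => by
      rw [abs_mul, abs_abs]
      exact (mul_le_of_le_one_left (abs_nonneg _) (abs_ind_le C x)).trans (hA n _).1) hqp l]
    have hin : ∀ s, (∫ x in cell, ind C (toSlice l s x) * |deriv (cut n) (toSlice l s x l)|)
        = sliceVol C l s * |deriv (cut n) s| := fun s => by
      simp only [toSlice_apply_self, integral_mul_const, sliceVol, ind_sliceCyl]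
    simp only [hin]
    have hper : Function.Periodic (fun s => sliceVol C l s * |deriv (cut n) s|) 1 := fun s => by
      simp only [periodic_sliceVol hp l s]
      congr 2
      rw [← deriv_comp_add_const, show (fun s => cut n (s + 1)) = cut n from
        funext (cut_periodic n)]
    rw [← intervalIntegral.integral_of_le zero_le_one]
    have e1 := hper.intervalIntegral_add_eq 0 (-(1/2 : ℝ))
    rw [zero_add] at e1
    rw [e1, intervalIntegral.integral_of_le (by norm_num)]
    have hr := cutR_pos n
    have hr4 := cutR_le n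
    rw [intervalIntegral.integral_of_le (by linarith), ← mul_div_assoc, le_div_iff₀ hr,
      ← integral_mul_const, ← integral_const_mul, ← integral_indicator measurableSet_Ioc,
      ← integral_indicator measurableSet_Ioc]
    have hfi : ∀ a b : ℝ, IntegrableOn (sliceVol C l) (Ioc a b) := fun a b =>
      Measure.integrableOn_of_bounded (M := 1) (by simp [Real.volume_Ioc])
        (measurable_sliceVol hC l).aestronglyMeasurable
        (ae_of_all _ fun s => by
          simpa [abs_of_nonneg (sliceVol_mem C l s).1] using (sliceVol_mem C l s).2)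
    refine integral_mono_of_nonneg (ae_of_all _ fun s => ?_) ?_ ?_
    · exact indicator_nonneg (fun s _ => mul_nonneg
        (mul_nonneg (sliceVol_mem C l s).1 (abs_nonneg _)) hr.le) s
    · exact (integrable_indicator_iff measurableSet_Ioc).2 ((hfi _ _).const_mul A)
    · have hne : ∀ᵐ s : ℝ, s ≠ -cutR n := measure_eq_zero_iff_ae_notMem.1 (measure_singleton _)
      filter_upwards [hne] with s hs
      by_cases a : s ∈ Ioc (-(1/2 : ℝ)) (-(1/2) + 1)
      · rw [indicator_of_mem a]
        by_cases b : s ∈ Ioc (-cutR n) (cutR n)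
        · rw [indicator_of_mem b]
          have := (le_div_iff₀ hr).1 (hA n s).1
          calc sliceVol C l s * |deriv (cut n) s| * cutR n
              = sliceVol C l s * (|deriv (cut n) s| * cutR n) := mul_assoc _ _ _
            _ ≤ sliceVol C l s * A := mul_le_mul_of_nonneg_left this (sliceVol_mem C l s).1
            _ = A * sliceVol C l s := mul_comm _ _
        · rw [indicator_of_notMem b]
          have hz : deriv (cut n) s = 0 := (hA n s).2 (abs_le.2 ⟨a.1.le, by linarith [a.2]⟩) (by
            rcases lt_or_ge (cutR n) s with h | h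
            · exact h.trans_le (le_abs_self s)
            · have : ¬ (-cutR n < s) := fun h' => b ⟨h', h⟩
              have : s < -cutR n := lt_of_le_of_ne (not_lt.1 this) hs
              exact (lt_neg.1 this).trans_le (neg_le_abs s))
          rw [hz, abs_zero, mul_zero, zero_mul]
      · rw [indicator_of_notMem a]
        exact indicator_nonneg (fun s _ => mul_nonneg hA0 (sliceVol_mem C l s).1) s
  -- passage to the limit
  have gm := measurable_ind hC
  have hYl : Continuous fun x : R3 => lam * dv Y (lam • x) :=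
    continuous_const.mul (hYc.comp (continuous_const_smul lam))
  have hlim : Tendsto (fun n => ∫ x in cell,
      ind C x * (cut n (x i) * cut n (x j) * (lam * dv Y (lam • x)))) atTop
      (𝓝 (∫ x in cell, ind C x * (lam * dv Y (lam • x)))) := by
    refine tendsto_integral_of_dominated_convergence (fun _ => lam * D)
      (fun n => (gm.mul ((((contDiff_cut n).continuous.comp (PiLp.continuous_apply 2 _ i)).mul
        ((contDiff_cut n).continuous.comp (PiLp.continuous_apply 2 _ j))).mul
          hYl).measurable).aestronglyMeasurable)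
      (integrable_const _) (fun n => ae_of_all _ fun x => ?_) ?_
    · have a := cut_mem n (x i)
      have b := cut_mem n (x j)
      rw [Real.norm_eq_abs, abs_mul, abs_mul, abs_mul lam, abs_of_pos h0]
      refine (mul_le_of_le_one_left (by positivity) (abs_ind_le C x)).trans ?_
      refine (mul_le_of_le_one_left (by positivity) ?_).trans
        (mul_le_mul_of_nonneg_left (hD _) h0.le)
      rw [abs_mul, abs_of_nonneg a.1, abs_of_nonneg b.1]
      exact mul_le_one₀ a.2 b.1 b.2
    · have key : ∀ l : Fin 3, ∀ᵐ x ∂volume.restrict cell, Real.sin (Real.pi * x l) ≠ 0 := fun l => by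
        have h0' : ∫ x in cell, ind {x : R3 | Real.sin (Real.pi * x l) = 0} x = 0 := by
          set S : Set R3 := {x : R3 | Real.sin (Real.pi * x l) = 0}
          have hSm : MeasurableSet S := (isClosed_eq (by fun_prop) continuous_const).measurableSet
          have hSp : IsPeriodicSet S := fun m x => by
            by_cases a : m = l
            · subst a; simp [S, e_self, mul_add, Real.sin_add_pi]
            · simp [S, e_ne a]
          rw [← setIntegral_toSlice (measurable_ind hSm) (abs_ind_le S) (isPer_ind hSp) l,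
            setIntegral_congr_set Ioo_ae_eq_Ioc.symm]
          refine setIntegral_eq_zero_of_forall_eq_zero fun s hs => ?_
          refine integral_eq_zero_of_ae (ae_of_all _ fun x => ind_of_notMem ?_)
          have : 0 < Real.sin (Real.pi * s) := Real.sin_pos_of_pos_of_lt_pi
            (mul_pos Real.pi_pos hs.1) (by nlinarith [hs.2, Real.pi_pos])
          simpa [S, toSlice_apply_self] using this.ne'
        have hi2 : Integrable (ind {x : R3 | Real.sin (Real.pi * x l) = 0})
            (volume.restrict cell) := integrable_cell_of_bound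
          (measurable_ind (isClosed_eq (by fun_prop) continuous_const).measurableSet) (abs_ind_le _)
        filter_upwards [(integral_eq_zero_iff_of_nonneg (fun x => (ind_mem _ x).1) hi2).1 h0']
          with x hx hs
        simp [ind_of_mem (E := {x : R3 | Real.sin (Real.pi * x l) = 0}) hs] at hx
      filter_upwards [key i, key j] with x hxi hxj
      have := (((tendsto_cut hxi).mul (tendsto_cut hxj)).mul_const
        (lam * dv Y (lam • x))).const_mul (ind C x)
      simpa using this
  have hbound : ∀ n, (∫ x in cell, ind C x * (cut n (x i) * cut n (x j) * (lam * dv Y (lam • x))))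
      ≤ P + (A * ((∫ s in (-cutR n)..(cutR n), sliceVol C i s) / cutR n)
        + A * ((∫ s in (-cutR n)..(cutR n), sliceVol C j s) / cutR n)) := by
    intro n
    have hfin : per C ≠ (⊤ : ℝ≥0∞) := ne_top_of_le_ne_top ENNReal.ofReal_ne_top hP
    have hle := (setIntegral_dv_le_per hfin (hZt n)).trans
      (ENNReal.toReal_le_of_le_ofReal hP0 hP)
    rw [setIntegral_inter_cell hC] at hle
    have ci : Continuous fun x : R3 => cut n (x i) :=
      (contDiff_cut n).continuous.comp (PiLp.continuous_apply 2 _ i)
    have cj : Continuous fun x : R3 => cut n (x j) :=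
      (contDiff_cut n).continuous.comp (PiLp.continuous_apply 2 _ j)
    have di : Continuous fun x : R3 => |deriv (cut n) (x i)| :=
      (((contDiff_cut n).continuous_deriv le_rfl).comp (PiLp.continuous_apply 2 _ i)).abs
    have dj : Continuous fun x : R3 => |deriv (cut n) (x j)| :=
      (((contDiff_cut n).continuous_deriv le_rfl).comp (PiLp.continuous_apply 2 _ j)).abs
    have j1 := integrable_cell_mul gm (abs_ind_le C) ((ci.mul cj).mul hYl)
    have j2 := integrable_cell_mul gm (abs_ind_le C) di
    have j3 := integrable_cell_mul gm (abs_ind_le C) dj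
    have j4 := integrable_cell_mul gm (abs_ind_le C) (continuous_dv (hZt n).smooth)
    have hmono := setIntegral_mono_on j1 ((j4.fun_add j2).fun_add j3) measurableSet_cell
      fun x hx => by
        have := mul_le_mul_of_nonneg_left (hdv n x hx) (ind_mem C x).1
        simp only [mul_sub, mul_add] at this
        simp only [Pi.mul_apply]
        linarith
    rw [integral_add (j4.fun_add j2) j3, integral_add j4 j2] at hmono
    have := herr i n; have := herr j n
    simp only [ind, Pi.mul_apply] at *
    linarith
  have he0 : Tendsto (fun n => P + (A * ((∫ s in (-cutR n)..(cutR n), sliceVol C i s) / cutR n)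
      + A * ((∫ s in (-cutR n)..(cutR n), sliceVol C j s) / cutR n))) atTop (𝓝 P) := by
    simpa using ((hdi.const_mul A).add (hdj.const_mul A)).const_add P
  have hfinal := le_of_tendsto_of_tendsto' hlim he0 hbound
  rw [← integral_const_mul]
  refine le_trans (le_of_eq (setIntegral_congr_fun measurableSet_cell fun x _ => ?_)) hfinal
  simp only [ind]; ring

end core

/-- A translate, with its slices translated. -/
lemma sliceVol_shift {C : Set R3} (hp : IsPeriodicSet C) {i j : Fin 3}
    (hij : i ≠ j) (s a b : ℝ) :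
    sliceVol (shift (a • e i + b • e j) C) i s = sliceVol C i (s + a) := by
  simp only [sliceVol, ind_sliceCyl]
  have h1 : ∀ x, ind (shift (a • e i + b • e j) C) (toSlice i s x)
      = ind C (toSlice i (s + a) (x + b • e j)) := fun x => by
    rw [toSlice_add_of_ne (Ne.symm hij),
      show toSlice i (s + a) x + b • e j = toSlice i s x + (a • e i + b • e j) by
        simp only [toSlice]; module]
    by_cases h : toSlice i s x + (a • e i + b • e j) ∈ C
    · rw [ind_of_mem h, ind_of_mem (E := shift _ C) h]
    · rw [ind_of_notMem h, ind_of_notMem (E := shift _ C) h]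
  simp only [h1]
  exact (isPer_comp_toSlice (isPer_ind hp) i (s + a)).setIntegral_add (b • e j)

/-- An invariant set of perimeter at most two and volume above `1/π` cannot leave lines of
positive measure empty in both planar directions. -/
theorem no_double_gap {C : Set R3} {i j k : Fin 3} (hij : i ≠ j) (hik : i ≠ k) (hjk : j ≠ k)
    (hC : MeasurableSet C) (hp : IsPeriodicSet C) (hk : InvAlong C k) (hP : per C ≤ 2) {V : ℝ}
    (hV : ∫ x in cell, ind C x = V) (hVlo : 1 / Real.pi < V)
    (hprof : 2 ≤ profile (1 / Real.pi))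
    (hgi : ¬ ∀ᵐ s ∂volume.restrict (Ioc (0 : ℝ) 1), sliceVol C i s ≠ 0)
    (hgj : ¬ ∀ᵐ s ∂volume.restrict (Ioc (0 : ℝ) 1), sliceVol C j s ≠ 0) : False := by
  obtain ⟨a, ha⟩ := exists_empty_height hC i hgi
  obtain ⟨b, hb⟩ := exists_empty_height hC j hgj
  set C' := shift (a • e i + b • e j) C with hC'
  have hC'm : MeasurableSet C' := measurableSet_shift hC _
  have hC'p : IsPeriodicSet C' := isPeriodicSet_shift hp _
  have hC'k : InvAlong C' k := fun x t => by
    simp only [hC', shift, mem_ofPred_eq]
    rw [add_right_comm]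
    exact hk _ t
  have hP' : per C' ≤ ENNReal.ofReal 2 := by
    rw [show ENNReal.ofReal 2 = 2 by simp]
    exact (per_shift_le hC hp _).trans hP
  have hrew : ∀ (f : ℝ → ℝ) (c r : ℝ),
      (∫ s in (-r)..r, f (s + c)) = ∫ s in (c - r)..(c + r), f s := fun f c r => by
    rw [intervalIntegral.integral_comp_add_right]
    ring_nf
  have hdi : Tendsto (fun n => (∫ s in (-cutR n)..(cutR n), sliceVol C' i s) / cutR n)
      atTop (𝓝 0) := by
    refine ha.congr fun n => ?_
    simp only [hC', sliceVol_shift hp hij, hrew]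
  have hdj : Tendsto (fun n => (∫ s in (-cutR n)..(cutR n), sliceVol C' j s) / cutR n)
      atTop (𝓝 0) := by
    refine hb.congr fun n => ?_
    simp only [hC', add_comm (a • e i) (b • e j), sliceVol_shift hp (Ne.symm hij), hrew]
  have hpi := Real.pi_pos
  have hV0 : 0 < V := lt_trans (by positivity) hVlo
  have hpV : 1 < Real.pi * V := by rw [div_lt_iff₀ hpi] at hVlo; linarith
  set lam := 1 / Real.sqrt (Real.pi * V) with hlam
  have hl0 : 0 < lam := by positivity
  have hl1 : lam < 1 := by
    rw [hlam, div_lt_one (by positivity), ← Real.sqrt_one]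
    exact Real.sqrt_lt_sqrt zero_le_one hpV
  have hl2 : lam ^ 2 * V = 1 / Real.pi := by
    rw [hlam, div_pow, one_pow, Real.sq_sqrt (by positivity)]
    field_simp
  set B := squeezeSet C' i j lam
  have hVB : ∫ x in cell, ind B x = 1 / Real.pi := by
    have hv : ∫ x in cell, ind C' x = V := by
      rw [← hV, ← (isPer_ind hp).setIntegral_add (a • e i + b • e j)]
      refine setIntegral_congr_fun measurableSet_cell fun x _ => ?_
      by_cases h : x + (a • e i + b • e j) ∈ C
      · rw [ind_of_mem h, ind_of_mem (E := C') h]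
      · rw [ind_of_notMem h, ind_of_notMem (E := C') h]
    have := setIntegral_squeeze hij hik hjk hC'm hC'k hl0 hl1.le (h := fun _ => 1) (D := 1)
      measurable_const (fun _ => by simp) (fun _ _ => rfl) (fun _ _ => rfl)
    simp only [mul_one] at this
    rw [this, hv, hl2]
  have hle : profile (1 / Real.pi) ≤ ENNReal.ofReal (lam * 2) := by
    refine (profile_le (measurableSet_squeeze hC'm i j lam) (isPeriodicSet_squeeze C' i j lam)
      ?_).trans (per_squeeze_le hij hik hjk hC'm hC'p hC'k hl0 hl1.le hP' zero_le_two hdi hdj)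
    rw [vol_eq_ofReal (measurableSet_squeeze hC'm i j lam)]
    exact congrArg ENNReal.ofReal hVB
  have h2 : (2 : ℝ≥0∞) ≤ ENNReal.ofReal (lam * 2) := hprof.trans hle
  rw [show (2 : ℝ≥0∞) = ENNReal.ofReal 2 by simp, ENNReal.ofReal_le_ofReal_iff (by positivity)]
    at h2
  linarith

end Vale.Agent.P232
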