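import Vale.Agent.P232.Uniq.Line
import Vale.Agent.P232.Uniq.Square

/-!
From the classification of the minimisers at volume `1/π` to uniqueness of bands on the slab range.
-/

open MeasureTheory Set Filter
open scoped ENNReal Topology

namespace Vale.Agent.P232

/-- The open solid tube of radius `r` around the line through `c` in direction `l`, repeated
periodically. -/
def tube (l : Fin 3) (c : R3) (r : ℝ) : Set R3 :=
  {x | ∃ m : Fin 3 → ℤ, ∑ i, (if i = l then 0 else (x i - c i - m i) ^ 2) < r ^ 2}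

lemma isOpen_tube (l : Fin 3) (c : R3) (r : ℝ) : IsOpen (tube l c r) := by
  simp only [tube, Set.ofPred_exists]
  refine isOpen_iUnion fun m => isOpen_lt (continuous_finsetSum _ fun i _ => ?_) continuous_const
  split_ifs
  · exact continuous_const
  · fun_prop

lemma isPeriodicSet_tube (l : Fin 3) (c : R3) (r : ℝ) : IsPeriodicSet (tube l c r) := by
  intro a x
  simp only [tube, mem_ofPred_eq]
  constructor
  · rintro ⟨m, hm⟩
    refine ⟨fun i => m i - if i = a then 1 else 0, lt_of_le_of_lt (le_of_eq ?_) hm⟩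
    refine Finset.sum_congr rfl fun i _ => ?_
    by_cases h : i = a
    · subst h; simp [e_self]; split_ifs <;> ring
    · simp [h, e_ne (Ne.symm h)]
  · rintro ⟨m, hm⟩
    refine ⟨fun i => m i + if i = a then 1 else 0, lt_of_le_of_lt (le_of_eq ?_) hm⟩
    refine Finset.sum_congr rfl fun i _ => ?_
    by_cases h : i = a
    · subst h; simp [e_self]; split_ifs <;> ring
    · simp [h, e_ne (Ne.symm h)]

lemma invAlong_tube (l : Fin 3) (c : R3) (r : ℝ) : InvAlong (tube l c r) l := by
  intro x t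
  simp only [tube, mem_ofPred_eq]
  refine exists_congr fun m => ?_
  rw [show (∑ i, if i = l then (0:ℝ) else ((x + t • e l) i - c i - m i) ^ 2)
      = ∑ i, if i = l then (0:ℝ) else (x i - c i - m i) ^ 2 from
    Finset.sum_congr rfl fun i _ => by
      by_cases h : i = l <;> simp [h, e_ne (Ne.symm _)]]

lemma self_mem_tube (l : Fin 3) (c : R3) {r : ℝ} (hr : r ≠ 0) : c ∈ tube l c r :=
  ⟨0, by simp; positivity⟩

/-- A band or a tube of volume `1/π`. -/
def IsEndShape (S : Set R3) : Prop :=
  (∃ k c, S = band k c (1 / Real.pi)) ∨ ∃ l c, S = tube l c (1 / Real.pi)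

lemma IsEndShape.isOpen {S : Set R3} (h : IsEndShape S) : IsOpen S := by
  rcases h with ⟨k, c, rfl⟩ | ⟨l, c, rfl⟩
  exacts [isOpen_band _ _ _, isOpen_tube _ _ _]

lemma IsEndShape.periodic {S : Set R3} (h : IsEndShape S) : IsPeriodicSet S := by
  rcases h with ⟨k, c, rfl⟩ | ⟨l, c, rfl⟩
  exacts [isPeriodicSet_band _ _ _, isPeriodicSet_tube _ _ _]

lemma exists_ne_two (a b : Fin 3) : ∃ l, l ≠ a ∧ l ≠ b := by revert a b; decide

lemma band_inter_tube (l : Fin 3) (c₁ : ℝ) (c : R3) :
    (band l c₁ (1 / Real.pi) ∩ tube l c (1 / Real.pi)).Nonempty := by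
  have hr : (0 : ℝ) < 1 / Real.pi := by positivity
  refine ⟨c + (c₁ - c l) • e l, ⟨0, ?_⟩, ?_⟩
  · simp [e_self, Real.pi_pos]
  · exact (invAlong_tube l c _ c _).2 (self_mem_tube l c hr.ne')

/-- Two such shapes have a common invariant direction or meet. -/
lemma IsEndShape.common {S T : Set R3} (hS : IsEndShape S) (hT : IsEndShape T) :
    (S ∩ T).Nonempty ∨ ∃ l, InvAlong S l ∧ InvAlong T l := by
  have hr : (0 : ℝ) < 1 / Real.pi := by positivity
  rcases hS with ⟨k, c, rfl⟩ | ⟨l, c, rfl⟩ <;> rcases hT with ⟨k', c', rfl⟩ | ⟨l', c', rfl⟩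
  · obtain ⟨l, h1, h2⟩ := exists_ne_two k k'
    exact Or.inr ⟨l, invAlong_band h1 _ _, invAlong_band h2 _ _⟩
  · by_cases h : l' = k
    · subst h; exact Or.inl (band_inter_tube _ c c')
    · exact Or.inr ⟨l', invAlong_band h _ _, invAlong_tube _ _ _⟩
  · by_cases h : l = k'
    · subst h; rw [inter_comm]; exact Or.inl (band_inter_tube _ c' c)
    · exact Or.inr ⟨l, invAlong_tube _ _ _, invAlong_band h _ _⟩
  · by_cases h : l' = l
    · subst h; exact Or.inr ⟨l', invAlong_tube _ _ _, invAlong_tube _ _ _⟩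
    refine Or.inl ?_
    obtain ⟨n, hnl, hnl'⟩ := exists_ne_two l l'
    have hln : l ≠ n := Ne.symm hnl
    have hl'n : l' ≠ n := Ne.symm hnl'
    set q : ℤ := round (c n - c' n) with hq
    have hd := abs_sub_round (c n - c' n)
    rw [← hq] at hd
    refine ⟨c' l • e l + c l' • e l' + ((c n + c' n + q) / 2) • e n, ⟨fun _ => 0, ?_⟩,
      ⟨fun i => if i = n then q else 0, ?_⟩⟩
    · rw [three_sum (Ne.symm h) hln hl'n]
      simp [h, hnl, hnl', e_self, e_ne h, e_ne (Ne.symm h), e_ne hln, e_ne hl'n, e_ne hnl,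
        e_ne hnl']
      have : ((1 : ℝ) / 4) ^ 2 < (1 / Real.pi) ^ 2 :=
        pow_lt_pow_left₀ (one_div_lt_one_div_of_lt Real.pi_pos Real.pi_lt_four) (by norm_num)
          two_ne_zero
      rw [one_div_pow (Real.pi : ℝ), one_div (Real.pi ^ 2)] at this
      obtain ⟨u, v⟩ := abs_le.1 hd
      nlinarith [mul_nonneg (sub_nonneg.2 u) (sub_nonneg.2 v)]
    · rw [three_sum (Ne.symm h) hln hl'n]
      simp [h, Ne.symm h, hnl, hnl', hln, hl'n, e_self, e_ne h, e_ne (Ne.symm h), e_ne hln,
        e_ne hl'n, e_ne hnl, e_ne hnl']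
      have : ((1 : ℝ) / 4) ^ 2 < (1 / Real.pi) ^ 2 :=
        pow_lt_pow_left₀ (one_div_lt_one_div_of_lt Real.pi_pos Real.pi_lt_four) (by norm_num)
          two_ne_zero
      rw [one_div_pow (Real.pi : ℝ), one_div (Real.pi ^ 2)] at this
      obtain ⟨u, v⟩ := abs_le.1 hd
      nlinarith [mul_nonneg (sub_nonneg.2 u) (sub_nonneg.2 v)]

lemma integral_ind_compl {E : Set R3} (hE : MeasurableSet E) :
    ∫ x in cell, ind Eᶜ x = 1 - ∫ x in cell, ind E x := by
  have hi : IntegrableOn (ind E) cell := integrable_cell_of_bound (measurable_ind hE) (abs_ind_le E)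
  rw [eq_sub_iff_add_eq, ← integral_add (integrable_cell_of_bound (measurable_ind hE.compl)
    (abs_ind_le _)) hi]
  have : ∀ x, ind Eᶜ x + ind E x = 1 := fun x => by
    by_cases a : x ∈ E
    · simp [ind_of_mem a, ind_of_notMem (E := Eᶜ) (fun h => h a)]
    · simp [ind_of_notMem a, ind_of_mem (E := Eᶜ) a]
  simp [this, Measure.real, volume_cell]

lemma sliceVol_compl {E : Set R3} (hE : MeasurableSet E) (k : Fin 3) (s : ℝ) :
    sliceVol Eᶜ k s = 1 - sliceVol E k s :=
  integral_ind_compl (measurableSet_sliceCyl hE k s)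

lemma integral_ind_of_vol {E : Set R3} (hE : MeasurableSet E) {V : ℝ} (h0 : 0 ≤ V)
    (h : vol E = ENNReal.ofReal V) : ∫ x in cell, ind E x = V := by
  rw [vol_eq_ofReal hE] at h
  exact (ENNReal.ofReal_eq_ofReal_iff (integral_nonneg fun x => (ind_mem E x).1) h0).1 h

lemma vol_of_integral_ind {E : Set R3} (hE : MeasurableSet E) {V : ℝ}
    (h : ∫ x in cell, ind E x = V) : vol E = ENNReal.ofReal V := by
  rw [vol_eq_ofReal hE]; exact congrArg ENNReal.ofReal h

lemma one_div_pi_le_half : 1 / Real.pi ≤ 1 / 2 :=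
  one_div_le_one_div_of_le two_pos (by linarith [Real.pi_gt_three])

lemma two_le_per_of_mem (hprof : 2 ≤ profile (1 / Real.pi)) {E : Set R3} (hE : MeasurableSet E)
    (hp : IsPeriodicSet E) {V : ℝ} (hV : ∫ x in cell, ind E x = V)
    (hmem : V ∈ Icc (1 / Real.pi) (1 - 1 / Real.pi)) : 2 ≤ per E :=
  (profile_slab_range (by positivity) one_div_pi_le_half hprof hmem).trans
    (profile_le hE hp (vol_of_integral_ind hE hV))

/-- A minimiser in the open slab range contains one of volume `1/π`. -/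
theorem exists_sub_minimiser (hprof : 2 ≤ profile (1 / Real.pi)) {E : Set R3}
    (hE : MeasurableSet E) (hp : IsPeriodicSet E) (hP : per E ≤ 2) {V : ℝ}
    (hV : ∫ x in cell, ind E x = V) (hlo : 1 / Real.pi ≤ V) (hhi : V < 1 - 1 / Real.pi) :
    ∃ A, MeasurableSet A ∧ IsPeriodicSet A ∧ A ⊆ E ∧ ∫ x in cell, ind A x = 1 / Real.pi ∧
      per A ≤ 2 := by
  set a := 1 / Real.pi with ha
  have ha0 : 0 < a := by positivity
  have ha2 : a ≤ 1 / 2 := one_div_pi_le_half
  set δ := min (a * (1 - a)) (1 - a - V) with hδ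
  have hδ0 : 0 < δ := lt_min (mul_pos ha0 (by linarith)) (by linarith)
  suffices key : ∀ (n : ℕ) (G : Set R3) (W : ℝ), MeasurableSet G → IsPeriodicSet G → per G ≤ 2 →
      ∫ x in cell, ind G x = W → a ≤ W → W ≤ a + n * δ → W + δ ≤ 1 - a →
      ∃ A, MeasurableSet A ∧ IsPeriodicSet A ∧ A ⊆ G ∧ ∫ x in cell, ind A x = a ∧ per A ≤ 2 by
    obtain ⟨n, hn⟩ := exists_nat_ge ((V - a) / δ)
    exact key n E V hE hp hP hV hlo (by rw [div_le_iff₀ hδ0] at hn; linarith)
      (by linarith [min_le_right (a * (1 - a)) (1 - a - V)])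
  intro n
  induction n with
  | zero =>
    intro G W hG hGp hGP hW h1 h2 _
    exact ⟨G, hG, hGp, Subset.rfl, by rw [hW]; simp at h2; linarith, hGP⟩
  | succ n ih =>
    intro G W hG hGp hGP hW h1 h2 h3
    have hfin : per G ≠ (⊤ : ℝ≥0∞) := ne_top_of_le_ne_top (by simp) hGP
    have hb : δ ≤ W * (1 - W) := by
      refine (min_le_left _ _).trans ?_
      nlinarith
    set c := max a (W - δ) with hc
    obtain ⟨t, ht⟩ := exists_shift hG hGp hfin hW (c := c)
      ⟨le_trans (by nlinarith) (le_max_right _ _), max_le h1 (by linarith)⟩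
    have hS := measurableSet_shift hG t
    have hSp := isPeriodicSet_shift hGp t
    have hI : IsPeriodicSet (G ∩ shift t G) := fun i x => and_congr (hGp i x) (hSp i x)
    have hU : IsPeriodicSet (G ∪ shift t G) := fun i x => or_congr (hGp i x) (hSp i x)
    have hUv : ∫ x in cell, ind (G ∪ shift t G) x = 2 * W - c := by
      have i : ∀ A : Set R3, MeasurableSet A → IntegrableOn (ind A) cell :=
        fun A hA => integrable_cell_of_bound (measurable_ind hA) (abs_ind_le A)
      have hSv : ∫ x in cell, ind (shift t G) x = W := by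
        rw [← hW, ← (isPer_ind hGp).setIntegral_add t]
        refine setIntegral_congr_fun measurableSet_cell fun x _ => ?_
        by_cases a : x + t ∈ G <;> simp [ind, shift, a]
      have hsum : ∫ x in cell, ind (G ∪ shift t G) x
          = (∫ x in cell, ind G x) + (∫ x in cell, ind (shift t G) x)
            - ∫ x in cell, ind (G ∩ shift t G) x := by
        rw [← integral_add (i _ hG) (i _ hS), ← integral_sub ((i _ hG).fun_add (i _ hS))
          (i _ (hG.inter hS))]
        refine setIntegral_congr_fun measurableSet_cell fun x _ => ?_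
        by_cases a : x ∈ G <;> by_cases b : x ∈ shift t G <;> simp [ind, a, b]
      rw [hsum, hW, hSv]
      simp only [ind, ht]
      ring
    have hper : per (G ∩ shift t G) ≤ 2 := by
      have hU2 : 2 ≤ per (G ∪ shift t G) := two_le_per_of_mem hprof (hG.union hS) hU hUv
        ⟨by linarith [max_le h1 (show W - δ ≤ W by linarith)],
          by linarith [le_max_right a (W - δ)]⟩
      have hsum : per (G ∪ shift t G) + per (G ∩ shift t G) ≤ 2 + 2 :=
        (per_union_inter hG hS hGp hSp).trans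
          (add_le_add hGP ((per_shift_le hG hGp t).trans hGP))
      exact ENNReal.le_of_add_le_add_left (by simp) (le_trans (add_le_add hU2 le_rfl) hsum)
    obtain ⟨A, hA, hAp, hAs, hAv, hAP⟩ := ih (G ∩ shift t G) c (hG.inter hS) hI hper ht
      (le_max_left _ _) (max_le (by nlinarith) (by push_cast at h2; linarith))
      (by linarith [max_le h1 (show W - δ ≤ W by linarith)])
    exact ⟨A, hA, hAp, hAs.trans inter_subset_left, hAv, hAP⟩

/-- An open periodic set with a point has positive volume in the cell. -/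
lemma integral_ind_pos_of_open {W : Set R3} (hW : IsOpen W) (hp : IsPeriodicSet W)
    (h : W.Nonempty) : 0 < ∫ x in cell, ind W x := by
  obtain ⟨x, hx⟩ := h
  set m : R3 := ∑ i, (1 / 2 : ℝ) • e i with hm
  have hml : ∀ l, m l = 1 / 2 := fun l => by
    simp [hm, e, Finset.sum_apply, Pi.single_apply]
  rw [← (isPer_ind hp).setIntegral_add (x - m)]
  set U : Set R3 := {y | ∀ i, y i ∈ Ioo (0 : ℝ) 1} ∩ {y | y + (x - m) ∈ W} with hU
  have hUo : IsOpen U := by
    refine IsOpen.inter ?_ (hW.preimage (continuous_id.add continuous_const))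
    simp only [Set.ofPred_forall]
    exact isOpen_iInter_of_finite fun i => isOpen_Ioo.preimage (by fun_prop)
  have hUn : U.Nonempty := ⟨m, fun i => by rw [hml]; norm_num, by simpa using hx⟩
  have hUc : U ⊆ cell := fun y hy i => ⟨(hy.1 i).1.le, (hy.1 i).2⟩
  have hUpos := hUo.measure_pos volume hUn
  have hUfin : volume U ≠ (⊤ : ℝ≥0∞) :=
    ne_top_of_le_ne_top (by rw [volume_cell]; exact ENNReal.one_ne_top) (measure_mono hUc)
  have h1 : ∫ y in cell, ind U y ≤ ∫ y in cell, ind W (y + (x - m)) := by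
    refine setIntegral_mono_on (integrable_cell_of_bound (measurable_ind hUo.measurableSet)
      (abs_ind_le _)) (integrable_cell_of_bound
        ((measurable_ind hW.measurableSet).comp (measurable_id.add_const _)) fun y => abs_ind_le _ _)
      measurableSet_cell fun y _ => ?_
    by_cases a : y ∈ U
    · rw [ind_of_mem a, ind_of_mem (show y + (x - m) ∈ W from a.2)]
    · rw [ind_of_notMem a]; exact (ind_mem _ _).1
  refine lt_of_lt_of_le ?_ h1
  simp only [ind]
  rw [setIntegral_indicator hUo.measurableSet, inter_eq_right.2 hUc]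
  simpa [Measure.real] using ENNReal.toReal_pos hUpos.ne' hUfin

/-- The slices of an invariant set agree with it almost everywhere. -/
lemma AEEq.sliceCyl {C C' : Set R3} (hC : MeasurableSet C) (hC' : MeasurableSet C')
    (hp : IsPeriodicSet C) (hp' : IsPeriodicSet C') {k : Fin 3} (hk : InvAlong C' k)
    (h : AEEq C C') :
    ∀ᵐ s ∂volume.restrict (Ioc (0 : ℝ) 1), AEEq (sliceCyl C k s) C' := by
  set d : R3 → ℝ := fun x => |P232.ind C x - P232.ind C' x| with hd
  have hdm : Measurable d := ((measurable_ind hC).sub (measurable_ind hC')).abs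
  have hdb : ∀ x, |d x| ≤ 2 := fun x => by
    rw [hd, abs_abs, abs_le]
    have := ind_mem C x; have := ind_mem C' x
    constructor <;> linarith
  have hdp : IsPer d := (isPer_ind hp).comp₂ (isPer_ind hp') fun a b => |a - b|
  have h0 : ∫ x in cell, d x = 0 :=
    integral_eq_zero_of_ae (h.ind.mono fun x hx => by simp [hd, hx])
  rw [← setIntegral_toSlice hdm hdb hdp k] at h0
  have hi := (integrable_prod_of_bound (F := fun s x => d (toSlice k s x))
    (hdm.comp (continuous_toSlice k).measurable) (fun s x => hdb _)).integral_prod_left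
  filter_upwards [(integral_eq_zero_iff_of_nonneg
    (fun s => integral_nonneg fun x => abs_nonneg _) hi).1 h0] with s hs
  refine aeEq_of_integral (measurableSet_sliceCyl hC k s) hC' (Eq.trans ?_ hs)
  refine setIntegral_congr_fun measurableSet_cell fun x _ => ?_
  simp only [hd, ind_sliceCyl]
  congr 2
  simp only [toSlice, hk.ind_eq]

/-- A positive measure of empty slices in one direction forbids full slices in another. -/
lemma sliceVol_ne_one_of_gap {C : Set R3} (hC : MeasurableSet C) (hp : IsPeriodicSet C)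
    {i j : Fin 3} (hij : j ≠ i)
    (h : ¬ ∀ᵐ s ∂volume.restrict (Ioc (0 : ℝ) 1), sliceVol C i s ≠ 0) :
    ∀ᵐ s ∂volume.restrict (Ioc (0 : ℝ) 1), sliceVol C j s ≠ 1 := by
  set S₀ : Set ℝ := {s | sliceVol C i s = 0} with hS₀
  have hS₀m : MeasurableSet S₀ := measurable_sliceVol hC i (measurableSet_singleton 0)
  set K : Set R3 := heights i S₀ with hK
  have hKm : MeasurableSet K := measurableSet_heights i hS₀m
  have hKp : IsPeriodicSet K := isPeriodicSet_heights i S₀
  have hfr : ∀ s ∈ Ioo (0 : ℝ) 1, ∀ x, ind K (toSlice i s x) = S₀.indicator 1 s := fun s hs x => by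
    have hf : Int.fract s = s := Int.fract_eq_self.2 ⟨hs.1.le, hs.2⟩
    by_cases a : s ∈ S₀
    · rw [indicator_of_mem a, ind_of_mem]; · rfl
      simpa [hK, heights, toSlice_apply_self, hf] using a
    · rw [indicator_of_notMem a, ind_of_notMem]
      simpa [hK, heights, toSlice_apply_self, hf] using a
  have hKpos : 0 < ∫ x in cell, ind K x := by
    rw [← setIntegral_toSlice (measurable_ind hKm) (abs_ind_le K) (isPer_ind hKp) i]
    have e1 : (∫ s in Ioc (0 : ℝ) 1, ∫ x in cell, ind K (toSlice i s x))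
        = ∫ s in Ioc (0 : ℝ) 1, S₀.indicator (1 : ℝ → ℝ) s := by
      refine integral_congr_ae ?_
      rw [← Measure.restrict_congr_set Ioo_ae_eq_Ioc]
      filter_upwards [ae_restrict_mem measurableSet_Ioo] with s hs
      simp [hfr s hs, Measure.real, volume_cell]
    rw [e1, setIntegral_indicator hS₀m]
    simp only [Pi.one_apply, setIntegral_const, smul_eq_mul, mul_one, Measure.real]
    refine ENNReal.toReal_pos (fun h0 => h ?_) (ne_top_of_le_ne_top (by simp [Real.volume_Ioc])
      (measure_mono inter_subset_left))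
    have h0' : volume.restrict (Ioc (0 : ℝ) 1) S₀ = 0 := by
      rw [Measure.restrict_apply hS₀m, inter_comm]; exact h0
    exact measure_eq_zero_iff_ae_notMem.1 h0'
  have hzero : ∫ x in cell, ind C x * ind K x = 0 := by
    rw [← setIntegral_toSlice (h := fun x => ind C x * ind K x)
      ((measurable_ind hC).mul (measurable_ind hKm)) (C := 1)
      (fun x => by rw [abs_mul]; exact mul_le_one₀ (abs_ind_le C x) (abs_nonneg _) (abs_ind_le K x))
      ((isPer_ind hp).comp₂ (isPer_ind hKp) fun a b => a * b) i]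
    refine integral_eq_zero_of_ae ?_
    rw [← Measure.restrict_congr_set Ioo_ae_eq_Ioc]
    filter_upwards [ae_restrict_mem measurableSet_Ioo] with s hs
    simp only [Pi.mul_apply, Pi.zero_apply, hfr s hs, integral_mul_const]
    by_cases a : s ∈ S₀
    · have : sliceVol C i s = 0 := a
      simp only [sliceVol, ind_sliceCyl] at this
      rw [this, zero_mul]
    · rw [indicator_of_notMem a, mul_zero]
  have hsub : ∀ᵐ x ∂volume.restrict cell, x ∈ C → x ∈ Kᶜ := by
    have hi : Integrable (fun x => ind C x * ind K x) (volume.restrict cell) :=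
      integrable_cell_of_bound (C := 1) ((measurable_ind hC).mul (measurable_ind hKm)) fun x => by
        rw [abs_mul]; exact mul_le_one₀ (abs_ind_le C x) (abs_nonneg _) (abs_ind_le K x)
    filter_upwards [(integral_eq_zero_iff_of_nonneg
      (fun x => mul_nonneg (ind_mem C x).1 (ind_mem K x).1) hi).1 hzero] with x hx hxC hxK
    simp [ind_of_mem hxC, ind_of_mem hxK] at hx
  filter_upwards [sliceVol_mono hC hKm.compl hp hKp.compl hsub j] with s hs h1
  rw [h1, (invAlong_heights hij S₀).compl.sliceVol_eq, integral_ind_compl hKm] at hs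
  linarith

variable {C : Set R3} {i j k : Fin 3} {V : ℝ}

/-- A set invariant in one direction whose slices in a second direction are mixed is invariant in
both, hence a band. -/
lemma band_of_mixed_slices (hij : i ≠ j) (hik : i ≠ k) (hjk : j ≠ k) (hC : MeasurableSet C)
    (hp : IsPeriodicSet C) (hk : InvAlong C k) (hP : per C ≤ 2)
    (hV : ∫ x in cell, ind C x = V) (h0 : 0 < V) (h1 : V < 1)
    (h : ∀ᵐ s ∂volume.restrict (Ioc (0 : ℝ) 1), sliceVol C i s ≠ 0 ∧ sliceVol C i s ≠ 1) :
    ∃ c, AEEq C (band j c V) := by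
  have hper : ∀ᵐ s ∂volume.restrict (Ioc (0 : ℝ) 1),
      ENNReal.ofReal 2 ≤ per (sliceCyl C i s) := by
    filter_upwards [h] with s hs
    have hmem := sliceVol_mem C i s
    rw [show ENNReal.ofReal 2 = 2 by simp]
    exact (line_core hik hij (Ne.symm hjk) (measurableSet_sliceCyl hC i s)
      (isPeriodicSet_sliceCyl hp i s) (invAlong_sliceCyl C i s) (hk.sliceCyl i s) rfl
      (lt_of_le_of_ne hmem.1 (Ne.symm hs.1)) (lt_of_le_of_ne hmem.2 hs.2)).1
  obtain ⟨C', hC'm, hC'p, hC'i, hCC'⟩ := exists_invAlong hC hp i hP fun η hη =>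
    exists_field_of_slices hC hp i hper hη
  have : (volume.restrict (Ioc (0 : ℝ) 1)) univ ≠ 0 := by simp
  have : NeBot (ae (volume.restrict (Ioc (0 : ℝ) 1))) :=
    ae_neBot.2 fun hz => this (by simp [hz])
  obtain ⟨s, hs⟩ := (hCC'.sliceCyl hC hC'm hp hC'p hC'i).exists
  have hD : AEEq C (sliceCyl C i s) := hCC'.trans hs.symm
  obtain ⟨-, hb⟩ := line_core hik hij (Ne.symm hjk) (measurableSet_sliceCyl hC i s)
    (isPeriodicSet_sliceCyl hp i s) (invAlong_sliceCyl C i s) (hk.sliceCyl i s)
    ((integral_congr_ae hD.ind.symm).trans hV) h0 h1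
  obtain ⟨c, hc⟩ := hb ((hD.per_eq hC (measurableSet_sliceCyl hC i s)).symm.le.trans hP)
  exact ⟨c, hD.trans hc⟩

/-- Invariant minimisers in the open slab range are bands. -/
theorem band_of_invAlong (hprof : 2 ≤ profile (1 / Real.pi)) (hC : MeasurableSet C)
    (hp : IsPeriodicSet C) (hk : InvAlong C k) (hP : per C ≤ 2) (hV : ∫ x in cell, ind C x = V)
    (hlo : 1 / Real.pi < V) (hhi : V < 1 - 1 / Real.pi) :
    ∃ l c, AEEq C (band l c V) := by
  obtain ⟨i, hik, -⟩ := exists_ne_two k k
  obtain ⟨j, hjk, hji⟩ := exists_ne_two k i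
  have hij := Ne.symm hji
  have ha : 0 < 1 / Real.pi := by positivity
  have h0 : 0 < V := ha.trans hlo
  have h1 : V < 1 := by linarith
  by_cases mi : ∀ᵐ s ∂volume.restrict (Ioc (0 : ℝ) 1), sliceVol C i s ≠ 0 ∧ sliceVol C i s ≠ 1
  · exact ⟨j, band_of_mixed_slices hij hik hjk hC hp hk hP hV h0 h1 mi⟩
  by_cases mj : ∀ᵐ s ∂volume.restrict (Ioc (0 : ℝ) 1), sliceVol C j s ≠ 0 ∧ sliceVol C j s ≠ 1
  · exact ⟨i, band_of_mixed_slices hji hjk hik hC hp hk hP hV h0 h1 mj⟩
  exfalso
  rw [eventually_and, not_and_or] at mi mj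
  have hc : ∀ l, (¬ ∀ᵐ s ∂volume.restrict (Ioc (0 : ℝ) 1), sliceVol C l s ≠ 1) →
      ¬ ∀ᵐ s ∂volume.restrict (Ioc (0 : ℝ) 1), sliceVol Cᶜ l s ≠ 0 := fun l hl h =>
    hl (h.mono fun s hs he => hs (by rw [sliceVol_compl hC, he, sub_self]))
  rcases mi with ei | fi <;> rcases mj with ej | fj
  · exact no_double_gap hij hik hjk hC hp hk hP hV hlo hprof ei ej
  · exact fj (sliceVol_ne_one_of_gap hC hp hji ei)
  · exact fi (sliceVol_ne_one_of_gap hC hp hij ej)
  · exact no_double_gap hij hik hjk hC.compl hp.compl hk.compl ((per_compl hC).le.trans hP)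
      ((integral_ind_compl hC).trans (by rw [hV])) (by linarith) hprof (hc i fi) (hc j fj)

/-- If every minimiser of volume `1/π` is a band or a tube, then in the open slab range every
minimiser is a band. -/
theorem slab_range_unique (hprof : 2 ≤ profile (1 / Real.pi))
    (H : ∀ A : Set R3, MeasurableSet A → IsPeriodicSet A →
      vol A = ENNReal.ofReal (1 / Real.pi) → per A ≤ 2 →
      (∃ k c, AEEq A (band k c (1 / Real.pi))) ∨ ∃ l c, AEEq A (tube l c (1 / Real.pi)))
    {E : Set R3} (hE : MeasurableSet E) (hp : IsPeriodicSet E) {V : ℝ}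
    (hvol : vol E = ENNReal.ofReal V) (hlo : 1 / Real.pi < V) (hhi : V < 1 - 1 / Real.pi)
    (hP : per E ≤ 2) : ∃ k c, AEEq E (band k c V) := by
  have ha : 0 < 1 / Real.pi := by positivity
  have hV := integral_ind_of_vol hE (ha.trans hlo).le hvol
  have hVc : ∫ x in cell, ind Eᶜ x = 1 - V := by rw [integral_ind_compl hE, hV]
  obtain ⟨A, hA, hAp, hAE, hAv, hAP⟩ := exists_sub_minimiser hprof hE hp hP hV hlo.le hhi
  obtain ⟨B, hB, hBp, hBE, hBv, hBP⟩ := exists_sub_minimiser hprof hE.compl hp.compl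
    ((per_compl hE).le.trans hP) hVc (by linarith) (by linarith)
  have shape : ∀ A : Set R3, MeasurableSet A → IsPeriodicSet A →
      ∫ x in cell, ind A x = 1 / Real.pi → per A ≤ 2 → ∃ S, IsEndShape S ∧ AEEq A S :=
    fun A hA hAp hv hP => by
      rcases H A hA hAp (vol_of_integral_ind hA hv) hP with ⟨k, c, h⟩ | ⟨l, c, h⟩
      exacts [⟨_, Or.inl ⟨k, c, rfl⟩, h⟩, ⟨_, Or.inr ⟨l, c, rfl⟩, h⟩]
  obtain ⟨S, hS, hAS⟩ := shape A hA hAp hAv hAP
  obtain ⟨T, hT, hBT⟩ := shape B hB hBp hBv hBP
  obtain ⟨l, hSl, hTl⟩ : ∃ l, InvAlong S l ∧ InvAlong T l := by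
    refine (hS.common hT).resolve_left fun hne => ?_
    have hpos := integral_ind_pos_of_open (hS.isOpen.inter hT.isOpen)
      (fun i x => and_congr (hS.periodic i x) (hT.periodic i x)) hne
    refine hpos.ne' (integral_eq_zero_of_ae ?_)
    filter_upwards [hAS, hBT] with x hxA hxB
    refine ind_of_notMem fun hx => ?_
    exact hBE (hxB.mpr hx.2) (hAE (hxA.mpr hx.1))
  have hSm := hS.isOpen.measurableSet
  have hTm := hT.isOpen.measurableSet
  have hSv : ∫ x in cell, ind S x = 1 / Real.pi := (integral_congr_ae hAS.ind.symm).trans hAv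
  have hTv : ∫ x in cell, ind T x = 1 / Real.pi := (integral_congr_ae hBT.ind.symm).trans hBv
  have hper : ∀ᵐ s ∂volume.restrict (Ioc (0 : ℝ) 1),
      ENNReal.ofReal 2 ≤ per (sliceCyl E l s) := by
    filter_upwards [sliceVol_mono hSm hE hS.periodic hp
        (hAS.mono fun x hx h => hAE (hx.mpr h)) l,
      sliceVol_mono hTm hE.compl hT.periodic hp.compl
        (hBT.mono fun x hx h => hBE (hx.mpr h)) l] with s h1 h2
    rw [hSl.sliceVol_eq, hSv] at h1
    rw [hTl.sliceVol_eq, hTv, sliceVol_compl hE] at h2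
    rw [show ENNReal.ofReal 2 = 2 by simp]
    exact two_le_per_of_mem hprof (measurableSet_sliceCyl hE l s) (isPeriodicSet_sliceCyl hp l s)
      rfl ⟨h1, show sliceVol E l s ≤ _ by linarith⟩
  obtain ⟨C, hC, hCp, hCl, hEC⟩ := exists_invAlong hE hp l hP fun η hη =>
    exists_field_of_slices hE hp l hper hη
  obtain ⟨m, c, hc⟩ := band_of_invAlong hprof hC hCp hCl ((hEC.per_eq hE hC).symm.le.trans hP)
    ((integral_congr_ae hEC.ind.symm).trans hV) hlo hhi
  exact ⟨m, c, hEC.trans hc⟩

end Vale.Agent.P232
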