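import Vale.Agent.P232.Uniq.Moment
import Vale.Agent.P232.Uniq.Range

/-!
Invariant minimisers of volume `1/π` are bands or tubes: equal second moments in both directions
single out the disc.
-/

open MeasureTheory Set Filter
open scoped ENNReal Topology Interval

namespace Vale.Agent.P232

/-- A function of two coordinates, integrated over the cell. -/
lemma plane_integral {i j : Fin 3} (hij : i ≠ j) {φ : ℝ → ℝ → ℝ}
    (hm : Measurable fun p : ℝ × ℝ => φ p.1 p.2) {D : ℝ} (hb : ∀ s t, |φ s t| ≤ D)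
    (h1 : ∀ s t, φ (s + 1) t = φ s t) (h2 : ∀ s t, φ s (t + 1) = φ s t) (a b : ℝ) :
    ∫ x in cell, φ (x i - a) (x j - b)
      = ∫ s in (-1/2 : ℝ)..(1/2), ∫ t in (-1/2 : ℝ)..(1/2), φ s t := by
  have hc : ∀ l : Fin 3, Measurable fun x : R3 => x l := fun l =>
    (PiLp.continuous_apply 2 _ l).measurable
  have shift1 : ∀ {G : ℝ → ℝ}, Function.Periodic G 1 → ∀ c : ℝ,
      ∫ s in Ioc (0 : ℝ) 1, G (s - c) = ∫ s in (-1/2 : ℝ)..(1/2), G s := fun {G} hG c => by
    rw [← intervalIntegral.integral_of_le zero_le_one, intervalIntegral.integral_comp_sub_right,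
      show (1 : ℝ) - c = 0 - c + 1 by ring, hG.intervalIntegral_add_eq (0 - c) (-1/2)]
    norm_num
  have hp : IsPer fun x : R3 => φ (x i - a) (x j - b) := fun l x => by
    by_cases li : l = i
    · subst li
      simp only [PiLp.add_apply, e_self, e_ne hij, PiLp.zero_apply, add_zero]
      rw [show x l + 1 - a = x l - a + 1 by ring, h1]
    by_cases lj : l = j
    · subst lj
      simp only [PiLp.add_apply, e_self, e_ne hij.symm, add_zero]
      rw [show x l + 1 - b = x l - b + 1 by ring, h2]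
    · simp [e_ne li, e_ne lj]
  rw [← setIntegral_toSlice (h := fun x => φ (x i - a) (x j - b)) (C := D)
    (hm.comp (((hc i).sub_const a).prodMk ((hc j).sub_const b))) (fun x => hb _ _) hp i]
  simp only [toSlice_apply_self, toSlice_apply_ne hij]
  have hin : ∀ s : ℝ, ∫ x in cell, φ (s - a) (x j - b)
      = ∫ t in (-1/2 : ℝ)..(1/2), φ (s - a) t := fun s => by
    rw [← setIntegral_toSlice (h := fun x => φ (s - a) (x j - b)) (C := D)
      (hm.comp (measurable_const.prodMk ((hc j).sub_const b))) (fun x => hb _ _) (fun l x => by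
        by_cases lj : l = j
        · subst lj
          simp only [PiLp.add_apply, e_self]
          rw [show x l + 1 - b = x l - b + 1 by ring, h2]
        · simp [e_ne lj]) j]
    simp only [toSlice_apply_self, setIntegral_const, smul_eq_mul, Measure.real, volume_cell,
      ENNReal.toReal_one, one_mul]
    exact shift1 (fun t => h2 _ t) b
  simp only [hin]
  exact shift1 (G := fun s => ∫ t in (-1/2 : ℝ)..(1/2), φ s t) (fun s => by simp only [h1]) a

lemma integral_parabola {R : ℝ} (hR : R ≤ 1 / 4) :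
    ∫ t in (-1/2 : ℝ)..(1/2), max 0 (R - t ^ 2) = 4 / 3 * (max 0 R * Real.sqrt (max 0 R)) := by
  have hc : Continuous fun t : ℝ => max 0 (R - t ^ 2) := by fun_prop
  rcases le_or_gt R 0 with h | h
  · rw [max_eq_left h, zero_mul, mul_zero]
    rw [intervalIntegral.integral_congr (g := fun _ => (0 : ℝ)) fun t _ => ?_,
      intervalIntegral.integral_zero]
    exact max_eq_left (by nlinarith [sq_nonneg t])
  rw [max_eq_right h.le]
  set w := Real.sqrt R with hw
  have hw2 : w ^ 2 = R := Real.sq_sqrt h.le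
  have hw0 : 0 < w := Real.sqrt_pos.2 h
  have hwh : w ≤ 1 / 2 := Real.sqrt_le_iff.2 ⟨by norm_num, by linarith⟩
  have hz : ∀ u v, u ≤ v → (v ≤ -w ∨ w ≤ u) → ∫ t in u..v, max 0 (R - t ^ 2) = 0 := by
    intro u v huv hside
    rw [intervalIntegral.integral_congr (g := fun _ => (0 : ℝ)) fun t ht => ?_,
      intervalIntegral.integral_zero]
    rw [uIcc_of_le huv] at ht
    refine max_eq_left ?_
    rcases hside with h' | h' <;> nlinarith [ht.1, ht.2]
  rw [← intervalIntegral.integral_add_adjacent_intervals (hc.intervalIntegrable (-1/2) (-w))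
      (hc.intervalIntegrable (-w) _),
    ← intervalIntegral.integral_add_adjacent_intervals (hc.intervalIntegrable (-w) w)
      (hc.intervalIntegrable w _), hz _ _ (by linarith) (Or.inl le_rfl),
    hz w _ hwh (Or.inr le_rfl), zero_add, add_zero,
    intervalIntegral.integral_congr (g := fun t => R - t ^ 2) fun t ht => ?_]
  · rw [intervalIntegral.integral_sub intervalIntegrable_const
      ((continuous_pow 2).intervalIntegrable _ _), intervalIntegral.integral_const, integral_pow,
      ← hw2]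
    simp only [smul_eq_mul]
    push_cast
    ring
  · rw [uIcc_of_le (by linarith)] at ht
    exact max_eq_right (by nlinarith [ht.1, ht.2])

/-- The disc of radius `1/π` carries `1/(2π³)`. -/
lemma integral_cap :
    ∫ s in (-1/2 : ℝ)..(1/2), ∫ t in (-1/2 : ℝ)..(1/2), max 0 ((1 / Real.pi) ^ 2 - s ^ 2 - t ^ 2)
      = 1 / (2 * Real.pi ^ 3) := by
  set r := 1 / Real.pi with hr
  have hr0 : 0 < r := by positivity
  have hrh : r ≤ 1 / 2 := one_div_pi_le_half
  rw [intervalIntegral.integral_congr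
    (g := fun s => 4 / 3 * (max 0 (r ^ 2 - s ^ 2) * Real.sqrt (max 0 (r ^ 2 - s ^ 2)))) fun s _ =>
      integral_parabola (by nlinarith [sq_nonneg s])]
  have hc : Continuous fun s : ℝ =>
      4 / 3 * (max 0 (r ^ 2 - s ^ 2) * Real.sqrt (max 0 (r ^ 2 - s ^ 2))) := by fun_prop
  have hz : ∀ u v, u ≤ v → (v ≤ -r ∨ r ≤ u) →
      ∫ s in u..v, 4 / 3 * (max 0 (r ^ 2 - s ^ 2) * Real.sqrt (max 0 (r ^ 2 - s ^ 2))) = 0 := by
    intro u v huv hside
    rw [intervalIntegral.integral_congr (g := fun _ => (0 : ℝ)) fun t ht => ?_,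
      intervalIntegral.integral_zero]
    rw [uIcc_of_le huv] at ht
    have : r ^ 2 - t ^ 2 ≤ 0 := by rcases hside with h' | h' <;> nlinarith [ht.1, ht.2]
    simp [max_eq_left this]
  rw [← intervalIntegral.integral_add_adjacent_intervals (hc.intervalIntegrable (-1/2) (-r))
      (hc.intervalIntegrable (-r) _),
    ← intervalIntegral.integral_add_adjacent_intervals (hc.intervalIntegrable (-r) r)
      (hc.intervalIntegrable r _), hz _ _ (by linarith) (Or.inl le_rfl),
    hz r _ hrh (Or.inr le_rfl), zero_add, add_zero]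
  have hin : ∀ s ∈ uIcc (-r) r, 4 / 3 * (max 0 (r ^ 2 - s ^ 2) * Real.sqrt (max 0 (r ^ 2 - s ^ 2)))
      = 4 / 3 * r ^ 3 * ((1 - (r⁻¹ * s) ^ 2) * Real.sqrt (1 - (r⁻¹ * s) ^ 2)) := fun s hs => by
    rw [uIcc_of_le (by linarith)] at hs
    have h : 0 ≤ r ^ 2 - s ^ 2 := by nlinarith [hs.1, hs.2]
    rw [max_eq_right h, show r ^ 2 - s ^ 2 = r ^ 2 * (1 - (r⁻¹ * s) ^ 2) by field_simp,
      Real.sqrt_mul (sq_nonneg r), Real.sqrt_sq hr0.le]
    ring
  rw [intervalIntegral.integral_congr hin, intervalIntegral.integral_const_mul,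
    intervalIntegral.integral_comp_mul_left (fun u => (1 - u ^ 2) * Real.sqrt (1 - u ^ 2))
      (inv_ne_zero hr0.ne'),
    inv_mul_cancel₀ hr0.ne', mul_neg, inv_mul_cancel₀ hr0.ne', inv_inv]
  have e : ∫ u in (-1 : ℝ)..1, (1 - u ^ 2) * Real.sqrt (1 - u ^ 2) = 3 * Real.pi / 8 := by
    simp only [sub_mul, one_mul]
    rw [intervalIntegral.integral_sub ((by fun_prop : Continuous _).intervalIntegrable _ _)
      ((by fun_prop : Continuous _).intervalIntegrable _ _), integral_sqrt_one_sub_sq,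
      integral_sq_mul_sqrt]
    ring
  rw [e, smul_eq_mul, hr]
  field_simp
  ring

lemma mem_tube_iff {i j k : Fin 3} (hij : i ≠ j) (hik : i ≠ k) (hjk : j ≠ k) (a b r : ℝ) (x : R3) :
    x ∈ tube k (a • e i + b • e j) r ↔ dnear (x i - a) ^ 2 + dnear (x j - b) ^ 2 < r ^ 2 := by
  have hsum : ∀ m : Fin 3 → ℤ,
      ∑ l, (if l = k then (0:ℝ) else (x l - (a • e i + b • e j) l - m l) ^ 2)
        = (x i - a - m i) ^ 2 + (x j - b - m j) ^ 2 := fun m => by
    rw [three_sum hij hik hjk]
    simp [hik, hjk, e_self, e_ne hij, e_ne hij.symm]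
  simp only [tube, mem_ofPred_eq, hsum]
  have key : ∀ (y : ℝ) (m : ℤ), dnear y ^ 2 ≤ (y - m) ^ 2 := fun y m =>
    sq_le_sq.2 (round_le y m)
  constructor
  · rintro ⟨m, hm⟩
    exact lt_of_le_of_lt (add_le_add (key _ _) (key _ _)) hm
  · intro h
    refine ⟨fun l => if l = i then round (x i - a) else round (x j - b), ?_⟩
    simpa [hij.symm, dnear] using h

variable {C : Set R3} {i j k : Fin 3}

lemma testIneq_sliceVol (hij : i ≠ j) (hik : i ≠ k) (hjk : j ≠ k) (hC : MeasurableSet C)
    (hp : IsPeriodicSet C) (hk : InvAlong C k) (hP : per C ≤ 2)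
    (hone : ∀ᵐ s ∂volume.restrict (Ioc (0 : ℝ) 1), sliceVol C i s ≠ 1) :
    TestIneq (sliceVol C i) where
  meas := measurable_sliceVol hC i
  mem := sliceVol_mem C i
  periodic := periodic_sliceVol hp i
  test _ _ hpa hap hep hea _ _ h1 h2 hb1 hb2 :=
    cut_test hij hik hjk hC hp hk hP hone hpa hap hep hea h1 h2 hb1 hb2

/-- The moment in one direction. -/
lemma exists_dir_moment (hij : i ≠ j) (hik : i ≠ k) (hjk : j ≠ k) (hC : MeasurableSet C)
    (hp : IsPeriodicSet C) (hk : InvAlong C k) (hP : per C ≤ 2)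
    (hV : ∫ x in cell, ind C x = 1 / Real.pi)
    (hgi : ¬ ∀ᵐ s ∂volume.restrict (Ioc (0 : ℝ) 1), sliceVol C i s ≠ 0)
    (hgj : ¬ ∀ᵐ s ∂volume.restrict (Ioc (0 : ℝ) 1), sliceVol C j s ≠ 0) :
    ∃ c, ∫ x in cell, ind C x * dnear (x i - c) ^ 2 = 1 / (4 * Real.pi ^ 3) := by
  have hf := testIneq_sliceVol hij hik hjk hC hp hk hP (sliceVol_ne_one_of_gap hC hp hij hgj)
  obtain ⟨s₀, he⟩ : ∃ s₀, EmptyAt (sliceVol C i) s₀ := by
    by_contra h
    push Not at h
    exact hgi ((ae_restrict_of_ae (ae_emptyAt hf.meas hf.mem)).mono fun s hs h0 => h s (hs h0))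
  have hV' : ∫ s in (0 : ℝ)..1, sliceVol C i s = 1 / Real.pi := by
    rw [← hV, ← setIntegral_toSlice (measurable_ind hC) (abs_ind_le C) (isPer_ind hp) i,
      intervalIntegral.integral_of_le zero_le_one]
    simp only [sliceVol, ind_sliceCyl]
  obtain ⟨c, hc⟩ := hf.exists_moment hV' he
  refine ⟨c, ?_⟩
  rw [← hc, intervalIntegral.integral_of_le zero_le_one,
    ← setIntegral_toSlice (h := fun x => ind C x * dnear (x i - c) ^ 2) (C := 1)
      ((measurable_ind hC).mul ((measurable_dnear.comp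
        ((PiLp.continuous_apply 2 _ i).measurable.sub_const c)).pow_const 2))
      (fun x => by
        rw [abs_mul, abs_pow]
        refine mul_le_one₀ (abs_ind_le C x) (by positivity) ?_
        nlinarith [dnear_mem (x i - c), abs_nonneg (dnear (x i - c))])
      ((isPer_ind hp).comp₂ (fun l x => show dnear ((x + e l) i - c) ^ 2 = dnear (x i - c) ^ 2 by
        by_cases a : l = i
        · subst a
          simp only [PiLp.add_apply, e_self, show x l + 1 - c = x l - c + 1 by ring, dnear_add_one]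
        · simp [e_ne a]) fun u v => u * v) i]
  simp only [toSlice_apply_self, integral_mul_const, sliceVol, ind_sliceCyl]

/-- The height of the paraboloid over the disc of radius `1/π`. -/
noncomputable def bowl (s t : ℝ) : ℝ := (1 / Real.pi) ^ 2 - dnear s ^ 2 - dnear t ^ 2

lemma measurable_bowl : Measurable fun p : ℝ × ℝ => bowl p.1 p.2 :=
  (measurable_const.sub ((measurable_dnear.comp measurable_fst).pow_const 2)).sub
    ((measurable_dnear.comp measurable_snd).pow_const 2)

lemma abs_bowl_le (s t : ℝ) : |bowl s t| ≤ 1 := by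
  have h1 : dnear s ^ 2 ≤ 1 / 4 := by nlinarith [abs_le.1 (dnear_mem s)]
  have h2 : dnear t ^ 2 ≤ 1 / 4 := by nlinarith [abs_le.1 (dnear_mem t)]
  have h3 : (1 / Real.pi) ^ 2 ≤ 1 / 4 := by
    nlinarith [one_div_pi_le_half, show 0 < 1 / Real.pi by positivity]
  rw [bowl, abs_le]
  constructor <;> nlinarith [sq_nonneg (dnear s), sq_nonneg (dnear t), sq_nonneg (1 / Real.pi)]

lemma abs_max_bowl_le (s t : ℝ) : |max 0 (bowl s t)| ≤ 1 := by
  rw [abs_of_nonneg (le_max_left _ _)]; exact max_le zero_le_one (abs_le.1 (abs_bowl_le s t)).2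

lemma integral_cap_cell (hij : i ≠ j) (a b : ℝ) :
    ∫ x in cell, max 0 (bowl (x i - a) (x j - b)) = 1 / (2 * Real.pi ^ 3) := by
  rw [plane_integral hij (φ := fun s t => max 0 (bowl s t)) (measurable_const.max measurable_bowl) abs_max_bowl_le
    (fun s t => by simp only [bowl, dnear_add_one]) (fun s t => by simp only [bowl, dnear_add_one])
    a b, ← integral_cap]
  refine intervalIntegral.integral_congr fun s hs => intervalIntegral.integral_congr fun t ht => ?_
  rw [uIcc_of_le (by norm_num)] at hs ht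
  simp only [bowl]
  rw [dnear_sq_of_abs_le (abs_le.2 ⟨by linarith [hs.1], hs.2⟩),
    dnear_sq_of_abs_le (abs_le.2 ⟨by linarith [ht.1], ht.2⟩)]

lemma bowl_eq (s t : ℝ) : bowl s t = (1 / Real.pi) ^ 2 - dnear s ^ 2 - dnear t ^ 2 := rfl

lemma bowl_add_left (s t : ℝ) : bowl (s + 1) t = bowl s t := by simp [bowl, dnear_add_one]

lemma bowl_add_right (s t : ℝ) : bowl s (t + 1) = bowl s t := by simp [bowl, dnear_add_one]

attribute [local irreducible] bowl dnear

lemma circle_null (hij : i ≠ j) (a b : ℝ) :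
    ∀ᵐ x ∂volume.restrict cell, bowl (x i - a) (x j - b) ≠ 0 := by
  have hc : ∀ l : Fin 3, Measurable fun x : R3 => x l := fun l =>
    (PiLp.continuous_apply 2 _ l).measurable
  set Z : ℝ → ℝ → ℝ := fun s t => if bowl s t = 0 then 1 else 0 with hZ
  have hZm : Measurable fun p : ℝ × ℝ => Z p.1 p.2 :=
    Measurable.ite (measurable_bowl (measurableSet_singleton 0)) measurable_const measurable_const
  have hZb : ∀ s t, |Z s t| ≤ 1 := fun s t => by simp only [hZ]; split_ifs <;> simp
  have h0 : ∫ x in cell, Z (x i - a) (x j - b) = 0 := by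
    rw [plane_integral hij hZm hZb (fun s t => by simp only [hZ, bowl_add_left])
      (fun s t => by simp only [hZ, bowl_add_right]) a b]
    refine intervalIntegral.integral_zero_ae (ae_of_all _ fun s _ => ?_)
    refine intervalIntegral.integral_zero_ae ?_
    set w := Real.sqrt ((1 / Real.pi) ^ 2 - dnear s ^ 2)
    have hne : ∀ᵐ t : ℝ, t ≠ w ∧ t ≠ -w := (measure_eq_zero_iff_ae_notMem.1
      (measure_singleton w)).and (measure_eq_zero_iff_ae_notMem.1 (measure_singleton (-w)))
    filter_upwards [hne] with t ht htI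
    rw [uIoc_of_le (by norm_num)] at htI
    simp only [hZ]
    rw [if_neg]
    intro hz
    rw [bowl_eq] at hz
    rw [dnear_sq_of_abs_le (abs_le.2 ⟨by linarith [htI.1], htI.2⟩)] at hz
    have hw : w ^ 2 = t ^ 2 := by
      rw [Real.sq_sqrt (by nlinarith [sq_nonneg t])]; linarith
    rcases eq_or_eq_neg_of_sq_eq_sq _ _ hw.symm with h | h
    exacts [ht.1 h, ht.2 h]
  have hi : Integrable (fun x : R3 => Z (x i - a) (x j - b)) (volume.restrict cell) :=
    integrable_cell_of_bound (C := 1)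
      (hZm.comp (((hc i).sub_const a).prodMk ((hc j).sub_const b))) fun x => hZb _ _
  filter_upwards [(integral_eq_zero_iff_of_nonneg
    (fun x => by simp only [hZ]; split_ifs <;> simp) hi).1 h0] with x hx hz
  simp [hZ, show bowl (x i - a) (x j - b) = 0 from hz] at hx

/-- A set of area `1/π` with the moments of the disc is the disc. -/
lemma aeEq_tube_of_moments (hij : i ≠ j) (hik : i ≠ k) (hjk : j ≠ k) (hC : MeasurableSet C)
    (hV : ∫ x in cell, ind C x = 1 / Real.pi) {a b : ℝ}
    (ha : ∫ x in cell, ind C x * dnear (x i - a) ^ 2 = 1 / (4 * Real.pi ^ 3))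
    (hb : ∫ x in cell, ind C x * dnear (x j - b) ^ 2 = 1 / (4 * Real.pi ^ 3)) :
    AEEq C (tube k (a • e i + b • e j) (1 / Real.pi)) := by
  have hc : ∀ l : Fin 3, Measurable fun x : R3 => x l := fun l =>
    (PiLp.continuous_apply 2 _ l).measurable
  have gm := measurable_ind hC
  have hdl : ∀ (l : Fin 3) (c : ℝ), IntegrableOn (fun x => ind C x * dnear (x l - c) ^ 2) cell :=
    fun l c => integrable_cell_of_bound (C := 1)
      (gm.mul ((measurable_dnear.comp ((hc l).sub_const c)).pow_const 2)) fun x => by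
        rw [abs_mul, abs_pow]
        refine mul_le_one₀ (abs_ind_le C x) (by positivity) ?_
        nlinarith [dnear_mem (x l - c), abs_nonneg (dnear (x l - c))]
  have hgi' : IntegrableOn (ind C) cell := integrable_cell_of_bound gm (abs_ind_le C)
  have hset : ∫ x in cell, ind C x * bowl (x i - a) (x j - b) = 1 / (2 * Real.pi ^ 3) := by
    have e : ∀ x, ind C x * bowl (x i - a) (x j - b) = (1 / Real.pi) ^ 2 * ind C x
        - ind C x * dnear (x i - a) ^ 2 - ind C x * dnear (x j - b) ^ 2 := fun x => by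
      simp only [bowl_eq]; ring
    simp only [e]
    have q1 : IntegrableOn (fun x => (1 / Real.pi) ^ 2 * ind C x) cell := hgi'.const_mul _
    have q2 : IntegrableOn (fun x => (1 / Real.pi) ^ 2 * ind C x
        - ind C x * dnear (x i - a) ^ 2) cell := q1.sub (hdl i a)
    rw [integral_sub q2 (hdl j b), integral_sub q1 (hdl i a), integral_const_mul, ha, hb, hV]
    field_simp
    ring
  set Fm : R3 → ℝ := fun x => bowl (x i - a) (x j - b) with hFm
  have hFmm : Measurable Fm := measurable_bowl.comp (((hc i).sub_const a).prodMk ((hc j).sub_const b))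
  have i1 : IntegrableOn (fun x => max 0 (Fm x)) cell :=
    integrable_cell_of_bound (C := 1) (measurable_const.max hFmm) fun x => abs_max_bowl_le _ _
  have i2 : IntegrableOn (fun x => ind C x * Fm x) cell :=
    integrable_cell_of_bound (C := 1) (gm.mul hFmm) fun x => by
      rw [abs_mul]; exact mul_le_one₀ (abs_ind_le C x) (abs_nonneg _) (abs_bowl_le _ _)
  have hnn : ∀ x, 0 ≤ max 0 (Fm x) - ind C x * Fm x := fun x => by
    rcases le_total 0 (Fm x) with h | h
    · rw [max_eq_right h]; nlinarith [(ind_mem C x).2]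
    · rw [max_eq_left h]; nlinarith [(ind_mem C x).1]
  have hae := (integral_eq_zero_iff_of_nonneg hnn (i1.sub i2)).1
    (by rw [integral_sub i1 i2, integral_cap_cell hij a b, hset, sub_self])
  filter_upwards [hae, circle_null hij a b] with x hx hx0
  have hx' : max 0 (Fm x) - ind C x * Fm x = 0 := hx
  refine propext ?_
  show x ∈ C ↔ x ∈ tube k _ _
  rw [mem_tube_iff hij hik hjk]
  have hiff : dnear (x i - a) ^ 2 + dnear (x j - b) ^ 2 < (1 / Real.pi) ^ 2 ↔ 0 < Fm x := by
    simp only [hFm, bowl_eq]; constructor <;> intro h <;> linarith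
  rw [hiff]
  rcases lt_or_gt_of_ne hx0 with h | h
  · rw [max_eq_left h.le] at hx'
    constructor
    · intro hxC; rw [ind_of_mem hxC] at hx'; linarith
    · intro h'; linarith
  · rw [max_eq_right h.le] at hx'
    refine ⟨fun _ => h, fun _ => ?_⟩
    by_contra hxC
    rw [ind_of_notMem hxC] at hx'
    linarith

/-- A minimiser with empty lines in both directions is a tube. -/
theorem tube_of_gaps (hij : i ≠ j) (hik : i ≠ k) (hjk : j ≠ k) (hC : MeasurableSet C)
    (hp : IsPeriodicSet C) (hk : InvAlong C k) (hP : per C ≤ 2)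
    (hV : ∫ x in cell, ind C x = 1 / Real.pi)
    (hgi : ¬ ∀ᵐ s ∂volume.restrict (Ioc (0 : ℝ) 1), sliceVol C i s ≠ 0)
    (hgj : ¬ ∀ᵐ s ∂volume.restrict (Ioc (0 : ℝ) 1), sliceVol C j s ≠ 0) :
    ∃ c, AEEq C (tube k c (1 / Real.pi)) := by
  obtain ⟨a, ha⟩ := exists_dir_moment hij hik hjk hC hp hk hP hV hgi hgj
  obtain ⟨b, hb⟩ := exists_dir_moment hij.symm hjk hik hC hp hk hP hV hgj hgi
  exact ⟨_, aeEq_tube_of_moments hij hik hjk hC hV ha hb⟩

/-- Invariant minimisers of volume `1/π` are bands or tubes. -/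
theorem endShape_of_invAlong (hprof : 2 ≤ profile (1 / Real.pi)) (hC : MeasurableSet C)
    (hp : IsPeriodicSet C) (hk : InvAlong C k) (hP : per C ≤ 2)
    (hV : ∫ x in cell, ind C x = 1 / Real.pi) :
    (∃ l c, AEEq C (band l c (1 / Real.pi))) ∨ ∃ c, AEEq C (tube k c (1 / Real.pi)) := by
  obtain ⟨i, hik, -⟩ := exists_ne_two k k
  obtain ⟨j, hjk, hji⟩ := exists_ne_two k i
  have hij := Ne.symm hji
  have h0 : 0 < 1 / Real.pi := by positivity
  have h1 : 1 / Real.pi < 1 := lt_of_le_of_lt one_div_pi_le_half (by norm_num)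
  by_cases mi : ∀ᵐ s ∂volume.restrict (Ioc (0 : ℝ) 1), sliceVol C i s ≠ 0 ∧ sliceVol C i s ≠ 1
  · exact Or.inl ⟨j, band_of_mixed_slices hij hik hjk hC hp hk hP hV h0 h1 mi⟩
  by_cases mj : ∀ᵐ s ∂volume.restrict (Ioc (0 : ℝ) 1), sliceVol C j s ≠ 0 ∧ sliceVol C j s ≠ 1
  · exact Or.inl ⟨i, band_of_mixed_slices hji hjk hik hC hp hk hP hV h0 h1 mj⟩
  refine Or.inr ?_
  rw [eventually_and, not_and_or] at mi mj
  have hc : ∀ l, (¬ ∀ᵐ s ∂volume.restrict (Ioc (0 : ℝ) 1), sliceVol C l s ≠ 1) →
      ¬ ∀ᵐ s ∂volume.restrict (Ioc (0 : ℝ) 1), sliceVol Cᶜ l s ≠ 0 := fun l hl h =>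
    hl (h.mono fun s hs he => hs (by rw [sliceVol_compl hC, he, sub_self]))
  rcases mi with ei | fi <;> rcases mj with ej | fj
  · exact tube_of_gaps hij hik hjk hC hp hk hP hV ei ej
  · exact absurd (sliceVol_ne_one_of_gap hC hp hji ei) fj
  · exact absurd (sliceVol_ne_one_of_gap hC hp hij ej) fi
  · exact (no_double_gap hij hik hjk hC.compl hp.compl hk.compl ((per_compl hC).le.trans hP)
      ((integral_ind_compl hC).trans (by rw [hV]))
      (by have : 2 / Real.pi < 1 := by rw [div_lt_one Real.pi_pos]; linarith [Real.pi_gt_three]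
          rw [show 2 / Real.pi = 2 * (1 / Real.pi) by ring] at this
          linarith) hprof (hc i fi) (hc j fj)).elim

end Vale.Agent.P232
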