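import Vale.Agent.P232.Uniq.Slice
import Vale.Agent.P232.SymmGlue
import Vale.Agent.P232.Polarise

/-!
Convex integrals of the masses of slices and of lines do not decrease under polarisation, hence
not under the symmetrisation of the torus.
-/

open MeasureTheory Set Filter
open scoped ENNReal NNReal Topology

namespace Vale.Agent.P232

/-- The mass of a slice of a function. -/
noncomputable def sliceInt (v : R3 → ℝ) (k : Fin 3) (s : ℝ) : ℝ :=
  ∫ x in cell, v (toSlice k s x)

/-- The integral of a function of the slice masses. -/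
noncomputable def sliceEnergyOf (φ : ℝ → ℝ) (v : R3 → ℝ) (k : Fin 3) : ℝ :=
  ∫ s in Ioc (0 : ℝ) 1, φ (sliceInt v k s)

/-- The integral of a function of the masses of the lines orthogonal to `k` and `i`. -/
noncomputable def lineEnergyOf (φ : ℝ → ℝ) (v : R3 → ℝ) (k i : Fin 3) : ℝ :=
  ∫ s in Ioc (0 : ℝ) 1, sliceEnergyOf φ (fun x => v (toSlice k s x)) i

/-- A convex function, Lipschitz on the unit interval. -/
structure IsGauge (φ : ℝ → ℝ) : Prop where
  conv : ConvexOn ℝ univ φ
  cont : Continuous φ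
  lip : ∃ L, 0 ≤ L ∧ ∀ a ∈ Icc (0 : ℝ) 1, ∀ b ∈ Icc (0 : ℝ) 1, |φ a - φ b| ≤ L * |a - b|

lemma IsGauge.exists_bound {φ : ℝ → ℝ} (hφ : IsGauge φ) :
    ∃ C, ∀ a ∈ Icc (0 : ℝ) 1, |φ a| ≤ C := by
  obtain ⟨C, hC⟩ := isCompact_Icc.exists_bound_of_continuousOn (hφ.cont.continuousOn (s := Icc 0 1))
  exact ⟨C, fun a ha => by simpa using hC a ha⟩

lemma isGauge_excess (c : ℝ) : IsGauge fun t => max (t - c) 0 :=
  ⟨((convexOn_id convex_univ).sub (concaveOn_const c convex_univ)).sup
      (convexOn_const 0 convex_univ),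
    by fun_prop, 1, zero_le_one, fun a _ b _ => by
      rw [one_mul]
      refine (abs_max_sub_max_le_max _ _ _ _).trans ?_
      simp⟩

lemma isGauge_sq : IsGauge fun t => t ^ 2 :=
  ⟨even_two.convexOn_pow, by fun_prop, 2, two_pos.le, fun a ha b hb => by
    rw [show a ^ 2 - b ^ 2 = (a + b) * (a - b) by ring, abs_mul]
    exact mul_le_mul_of_nonneg_right (abs_le.2 ⟨by linarith [ha.1, hb.1], by linarith [ha.2, hb.2]⟩)
      (abs_nonneg _)⟩

/-- Spreading two values with the same sum increases a convex function's total. -/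
lemma IsGauge.spread {φ : ℝ → ℝ} (hφ : IsGauge φ) {a a' b : ℝ} (h1 : a ≤ b) (h2 : a' ≤ b) :
    φ a + φ a' ≤ φ b + φ (a + a' - b) := by
  set b' := a + a' - b with hb'
  rcases eq_or_lt_of_le (show b' ≤ b by linarith) with h | h
  · have ea : a = b := by linarith
    have ea' : a' = b := by linarith
    rw [ea, ea', h]
  set θ := (a - b') / (b - b') with hθ
  have hθ0 : 0 ≤ θ := div_nonneg (by linarith) (by linarith)
  have hθ1 : θ ≤ 1 := (div_le_one (by linarith)).2 (by linarith)
  have e1 : θ * b + (1 - θ) * b' = a := by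
    rw [show θ * b + (1 - θ) * b' = θ * (b - b') + b' by ring, hθ,
      div_mul_cancel₀ _ (by linarith)]
    ring
  have e2 : (1 - θ) * b + θ * b' = a' := by nlinarith [e1]
  have k1 := hφ.conv.2 (mem_univ b) (mem_univ b') hθ0 (sub_nonneg.2 hθ1) (by ring)
  have k2 := hφ.conv.2 (mem_univ b) (mem_univ b') (sub_nonneg.2 hθ1) hθ0 (by ring)
  simp only [smul_eq_mul, e1, e2] at k1 k2
  linarith

lemma measurable_sliceInt {v : R3 → ℝ} (hv : Measurable v) (k : Fin 3) :
    Measurable (sliceInt v k) := by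
  have hm : Measurable fun p : ℝ × R3 => v (toSlice k p.1 p.2) :=
    hv.comp (continuous_toSlice k).measurable
  exact (hm.stronglyMeasurable.integral_prod_right' (ν := volume.restrict cell)).measurable

lemma measurable_toSlice (k : Fin 3) (s : ℝ) : Measurable fun x : R3 => toSlice k s x :=
  ((continuous_toSlice k).comp (continuous_const.prodMk continuous_id)).measurable

lemma integrable_comp_toSlice {v : R3 → ℝ} (hv : Measurable v) (h01 : ∀ x, 0 ≤ v x ∧ v x ≤ 1)
    (k : Fin 3) (s : ℝ) : IntegrableOn (fun x => v (toSlice k s x)) cell :=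
  integrable_cell_of_bound (C := 1) (hv.comp (measurable_toSlice k s)) fun x =>
    abs_le.2 ⟨by linarith [(h01 (toSlice k s x)).1], (h01 _).2⟩

lemma sliceInt_mem {v : R3 → ℝ} (hv : Measurable v) (h01 : ∀ x, 0 ≤ v x ∧ v x ≤ 1) (k : Fin 3)
    (s : ℝ) : sliceInt v k s ∈ Icc (0 : ℝ) 1 := by
  refine ⟨integral_nonneg fun x => (h01 _).1,
    (integral_mono (integrable_comp_toSlice hv h01 k s) (integrable_const (1 : ℝ))
      fun x => (h01 _).2).trans ?_⟩
  simp [Measure.real, volume_cell]

lemma periodic_sliceInt {v : R3 → ℝ} (hp : IsPer v) (k : Fin 3) :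
    Function.Periodic (sliceInt v k) 1 := fun s => by
  refine setIntegral_congr_fun measurableSet_cell fun x _ => ?_
  rw [show toSlice k (s + 1) x = toSlice k s x + e k by simp only [toSlice]; module]
  exact hp k _

lemma integrable_sliceInt_of {φ : ℝ → ℝ} (hφ : IsGauge φ) {v : R3 → ℝ} (hv : Measurable v)
    (h01 : ∀ x, 0 ≤ v x ∧ v x ≤ 1) (k : Fin 3) :
    IntegrableOn (fun s => φ (sliceInt v k s)) (Ioc (0 : ℝ) 1) := by
  obtain ⟨C, hC⟩ := hφ.exists_bound
  exact Integrable.mono' (integrable_const C)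
    (hφ.cont.measurable.comp (measurable_sliceInt hv k)).aestronglyMeasurable
    (ae_of_all _ fun s => by simpa using hC _ (sliceInt_mem hv h01 k s))

lemma integrable_sliceInt_sq {v : R3 → ℝ} (hv : Measurable v) (h01 : ∀ x, 0 ≤ v x ∧ v x ≤ 1)
    (k : Fin 3) : IntegrableOn (fun s => sliceInt v k s ^ 2) (Ioc (0 : ℝ) 1) :=
  integrable_sliceInt_of isGauge_sq hv h01 k

/-- The energy is Lipschitz for the mean distance. -/
lemma abs_sliceEnergyOf_sub_le {φ : ℝ → ℝ} (hφ : IsGauge φ) {L : ℝ} (hL : 0 ≤ L)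
    (hlip : ∀ a ∈ Icc (0 : ℝ) 1, ∀ b ∈ Icc (0 : ℝ) 1, |φ a - φ b| ≤ L * |a - b|)
    {v w : R3 → ℝ} (hv : Measurable v) (hw : Measurable w) (hpv : IsPer v)
    (hpw : IsPer w) (hv1 : ∀ x, 0 ≤ v x ∧ v x ≤ 1) (hw1 : ∀ x, 0 ≤ w x ∧ w x ≤ 1) (k : Fin 3) :
    |sliceEnergyOf φ v k - sliceEnergyOf φ w k| ≤ L * ∫ x in cell, |v x - w x| := by
  have hb : ∀ x, |v x - w x| ≤ 1 := fun x => abs_le.2
    ⟨by linarith [(hv1 x).1, (hw1 x).2], by linarith [(hv1 x).2, (hw1 x).1]⟩
  have hi := (integrable_prod_of_bound (F := fun s x => |v (toSlice k s x) - w (toSlice k s x)|)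
    (((hv.comp (continuous_toSlice k).measurable).sub
      (hw.comp (continuous_toSlice k).measurable)).abs)
    (fun s x => by rw [abs_abs]; exact hb _)).integral_prod_left
  rw [← setIntegral_toSlice (h := fun x => |v x - w x|) (C := 1) (hv.sub hw).abs
    (fun x => by rw [abs_abs]; exact hb x) (hpv.comp₂ hpw fun a b => |a - b|) k,
    ← integral_const_mul, sliceEnergyOf, sliceEnergyOf,
    ← integral_sub (integrable_sliceInt_of hφ hv hv1 k) (integrable_sliceInt_of hφ hw hw1 k)]
  refine (abs_integral_le_integral_abs).trans ?_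
  refine integral_mono
    ((integrable_sliceInt_of hφ hv hv1 k).sub (integrable_sliceInt_of hφ hw hw1 k)).abs
    (hi.const_mul L) fun s => ?_
  refine (hlip _ (sliceInt_mem hv hv1 k s) _ (sliceInt_mem hw hw1 k s)).trans ?_
  refine mul_le_mul_of_nonneg_left ?_ hL
  rw [sliceInt, sliceInt, ← integral_sub (integrable_comp_toSlice hv hv1 k s)
    (integrable_comp_toSlice hw hw1 k s)]
  exact abs_integral_le_integral_abs

lemma lipschitz_toSlice (k : Fin 3) (s : ℝ) : LipschitzWith 1 (toSlice k s) := by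
  refine LipschitzWith.of_dist_le_mul fun x y => ?_
  rw [NNReal.coe_one, one_mul, dist_eq_norm, dist_eq_norm, EuclideanSpace.norm_eq,
    EuclideanSpace.norm_eq]
  refine Real.sqrt_le_sqrt (Finset.sum_le_sum fun l _ => ?_)
  by_cases a : l = k
  · subst a; simp [toSlice_apply_self, sq_nonneg]
  · simp [toSlice_apply_ne (Ne.symm a)]

/-- Polarisation across another coordinate commutes with slicing. -/
lemma pol_toSlice (v : R3 → ℝ) {i k : Fin 3} (hik : i ≠ k) (c s : ℝ) (x : R3) :
    pol i c v (toSlice k s x) = pol i c (fun y => v (toSlice k s y)) x := by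
  simp only [pol, toSlice_apply_ne (Ne.symm hik)]
  rw [refl_eq, refl_eq, toSlice_apply_ne (Ne.symm hik), toSlice_add_of_ne hik]

/-- Polarisation across another coordinate keeps every slice mass. -/
lemma sliceInt_pol_ne {v : R3 → ℝ} {K : ℝ≥0} (hv : LipschitzWith K v) (hp : IsPer v) {i k : Fin 3}
    (hik : i ≠ k) {c : ℝ} (hc : Admissible c) (s : ℝ) :
    sliceInt (pol i c v) k s = sliceInt v k s := by
  simp only [sliceInt, pol_toSlice v hik]
  exact setIntegral_pol (hv.comp (lipschitz_toSlice k s)) (isPer_comp_toSlice hp k s) hc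
    (F := fun t => t) continuous_id

lemma setIntegral_reflect {G : ℝ → ℝ} (hG : Function.Periodic G 1) (c : ℝ) :
    ∫ s in Ioc (0 : ℝ) 1, G (2 * c - s) = ∫ s in Ioc (0 : ℝ) 1, G s := by
  have h := hG.intervalIntegral_add_eq (2 * c - 1) 0
  rw [sub_add_cancel, zero_add] at h
  rw [← intervalIntegral.integral_of_le zero_le_one, intervalIntegral.integral_comp_sub_left,
    sub_zero, h, intervalIntegral.integral_of_le zero_le_one]

/-- Polarisation along the coordinate does not decrease the energy. -/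
lemma sliceEnergyOf_le_pol_self {φ : ℝ → ℝ} (hφ : IsGauge φ) {v : R3 → ℝ} {K : ℝ≥0}
    (hv : LipschitzWith K v) (hp : IsPer v)
    (h01 : ∀ x, 0 ≤ v x ∧ v x ≤ 1) (k : Fin 3) {c : ℝ} (hc : Admissible c) :
    sliceEnergyOf φ v k ≤ sliceEnergyOf φ (pol k c v) k := by
  set w := pol k c v
  have hvm := hv.continuous.measurable
  have hwm := (lipschitz_pol (i := k) hv hp hc).continuous.measurable
  have hw01 : ∀ x, 0 ≤ w x ∧ w x ≤ 1 := pol_mem h01
  set a := sliceInt v k
  set b := sliceInt w k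
  have href : ∀ s x, refl k c (toSlice k s x) = toSlice k (2 * c - s) x := fun s x => by
    rw [refl_eq, toSlice_apply_self]
    simp only [toSlice]
    module
  have hsum : ∀ s, b s + b (2 * c - s) = a s + a (2 * c - s) := fun s => by
    simp only [a, b, sliceInt]
    rw [← integral_add (integrable_comp_toSlice hwm hw01 k s)
        (integrable_comp_toSlice hwm hw01 k _),
      ← integral_add (integrable_comp_toSlice hvm h01 k s) (integrable_comp_toSlice hvm h01 k _)]
    refine setIntegral_congr_fun measurableSet_cell fun x _ => ?_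
    simp only [← href]
    exact pol_pair hv hp hc (fun t => t) _
  have hmax : ∀ s, 0 ≤ side c s → a s ≤ b s ∧ a (2 * c - s) ≤ b s := fun s hs => by
    have hb : ∀ x, w (toSlice k s x) = max (v (toSlice k s x)) (v (toSlice k (2 * c - s) x)) :=
      fun x => by
        simp only [w, pol, toSlice_apply_self, if_pos hs, href]
    constructor
    · exact integral_mono (integrable_comp_toSlice hvm h01 k s)
        (integrable_comp_toSlice hwm hw01 k s) fun x => by rw [hb]; exact le_max_left _ _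
    · exact integral_mono (integrable_comp_toSlice hvm h01 k _)
        (integrable_comp_toSlice hwm hw01 k s) fun x => by rw [hb]; exact le_max_right _ _
  have hpt : ∀ s, φ (a s) + φ (a (2 * c - s)) ≤ φ (b s) + φ (b (2 * c - s)) := fun s => by
    have key : ∀ t, 0 ≤ side c t →
        φ (a t) + φ (a (2 * c - t)) ≤ φ (b t) + φ (b (2 * c - t)) := fun t ht => by
      obtain ⟨h1, h2⟩ := hmax t ht
      rw [show b (2 * c - t) = a t + a (2 * c - t) - b t by linarith [hsum t]]
      exact hφ.spread h1 h2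
    rcases le_total 0 (side c s) with h | h
    · exact key s h
    · have h' : 0 ≤ side c (2 * c - s) := by
        simp only [side, show 2 * c - (2 * c - s) = s by ring] at h ⊢
        linarith
      have := key (2 * c - s) h'
      rw [show 2 * c - (2 * c - s) = s by ring] at this
      linarith
  have hiw := integrable_sliceInt_of hφ hwm hw01 k
  have hiv := integrable_sliceInt_of hφ hvm h01 k
  have hrefl : ∀ {f : R3 → ℝ}, Measurable f → (∀ x, 0 ≤ f x ∧ f x ≤ 1) →
      IntegrableOn (fun s => φ (sliceInt f k (2 * c - s))) (Ioc (0 : ℝ) 1) := fun {f} hf hf1 => by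
    obtain ⟨C, hC⟩ := hφ.exists_bound
    exact Integrable.mono' (integrable_const C)
      (hφ.cont.measurable.comp ((measurable_sliceInt hf k).comp
        (measurable_const.sub measurable_id))).aestronglyMeasurable
      (ae_of_all _ fun s => by simpa using hC _ (sliceInt_mem hf hf1 k (2 * c - s)))
  have h := setIntegral_mono_on (hiv.fun_add (hrefl hvm h01)) (hiw.fun_add (hrefl hwm hw01))
    measurableSet_Ioc fun s _ => hpt s
  rw [integral_add hiv (hrefl hvm h01), integral_add hiw (hrefl hwm hw01),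
    setIntegral_reflect (G := fun s => φ (a s)) ((periodic_sliceInt hp k).comp φ) c,
    setIntegral_reflect (G := fun s => φ (b s))
      ((periodic_sliceInt (isPer_pol hp) k).comp φ) c] at h
  simp only [sliceEnergyOf]
  linarith

lemma sliceEnergyOf_le_pol {φ : ℝ → ℝ} (hφ : IsGauge φ) {v : R3 → ℝ} {K : ℝ≥0}
    (hv : LipschitzWith K v) (hp : IsPer v) (h01 : ∀ x, 0 ≤ v x ∧ v x ≤ 1) (i k : Fin 3) {c : ℝ}
    (hc : Admissible c) : sliceEnergyOf φ v k ≤ sliceEnergyOf φ (pol i c v) k := by
  by_cases hik : i = k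
  · subst hik; exact sliceEnergyOf_le_pol_self hφ hv hp h01 i hc
  · simp only [sliceEnergyOf, sliceInt_pol_ne hv hp hik hc, le_refl]

lemma tendsto_sliceEnergyOf {φ : ℝ → ℝ} (hφ : IsGauge φ) {f : ℕ → R3 → ℝ} {v : R3 → ℝ}
    (hf : ∀ n, Measurable (f n)) (hv : Measurable v) (hpf : ∀ n, IsPer (f n)) (hpv : IsPer v)
    (hf1 : ∀ n x, 0 ≤ f n x ∧ f n x ≤ 1) (hv1 : ∀ x, 0 ≤ v x ∧ v x ≤ 1)
    (h : Tendsto (fun n => ∫ x in cell, |f n x - v x|) atTop (𝓝 0)) (k : Fin 3) :
    Tendsto (fun n => sliceEnergyOf φ (f n) k) atTop (𝓝 (sliceEnergyOf φ v k)) := by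
  obtain ⟨L, hL, hlip⟩ := hφ.lip
  exact tendsto_iff_norm_sub_tendsto_zero.2 (squeeze_zero (fun _ => norm_nonneg _)
    (fun n => abs_sliceEnergyOf_sub_le hφ hL hlip (hf n) hv (hpf n) hpv (hf1 n) hv1 k)
    (by simpa using h.const_mul L))

/-! ### Lines -/

lemma toSlice_comm {i k : Fin 3} (hik : i ≠ k) (s t : ℝ) (x : R3) :
    toSlice k s (toSlice i t x) = toSlice i t (toSlice k s x) := by
  ext l
  by_cases a : l = k
  · subst a; simp [toSlice_apply_self, toSlice_apply_ne hik]
  by_cases b : l = i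
  · subst b; simp [toSlice_apply_self, toSlice_apply_ne (Ne.symm hik)]
  · simp [toSlice_apply_ne (Ne.symm a), toSlice_apply_ne (Ne.symm b)]

lemma measurable_lineMass {v : R3 → ℝ} (hv : Measurable v) (k i : Fin 3) :
    Measurable fun p : ℝ × ℝ => sliceInt (fun x => v (toSlice k p.1 x)) i p.2 := by
  have hc : Continuous fun q : (ℝ × ℝ) × R3 => toSlice k q.1.1 (toSlice i q.1.2 q.2) :=
    (continuous_toSlice k).comp ((continuous_fst.comp continuous_fst).prodMk
      ((continuous_toSlice i).comp ((continuous_snd.comp continuous_fst).prodMk continuous_snd)))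
  exact ((hv.comp hc.measurable).stronglyMeasurable.integral_prod_right'
    (ν := volume.restrict cell)).measurable

lemma lineMass_mem {v : R3 → ℝ} (hv : Measurable v) (h01 : ∀ x, 0 ≤ v x ∧ v x ≤ 1) (k i : Fin 3)
    (s t : ℝ) : sliceInt (fun x => v (toSlice k s x)) i t ∈ Icc (0 : ℝ) 1 :=
  sliceInt_mem (hv.comp (measurable_toSlice k s)) (fun _ => h01 _) i t

lemma integrable_lineMass {φ : ℝ → ℝ} (hφ : IsGauge φ) {v : R3 → ℝ} (hv : Measurable v)
    (h01 : ∀ x, 0 ≤ v x ∧ v x ≤ 1) (k i : Fin 3) :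
    Integrable (fun p : ℝ × ℝ => φ (sliceInt (fun x => v (toSlice k p.1 x)) i p.2))
      ((volume.restrict (Ioc (0 : ℝ) 1)).prod (volume.restrict (Ioc (0 : ℝ) 1))) := by
  obtain ⟨C, hC⟩ := hφ.exists_bound
  exact Integrable.mono' (integrable_const C)
    (hφ.cont.measurable.comp (measurable_lineMass hv k i)).aestronglyMeasurable
    (ae_of_all _ fun p => by simpa using hC _ (lineMass_mem hv h01 k i p.1 p.2))

lemma integrable_sliceEnergyOf_slice {φ : ℝ → ℝ} (hφ : IsGauge φ) {v : R3 → ℝ} (hv : Measurable v)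
    (h01 : ∀ x, 0 ≤ v x ∧ v x ≤ 1) (k i : Fin 3) :
    IntegrableOn (fun s => sliceEnergyOf φ (fun x => v (toSlice k s x)) i) (Ioc (0 : ℝ) 1) :=
  (integrable_lineMass hφ hv h01 k i).integral_prod_left

lemma lineEnergyOf_comm {φ : ℝ → ℝ} (hφ : IsGauge φ) {v : R3 → ℝ} (hv : Measurable v)
    (h01 : ∀ x, 0 ≤ v x ∧ v x ≤ 1) {k i : Fin 3} (hik : i ≠ k) :
    lineEnergyOf φ v k i = lineEnergyOf φ v i k := by
  simp only [lineEnergyOf, sliceEnergyOf]
  rw [integral_integral_swap (integrable_lineMass hφ hv h01 k i)]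
  refine setIntegral_congr_fun measurableSet_Ioc fun t _ =>
    setIntegral_congr_fun measurableSet_Ioc fun s _ => ?_
  simp only [sliceInt, toSlice_comm hik]

lemma lineEnergyOf_le_pol {φ : ℝ → ℝ} (hφ : IsGauge φ) {v : R3 → ℝ} {K : ℝ≥0}
    (hv : LipschitzWith K v) (hp : IsPer v) (h01 : ∀ x, 0 ≤ v x ∧ v x ≤ 1) (j : Fin 3)
    {k i : Fin 3} (hik : i ≠ k) {c : ℝ} (hc : Admissible c) :
    lineEnergyOf φ v k i ≤ lineEnergyOf φ (pol j c v) k i := by
  have hvm := hv.continuous.measurable
  have hwm := (lipschitz_pol (i := j) hv hp hc).continuous.measurable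
  have main : ∀ k i : Fin 3, j ≠ k →
      lineEnergyOf φ v k i ≤ lineEnergyOf φ (pol j c v) k i := fun k i hjk => by
    refine setIntegral_mono_on (integrable_sliceEnergyOf_slice hφ hvm h01 k i)
      (integrable_sliceEnergyOf_slice hφ hwm (pol_mem h01) k i) measurableSet_Ioc fun s _ => ?_
    rw [show (fun x => pol j c v (toSlice k s x)) = pol j c (fun y => v (toSlice k s y)) from
      funext (pol_toSlice v hjk c s)]
    exact sliceEnergyOf_le_pol hφ (hv.comp (lipschitz_toSlice k s)) (isPer_comp_toSlice hp k s)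
      (fun _ => h01 _) j i hc
  by_cases hjk : j = k
  · rw [lineEnergyOf_comm hφ hvm h01 hik, lineEnergyOf_comm hφ hwm (pol_mem h01) hik]
    exact main i k (hjk.trans_ne (Ne.symm hik))
  · exact main k i hjk

lemma tendsto_lineEnergyOf {φ : ℝ → ℝ} (hφ : IsGauge φ) {f : ℕ → R3 → ℝ} {v : R3 → ℝ}
    (hf : ∀ n, Measurable (f n)) (hv : Measurable v) (hpf : ∀ n, IsPer (f n)) (hpv : IsPer v)
    (hf1 : ∀ n x, 0 ≤ f n x ∧ f n x ≤ 1) (hv1 : ∀ x, 0 ≤ v x ∧ v x ≤ 1)
    (h : Tendsto (fun n => ∫ x in cell, |f n x - v x|) atTop (𝓝 0)) (k i : Fin 3) :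
    Tendsto (fun n => lineEnergyOf φ (f n) k i) atTop (𝓝 (lineEnergyOf φ v k i)) := by
  obtain ⟨L, hL, hlip⟩ := hφ.lip
  refine tendsto_iff_norm_sub_tendsto_zero.2 (squeeze_zero (fun _ => norm_nonneg _)
    (fun n => ?_) (by simpa using h.const_mul L))
  have hb : ∀ x, |(|f n x - v x|)| ≤ 1 := fun x => by
    rw [abs_abs, abs_le]
    constructor <;> linarith [(hf1 n x).1, (hf1 n x).2, (hv1 x).1, (hv1 x).2]
  rw [← setIntegral_toSlice (h := fun x => |f n x - v x|) ((hf n).sub hv).abs hb
      ((hpf n).comp₂ hpv fun a b => |a - b|) k, ← integral_const_mul, Real.norm_eq_abs,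
    lineEnergyOf, lineEnergyOf, ← integral_sub (integrable_sliceEnergyOf_slice hφ (hf n) (hf1 n) k i)
      (integrable_sliceEnergyOf_slice hφ hv hv1 k i)]
  refine abs_integral_le_integral_abs.trans (integral_mono
    ((integrable_sliceEnergyOf_slice hφ (hf n) (hf1 n) k i).sub
      (integrable_sliceEnergyOf_slice hφ hv hv1 k i)).abs
    ((((integrable_prod_of_bound (F := fun s x => |f n (toSlice k s x) - v (toSlice k s x)|)
      (((hf n).comp (continuous_toSlice k).measurable).sub
        (hv.comp (continuous_toSlice k).measurable)).abs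
      (fun s x => hb _)).integral_prod_left)).const_mul L) fun s => ?_)
  exact abs_sliceEnergyOf_sub_le hφ hL hlip ((hf n).comp (measurable_toSlice k s))
    (hv.comp (measurable_toSlice k s)) (isPer_comp_toSlice (hpf n) k s)
    (isPer_comp_toSlice hpv k s) (fun _ => hf1 n _) (fun _ => hv1 _) i

/-- No smaller convex energies of slices and lines. -/
def Above (u w : R3 → ℝ) : Prop :=
  ∀ φ, IsGauge φ → ∀ k, sliceEnergyOf φ u k ≤ sliceEnergyOf φ w k ∧
    ∀ i, i ≠ k → lineEnergyOf φ u k i ≤ lineEnergyOf φ w k i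

/-- The symmetrised down-set has no smaller convex energies of slices and lines. -/
theorem exists_downset_energy {E : Set R3} (hE : MeasurableSet E) (hp : IsPeriodicSet E)
    {P V : ℝ} (hP0 : 0 ≤ P) (hP : per E ≤ ENNReal.ofReal P) (hV0 : 0 ≤ V)
    (hV : vol E = ENNReal.ofReal V) :
    ∃ D, MeasurableSet D ∧ IsDownset D ∧ (volume D).toReal = V ∧ RelPerLE D (P / 2) ∧
      ∀ φ, IsGauge φ → ∀ k,
        sliceEnergyOf φ (ind E) k ≤ sliceEnergyOf φ (fun x => ind D (fold x)) k ∧
        ∀ i, i ≠ k →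
          lineEnergyOf φ (ind E) k i ≤ lineEnergyOf φ (fun x => ind D (fold x)) k i := by
  have hne : per E ≠ ⊤ := (hP.trans_lt ENNReal.ofReal_lt_top).ne
  obtain ⟨u, hu, -, hL1⟩ := exists_approx hE hp hne
  have hgm := measurable_ind hE
  have key : ∀ n : ℕ, ∃ (m : ℕ) (v : R3 → ℝ),
      (∫ x in cell, |u m x - ind E x|) ≤ 1 / (n + 1 : ℝ) ∧ IsSymApprox P V (1 / (n + 1 : ℝ)) v ∧
        Above (u m) v := by
    intro n
    obtain ⟨m, hm⟩ := (hL1.eventually
      (gt_mem_nhds (show (0 : ℝ) < 1 / (n + 1 : ℝ) by positivity))).exists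
    obtain ⟨hs, hper, h01, hmass, hgr⟩ := hu m
    obtain ⟨v, hvc, hvp, hv01, hev, hdec, hF, htest, hQ⟩ := exists_symmDec_of (P := P)
      (hs.of_le (by norm_cast)) hper h01 (hgr.trans (ENNReal.toReal_le_of_le_ofReal hP0 hP))
      (Above (u m)) (fun φ hφ k => ⟨le_rfl, fun i _ => le_rfl⟩)
      (fun {K w} j c hw hwp hw01 hc hQw φ hφ k =>
        ⟨(hQw φ hφ k).1.trans (sliceEnergyOf_le_pol hφ hw hwp hw01 j k hc),
          fun i hik => ((hQw φ hφ k).2 i hik).trans
            (lineEnergyOf_le_pol hφ hw hwp hw01 j hik hc)⟩)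
      (fun f w hf hwc hwp hw01 hlim => by
        have hd : Tendsto (fun n => ∫ x in cell, |f n x - w x|) atTop (𝓝 0) := by
          rw [← integral_zero R3 ℝ (μ := volume.restrict cell)]
          refine tendsto_integral_of_dominated_convergence (fun _ => (1 : ℝ))
            (fun n => ((hf n).1.sub hwc).abs.aestronglyMeasurable) (integrable_const 1)
            (fun n => ae_of_all _ fun x => ?_)
            (ae_of_all _ fun x => by simpa using ((hlim x).sub_const (w x)).abs)
          obtain ⟨a, b⟩ := (hf n).2.2.1 x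
          obtain ⟨c, d⟩ := hw01 x
          rw [Real.norm_eq_abs, abs_abs, abs_le]
          constructor <;> linarith
        exact fun φ hφ k => ⟨ge_of_tendsto'
            (tendsto_sliceEnergyOf hφ (fun n => (hf n).1.measurable) hwc.measurable
              (fun n => (hf n).2.1) hwp (fun n => (hf n).2.2.1) hw01 hd k)
            fun n => ((hf n).2.2.2 φ hφ k).1,
          fun i hik => ge_of_tendsto'
            (tendsto_lineEnergyOf hφ (fun n => (hf n).1.measurable) hwc.measurable
              (fun n => (hf n).2.1) hwp (fun n => (hf n).2.2.1) hw01 hd k i)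
            fun n => ((hf n).2.2.2 φ hφ k).2 i hik⟩)
    refine ⟨m, v, hm.le, ⟨hvc, hvp, hv01, ?_, ?_, htest, hev,
      fun x y h => anti_of_coord hdec h⟩, hQ⟩
    · rw [show (∫ x in cell, v x) = ∫ x in cell, u m x from hF id continuous_id, hmass, hV,
        ENNReal.toReal_ofReal hV0]
    · rw [hF (fun t => t * (1 - t)) (by fun_prop)]
      refine le_trans ?_ hm.le
      refine integral_mono ((hper.comp fun t => t * (1 - t)).integrable_cell
          ((by fun_prop : Continuous fun t : ℝ => t * (1 - t)).comp hs.continuous))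
        (Integrable.of_bound ((hs.continuous.measurable.sub hgm).abs.aestronglyMeasurable) 1
          (ae_of_all _ fun x => ?_)) fun x => ?_
      · obtain ⟨p₁, p₂⟩ := indicator_one_mem E x
        rw [Real.norm_eq_abs, abs_abs, abs_le]
        constructor <;> linarith [(h01 x).1, (h01 x).2]
      · obtain ⟨a, b⟩ := h01 x
        by_cases hx : x ∈ E
        · simp only [indicator_of_mem hx, Pi.one_apply]
          rw [abs_of_nonpos (by linarith)]; nlinarith
        · simp only [indicator_of_notMem hx, sub_zero]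
          rw [abs_of_nonneg a]; nlinarith
  choose m v hm hv hQ using key
  obtain ⟨D, hD, hdown, hvol, hrel, φ, hφ, hlim⟩ := exists_downset_of_symApprox_seq hv
  have h0 : Tendsto (fun n : ℕ => 1 / ((φ n : ℕ) + 1 : ℝ)) atTop (𝓝 0) :=
    (tendsto_one_div_add_atTop_nhds_zero_nat (𝕜 := ℝ)).comp hφ.tendsto_atTop
  have h1 : Tendsto (fun n => ∫ x in cell, |u (m (φ n)) x - ind E x|) atTop (𝓝 0) :=
    squeeze_zero (fun n => integral_nonneg fun x => abs_nonneg _) (fun n => hm (φ n)) h0
  refine ⟨D, hD, hdown, hvol, hrel, fun ψ hψ k => ⟨?_, fun i hik => ?_⟩⟩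
  · exact le_of_tendsto_of_tendsto'
      (tendsto_sliceEnergyOf hψ (fun n => (hu _).1.continuous.measurable) hgm
        (fun n => (hu _).2.1) (isPer_ind hp) (fun n => (hu _).2.2.1) (ind_mem E) h1 k)
      (tendsto_sliceEnergyOf hψ (fun n => (hv _).continuous.measurable)
        ((measurable_ind hD).comp lipschitz_fold.continuous.measurable) (fun n => (hv _).periodic)
        (isPer_fold.comp (ind D)) (fun n => (hv _).mem) (fun x => ind_mem D _) hlim k)
      fun n => (hQ (φ n) ψ hψ k).1
  · exact le_of_tendsto_of_tendsto'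
      (tendsto_lineEnergyOf hψ (fun n => (hu _).1.continuous.measurable) hgm
        (fun n => (hu _).2.1) (isPer_ind hp) (fun n => (hu _).2.2.1) (ind_mem E) h1 k i)
      (tendsto_lineEnergyOf hψ (fun n => (hv _).continuous.measurable)
        ((measurable_ind hD).comp lipschitz_fold.continuous.measurable) (fun n => (hv _).periodic)
        (isPer_fold.comp (ind D)) (fun n => (hv _).mem) (fun x => ind_mem D _) hlim k i)
      fun n => (hQ (φ n) ψ hψ k).2 i hik

end Vale.Agent.P232
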