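import Vale.Agent.P232.Uniq.Disc
import Vale.Agent.P232.Uniq.SliceEnergy
import Vale.Agent.P232.Cylinder

/-!
Minimisers of volume `1/π` from the equality case for down-sets, and with them all minimisers of
volume between `1/π` and `1 - 1/π`.
-/

open MeasureTheory Set Filter Function
open scoped ENNReal Topology

namespace Vale.Agent.P232

variable {D : Set R3}

/-- With a full face the slice area is constant. -/
lemma areaExt_eq_of_face (hD : MeasurableSet D) (hdown : IsDownset D) {V : ℝ}
    (hv : (volume D).toReal = V) {k : Fin 3} (hm : faceArea D k = V) {z : ℝ}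
    (hz : z ∈ Ioo (0 : ℝ) 1) : areaExt D k z = V := by
  have hA := areaExt_antitone hdown k
  refine le_antisymm ?_ (hm ▸ hA.leftLim_le hz.2)
  have h1 : ∫ _ in (0 : ℝ)..z, areaExt D k z ≤ ∫ s in (0 : ℝ)..z, areaExt D k s :=
    intervalIntegral.integral_mono_on hz.1.le intervalIntegrable_const hA.intervalIntegrable
      fun s hs => hA hs.2
  have h2 : ∫ _ in z..1, faceArea D k ≤ ∫ s in z..1, areaExt D k s :=
    intervalIntegral.integral_mono_on_of_le_Ioo hz.2.le intervalIntegrable_const
      hA.intervalIntegrable fun s hs => hA.leftLim_le hs.2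
  have h3 := intervalIntegral.integral_add_adjacent_intervals
    (hA.intervalIntegrable (μ := volume) (a := 0) (b := z))
    (hA.intervalIntegrable (μ := volume) (a := z) (b := 1))
  rw [← volume_eq_integral_areaExt hD hdown k, hv] at h3
  simp only [intervalIntegral.integral_const, smul_eq_mul, sub_zero] at h1 h2
  rw [hm] at h2
  refine le_of_mul_le_mul_left ?_ hz.1
  linarith

lemma fold_toSlice (k : Fin 3) (s : ℝ) (x : R3) :
    fold (toSlice k s x) = toSlice k (tent s) (fold x) := by
  ext l
  by_cases a : l = k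
  · subst a; simp [fold_apply, toSlice_apply_self]
  · simp [fold_apply, toSlice_apply_ne (Ne.symm a)]

lemma ins_toSlice (k : Fin 3) (t z : ℝ) (w : ℝ × ℝ) : toSlice k t (ins k z w) = ins k t w := by
  ext l
  rcases Fin.eq_self_or_eq_succAbove k l with rfl | ⟨j, rfl⟩
  · simp [toSlice_apply_self, ins_apply_self]
  · simp [toSlice_apply_ne (Fin.succAbove_ne k j).symm, ins_apply_succAbove]

/-- The slice mass of the unfolded down-set. -/
lemma sliceInt_fold (hD : MeasurableSet D) (hc : D ⊆ cell) (k : Fin 3) (s : ℝ) :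
    sliceInt (fun x => ind D (fold x)) k s = sliceArea D k (tent s) := by
  set t := tent s
  have hm : Measurable fun x => ind D (toSlice k t x) :=
    (measurable_ind hD).comp (measurable_toSlice k t)
  simp only [sliceInt, fold_toSlice]
  rw [setIntegral_fold (F := fun x => ind D (toSlice k t x)) hm.aestronglyMeasurable,
    setIntegral_eq_slices (k := k) measurableSet_cell
      (integrable_cell_of_bound hm fun x => abs_ind_le D _)]
  have e : ∀ z : ℝ, ∫ w in slice cell k z, ind D (toSlice k t (ins k z w))
      = (Ico (0 : ℝ) 1).indicator (fun _ => sliceArea D k t) z := fun z => by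
    simp only [ins_toSlice]
    by_cases hz : z ∈ Ico (0 : ℝ) 1
    · have hsq : slice cell k z = square := by
        ext w
        rw [mem_slice, ins_mem_cell]
        exact and_iff_right hz
      rw [indicator_of_mem hz, hsq, sliceArea,
        show (fun w => ind D (ins k t w)) = (slice D k t).indicator 1 from rfl,
        setIntegral_indicator (measurableSet_slice hD k t),
        inter_eq_right.2 (slice_subset_square hc k t)]
      simp [Measure.real]
    · rw [indicator_of_notMem hz, slice_eq_empty Subset.rfl hz]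
      simp
  simp only [e]
  rw [integral_indicator measurableSet_Ico]
  simp [Measure.real]

lemma sliceEnergy_fold_of_face (hD : MeasurableSet D) (hdown : IsDownset D)
    {V : ℝ} (hv : (volume D).toReal = V) {k : Fin 3} (hm : faceArea D k = V) :
    sliceEnergyOf (fun t => t ^ 2) (fun x => ind D (fold x)) k = V ^ 2 := by
  have hne : ∀ᵐ s : ℝ, s ≠ 1 / 2 := measure_eq_zero_iff_ae_notMem.1 (measure_singleton _)
  rw [sliceEnergyOf, setIntegral_congr_set (Ioo_ae_eq_Ioc (μ := volume) (a := 0) (b := 1)).symm,
    setIntegral_congr_ae measurableSet_Ioo (g := fun _ => V ^ 2) ?_]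
  · simp [Measure.real]
  filter_upwards [hne] with s hs hs01
  rw [sliceInt_fold hD hdown.1]
  have ht : tent s ∈ Ioo (0 : ℝ) 1 := by
    rcases lt_or_gt_of_ne hs with h | h
    · have : round s = 0 := by
        rw [round_eq, Int.floor_eq_iff]; push_cast; constructor <;> linarith [hs01.1]
      simp only [tent, this, Int.cast_zero, sub_zero, abs_of_pos hs01.1]
      exact ⟨by linarith [hs01.1], by linarith⟩
    · have : round s = 1 := by
        rw [round_eq, Int.floor_eq_iff]; push_cast; constructor <;> linarith [hs01.2]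
      simp only [tent, this, Int.cast_one, abs_of_neg (sub_neg.2 hs01.2)]
      exact ⟨by linarith [hs01.2], by linarith⟩
  rw [← areaExt_eq ht.1.le, areaExt_eq_of_face hD hdown hv hm ht]

/-- If a symmetrisation of a set has a full face, the slices of the set in that direction all
have the same area. -/
lemma const_slices_of_face {A : Set R3} (hA : MeasurableSet A) (hp : IsPeriodicSet A) {V : ℝ}
    (h0 : 0 ≤ V) (hv : vol A = ENNReal.ofReal V) (hD : MeasurableSet D) (hdown : IsDownset D)
    (hvol : (volume D).toReal = V) {k : Fin 3} (hk : faceArea D k = V)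
    (hE : sliceEnergyOf (fun t => t ^ 2) (ind A) k
      ≤ sliceEnergyOf (fun t => t ^ 2) (fun x => ind D (fold x)) k) :
    ∀ᵐ s ∂volume.restrict (Ioc (0 : ℝ) 1), sliceVol A k s = V := by
  have hle := hE.trans (sliceEnergy_fold_of_face hD hdown hvol hk).le
  have hsl : ∀ s, sliceInt (ind A) k s = sliceVol A k s := fun s => by
    simp only [sliceInt, sliceVol, ind_sliceCyl]
  set v := V
  have hi2 : IntegrableOn (fun s => sliceVol A k s ^ 2) (Ioc (0 : ℝ) 1) := by
    simp only [← hsl]
    exact integrable_sliceInt_sq (measurable_ind hA) (ind_mem A) k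
  have hi1 : IntegrableOn (sliceVol A k) (Ioc (0 : ℝ) 1) :=
    Integrable.mono' (integrable_const (1 : ℝ)) (measurable_sliceVol hA k).aestronglyMeasurable
      (ae_of_all _ fun s => by
        rw [Real.norm_of_nonneg (sliceVol_mem A k s).1]; exact (sliceVol_mem A k s).2)
  have h1 : ∫ s in Ioc (0 : ℝ) 1, sliceVol A k s = v := by
    rw [← integral_ind_of_vol hA h0 hv,
      ← setIntegral_toSlice (measurable_ind hA) (abs_ind_le A) (isPer_ind hp) k]
    simp only [sliceVol, ind_sliceCyl]
  simp only [sliceEnergyOf, hsl] at hle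
  have e : ∀ s, (sliceVol A k s - v) ^ 2 = sliceVol A k s ^ 2 - 2 * v * sliceVol A k s + v ^ 2 :=
    fun s => by ring
  have hcst : IntegrableOn (fun _ : ℝ => v ^ 2) (Ioc (0 : ℝ) 1) := integrable_const _
  have hd : ∫ s in Ioc (0 : ℝ) 1, (sliceVol A k s - v) ^ 2 ≤ 0 := by
    simp only [e]
    rw [integral_add (hi2.fun_sub (hi1.const_mul _)) hcst, integral_sub hi2 (hi1.const_mul _),
      integral_const_mul, h1]
    simp [Measure.real]
    nlinarith
  have hi : IntegrableOn (fun s => (sliceVol A k s - v) ^ 2) (Ioc (0 : ℝ) 1) := by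
    simp only [e]
    exact (hi2.fun_sub (hi1.const_mul _)).fun_add hcst
  filter_upwards [(integral_eq_zero_iff_of_nonneg (fun s => sq_nonneg _) hi).1
    (le_antisymm hd (integral_nonneg fun s => sq_nonneg _))] with s hs
  exact sub_eq_zero.1 (pow_eq_zero_iff two_ne_zero |>.1 hs)

/-- A direction in which all slices of a minimiser at `1/π` have the same area. -/
lemma exists_const_slices
    (hface : ∀ D : Set R3, MeasurableSet D → IsDownset D → RelPerLE D 1 →
      (volume D).toReal = 1 / Real.pi → ∃ k, faceArea D k = 1 / Real.pi)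
    {A : Set R3} (hA : MeasurableSet A) (hp : IsPeriodicSet A)
    (hv : vol A = ENNReal.ofReal (1 / Real.pi)) (hP : per A ≤ 2) :
    ∃ k, ∀ᵐ s ∂volume.restrict (Ioc (0 : ℝ) 1), sliceVol A k s = 1 / Real.pi := by
  have h0 : (0 : ℝ) ≤ 1 / Real.pi := by positivity
  obtain ⟨D, hD, hdown, hvol, hrel, hE⟩ := exists_downset_energy hA hp (P := 2) zero_le_two
    (by simpa using hP) h0 hv
  obtain ⟨k, hk⟩ := hface D hD hdown (by simpa using hrel) hvol
  exact ⟨k, const_slices_of_face hA hp h0 hv hD hdown hvol hk (hE _ isGauge_sq k).1⟩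

/-- Every minimiser of volume `1/π` is a band or a tube. -/
theorem endShape_of_faces (hprof : 2 ≤ profile (1 / Real.pi))
    (hface : ∀ D : Set R3, MeasurableSet D → IsDownset D → RelPerLE D 1 →
      (volume D).toReal = 1 / Real.pi → ∃ k, faceArea D k = 1 / Real.pi)
    {A : Set R3} (hA : MeasurableSet A) (hp : IsPeriodicSet A)
    (hv : vol A = ENNReal.ofReal (1 / Real.pi)) (hP : per A ≤ 2) :
    (∃ k c, AEEq A (band k c (1 / Real.pi))) ∨ ∃ l c, AEEq A (tube l c (1 / Real.pi)) := by
  have h0 : (0 : ℝ) ≤ 1 / Real.pi := by positivity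
  have hV := integral_ind_of_vol hA h0 hv
  obtain ⟨k, hk⟩ := exists_const_slices hface hA hp hv hP
  have hper : ∀ᵐ s ∂volume.restrict (Ioc (0 : ℝ) 1),
      ENNReal.ofReal 2 ≤ per (sliceCyl A k s) := by
    filter_upwards [hk] with s hs
    rw [show ENNReal.ofReal 2 = 2 by simp]
    exact two_le_per_of_mem hprof (measurableSet_sliceCyl hA k s) (isPeriodicSet_sliceCyl hp k s)
      hs ⟨le_rfl, by linarith [one_div_pi_le_half]⟩
  obtain ⟨C, hC, hCp, hCk, hAC⟩ := exists_invAlong hA hp k hP fun η hη =>
    exists_field_of_slices hA hp k hper hη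
  rcases endShape_of_invAlong hprof hC hCp hCk ((hAC.per_eq hA hC).symm.le.trans hP)
    ((integral_congr_ae hAC.ind.symm).trans hV) with ⟨l, c, h⟩ | ⟨c, h⟩
  · exact Or.inl ⟨l, c, hAC.trans h⟩
  · exact Or.inr ⟨k, c, hAC.trans h⟩

/-- Every minimiser of volume strictly between `1/π` and `1 - 1/π` is a band. -/
theorem band_of_faces (hprof : 2 ≤ profile (1 / Real.pi))
    (hface : ∀ D : Set R3, MeasurableSet D → IsDownset D → RelPerLE D 1 →
      (volume D).toReal = 1 / Real.pi → ∃ k, faceArea D k = 1 / Real.pi)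
    {E : Set R3} (hE : MeasurableSet E) (hp : IsPeriodicSet E) {V : ℝ}
    (hvol : vol E = ENNReal.ofReal V) (hlo : 1 / Real.pi < V) (hhi : V < 1 - 1 / Real.pi)
    (hP : per E ≤ 2) : ∃ k c, AEEq E (band k c V) :=
  slab_range_unique hprof (fun _ hA hpA hv hPA => endShape_of_faces hprof hface hA hpA hv hPA)
    hE hp hvol hlo hhi hP

end Vale.Agent.P232
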