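import Vale.Agent.P232.Uniq.Select

/-!
Periodic sets that depend on one coordinate only: perimeter at least two, with equality only for
a band.
-/

open MeasureTheory Set Filter
open scoped ENNReal Topology RealInnerProductSpace ContDiff

namespace Vale.Agent.P232

/-- The open band of width `w` around height `c`, repeated with period one. -/
def band (k : Fin 3) (c w : ℝ) : Set R3 := {x | ∃ m : ℤ, |x k - c - m| < w / 2}

lemma isOpen_band (k : Fin 3) (c w : ℝ) : IsOpen (band k c w) := by
  simp only [band, Set.ofPred_exists]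
  exact isOpen_iUnion fun m => isOpen_lt (by fun_prop) continuous_const

lemma isPeriodicSet_band (k : Fin 3) (c w : ℝ) : IsPeriodicSet (band k c w) := fun i x => by
  by_cases h : i = k
  · subst h
    simp only [band, mem_ofPred_eq, PiLp.add_apply, e_self]
    constructor
    · rintro ⟨m, hm⟩; exact ⟨m - 1, by push_cast; convert hm using 2; ring⟩
    · rintro ⟨m, hm⟩; exact ⟨m + 1, by push_cast; convert hm using 2; ring⟩
  · simp [band, e_ne h]

lemma invAlong_band {j k : Fin 3} (h : j ≠ k) (c w : ℝ) : InvAlong (band k c w) j :=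
  fun x t => by simp [band, e_ne h]

lemma IsPer.int_smul {α : Type*} {f : R3 → α} (hf : IsPer f) (k : Fin 3) (x : R3) (m : ℤ) :
    f (x + (m : ℝ) • e k) = f x := by
  simpa using (periodic_line hf k x).int_mul m 0

section line

variable {i j k : Fin 3} (hij : i ≠ j) (hik : i ≠ k) (hjk : j ≠ k)
include hij hik hjk

/-- A function constant along two directions depends on the third coordinate only. -/
lemma eq_line {α : Type*} {f : R3 → α} (hi : ∀ x (t : ℝ), f (x + t • e i) = f x)
    (hj : ∀ x (t : ℝ), f (x + t • e j) = f x) (x : R3) : f x = f ((x k) • e k) := by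
  rw [← hi x (-(x i)), ← hj (x + -(x i) • e i) (-(x j))]
  congr 1
  ext l
  simp only [PiLp.add_apply, PiLp.smul_apply, smul_eq_mul]
  fin_cases i <;> fin_cases j <;> fin_cases k <;> fin_cases l <;> simp_all [e]

lemma setIntegral_line_fun {H : R3 → ℝ} {C : ℝ} (hm : Measurable H) (hb : ∀ x, |H x| ≤ C)
    (hp : IsPer H) (hi : ∀ x (t : ℝ), H (x + t • e i) = H x)
    (hj : ∀ x (t : ℝ), H (x + t • e j) = H x) :
    ∫ x in cell, H x = ∫ s in Ioc (0 : ℝ) 1, H (s • e k) := by
  rw [← setIntegral_toSlice hm hb hp k]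
  refine setIntegral_congr_fun measurableSet_Ioc fun s _ => ?_
  have : ∀ x, H (toSlice k s x) = H (s • e k) := fun x => by
    rw [eq_line hij hik hjk hi hj (toSlice k s x), toSlice_apply_self]
  simp [this, Measure.real, volume_cell]

/-- The variation over four consecutive steps in one period is at most the total variation. -/
lemma four_steps_le_gradMass {w : R3 → ℝ} (hw : ContDiff ℝ 1 w) (hwp : IsPer w)
    (hi : ∀ x (t : ℝ), w (x + t • e i) = w x) (hj : ∀ x (t : ℝ), w (x + t • e j) = w x)
    {a₀ a₁ a₂ a₃ : ℝ} (h₀ : a₀ ≤ a₁) (h₁ : a₁ ≤ a₂) (h₂ : a₂ ≤ a₃) (h₃ : a₃ ≤ a₀ + 1) :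
    |w (a₁ • e k) - w (a₀ • e k)| + |w (a₂ • e k) - w (a₁ • e k)| + |w (a₃ • e k) - w (a₂ • e k)|
      + |w (a₀ • e k) - w (a₃ • e k)| ≤ gradMass w := by
  set D : R3 → ℝ := fun x => fderiv ℝ w x (e k) with hD
  have hDc : Continuous D := (hw.continuous_fderiv one_ne_zero).clm_apply continuous_const
  have hDp : IsPer D := hwp.fderiv.comp fun L => L (e k)
  obtain ⟨C, -, hC⟩ := hDp.bounded hDc
  have hDi : ∀ l : Fin 3, (∀ x (t : ℝ), w (x + t • e l) = w x) →
      ∀ x (t : ℝ), |D (x + t • e l)| = |D x| := by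
    intro l hl x t
    have : (fun y => w (y + t • e l)) = w := funext fun y => hl y t
    simp only [hD]
    rw [← fderiv_comp_add_right, this]
  have hle : ∫ x in cell, |D x| ≤ gradMass w := by
    refine integral_mono ((hDp.comp abs).integrable_cell hDc.abs)
      ((hwp.grad.comp fun a => ‖a‖).integrable_cell (continuous_grad hw).norm) fun x => ?_
    simp only [hD]
    rw [fderiv_eq_inner]
    refine (abs_real_inner_le_norm _ _).trans (le_of_eq ?_)
    simp [e]
  have hline := setIntegral_line_fun hij hik hjk (H := fun x => |D x|) (C := C) hDc.abs.measurable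
    (fun x => by rw [abs_abs]; exact hC x) (hDp.comp abs) (hDi i hi) (hDi j hj)
  set h : ℝ → ℝ := fun s => w (s • e k) with hh
  set h' : ℝ → ℝ := fun s => D (s • e k) with hh'
  have hder : ∀ s, HasDerivAt h (h' s) s := fun s => by
    have h1 : HasDerivAt (fun s : ℝ => s • e k) (e k) s := by
      simpa using (hasDerivAt_id s).smul_const (e k)
    exact ((hw.differentiable one_ne_zero) _).hasFDerivAt.comp_hasDerivAt s h1
  have hc' : Continuous h' := hDc.comp (continuous_id.smul continuous_const)
  have step : ∀ a b : ℝ, a ≤ b → |h b - h a| ≤ ∫ s in a..b, |h' s| := fun a b hab => by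
    rw [← intervalIntegral.integral_eq_sub_of_hasDerivAt (fun s _ => hder s)
      (hc'.intervalIntegrable a b)]
    exact intervalIntegral.abs_integral_le_integral_abs hab
  have hper : Function.Periodic (fun s => |h' s|) 1 := fun s => by
    have := periodic_line hDp k 0 s
    simp only [zero_add] at this
    simp only [hh', this]
  have hper' : h (a₀ + 1) = h a₀ := by
    have := periodic_line hwp k 0 a₀
    simpa [hh] using this
  have i : ∀ a b : ℝ, IntervalIntegrable (fun s => |h' s|) volume a b :=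
    fun a b => hc'.abs.intervalIntegrable a b
  have s1 := step a₀ a₁ h₀
  have s2 := step a₁ a₂ h₁
  have s3 := step a₂ a₃ h₂
  have s4 := step a₃ (a₀ + 1) h₃
  rw [hper'] at s4
  have e1 := intervalIntegral.integral_add_adjacent_intervals (i a₀ a₁) (i a₁ a₂)
  have e2 := intervalIntegral.integral_add_adjacent_intervals (i a₀ a₂) (i a₂ a₃)
  have e3 := intervalIntegral.integral_add_adjacent_intervals (i a₀ a₃) (i a₃ (a₀ + 1))
  have e4 := hper.intervalIntegral_add_eq a₀ 0
  rw [zero_add, intervalIntegral.integral_of_le zero_le_one] at e4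
  simp only [hh', hh] at *
  linarith

end line

section classify

variable {C : Set R3} {i j k : Fin 3} (hij : i ≠ j) (hik : i ≠ k) (hjk : j ≠ k)
  (hC : MeasurableSet C) (hp : IsPeriodicSet C) (hi : InvAlong C i) (hj : InvAlong C j)
include hij hik hjk hC hp hi hj

/-- Mollifications converge at almost every height. -/
lemma ae_line_tendsto : ∀ᵐ s : ℝ,
    Tendsto (fun n => moll (bump n) C (s • e k)) atTop (𝓝 (ind C (s • e k))) := by
  classical
  set Bad : Set R3 := {x | ¬ Tendsto (fun n => moll (bump n) C x) atTop (𝓝 (ind C x))} with hBad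
  have hm : ∀ n, Measurable (moll (bump n) C) := fun n =>
    (moll_contDiff (bump n) hC).continuous.measurable
  have hae : ∀ᵐ x, Tendsto (fun n => moll (bump n) C x) atTop (𝓝 (ind C x)) :=
    ContDiffBump.ae_convolution_tendsto_right_of_locallyIntegrable (K := 2)
      tendsto_one_div_add_atTop_nhds_zero_nat
      (Eventually.of_forall fun n => le_of_eq (by simp only [bump]; field_simp))
      ((locallyIntegrable_const (1 : ℝ)).indicator hC)
  have hBm : MeasurableSet Bad := by
    have : MeasurableSet {x | Tendsto (fun n => |moll (bump n) C x - ind C x|) atTop (𝓝 0)} :=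
      measurableSet_tendsto _ fun n => ((hm n).sub (measurable_ind hC)).abs
    have he : Bad = {x | Tendsto (fun n => |moll (bump n) C x - ind C x|) atTop (𝓝 0)}ᶜ := by
      ext x
      simp only [hBad, mem_compl_iff, mem_ofPred_eq]
      exact not_congr tendsto_iff_norm_sub_tendsto_zero
    exact he ▸ this.compl
  have hBp : IsPeriodicSet Bad := fun l x => by
    simp only [hBad, mem_ofPred_eq, fun n => moll_isPer (bump n) hp l x, isPer_ind hp l x]
  have hBi : ∀ {l : Fin 3}, InvAlong C l → InvAlong Bad l := fun {l} h x t => by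
    simp only [hBad, mem_ofPred_eq, fun n => h.moll (bump n) x t, h.ind_eq]
  have hzero : ∫ x in cell, ind Bad x = 0 := by
    refine integral_eq_zero_of_ae ((ae_restrict_of_ae hae).mono fun x hx => ?_)
    exact ind_of_notMem (E := Bad) (by simp [hBad, hx])
  rw [setIntegral_line_fun hij hik hjk (measurable_ind hBm) (abs_ind_le _) (isPer_ind hBp)
    (hBi hi).ind_eq (hBi hj).ind_eq] at hzero
  have hlm : Measurable fun s : ℝ => ind Bad (s • e k) :=
    (measurable_ind hBm).comp (continuous_id.smul continuous_const).measurable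
  have h0 := (integral_eq_zero_iff_of_nonneg (fun s => (ind_mem Bad _).1)
    (Integrable.mono' (integrable_const (1 : ℝ)) hlm.aestronglyMeasurable
      (ae_of_all _ fun s => abs_ind_le _ _))).1 hzero
  have hfr : ∀ᵐ s : ℝ, Int.fract s • e k ∉ Bad := by
    have h1 : volume ({s : ℝ | s • e k ∈ Bad} ∩ Ioc 0 1) = 0 := by
      have hs : MeasurableSet {s : ℝ | s • e k ∈ Bad} :=
        hBm.preimage (continuous_id.smul continuous_const).measurable
      rw [← Measure.restrict_apply hs]
      refine measure_eq_zero_iff_ae_notMem.2 (h0.mono fun s hs hmem => ?_)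
      simp only [Pi.zero_apply, ind_of_mem (E := Bad) hmem] at hs
      exact one_ne_zero hs
    have h2 : ∀ᵐ s : ℝ, ∀ m : ℤ, s + m ∉ {s : ℝ | s • e k ∈ Bad} ∩ Ioc 0 1 := by
      rw [ae_all_iff]
      exact fun m => (measurePreserving_add_right volume (m : ℝ)).quasiMeasurePreserving.ae
        (measure_eq_zero_iff_ae_notMem.1 h1)
    have h3 : ∀ᵐ s : ℝ, Int.fract s ≠ 0 := by
      have : volume (range ((↑) : ℤ → ℝ)) = 0 := (countable_range _).measure_zero _
      refine (measure_eq_zero_iff_ae_notMem.1 this).mono fun s hs h => hs ?_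
      exact ⟨⌊s⌋, by linarith [Int.floor_add_fract s]⟩
    filter_upwards [h2, h3] with s hs hs' hmem
    refine hs (-⌊s⌋) ⟨?_, ?_⟩
    · show (s + ((-⌊s⌋ : ℤ) : ℝ)) • e k ∈ Bad
      convert hmem using 2
      push_cast
      rw [← Int.self_sub_floor, sub_eq_add_neg]
    · push_cast
      exact ⟨lt_of_le_of_ne (by linarith [Int.floor_le s])
        (fun h => hs' (by linarith [Int.self_sub_floor s])), by linarith [Int.lt_floor_add_one s]⟩
  filter_upwards [hfr] with s hs
  by_contra h
  apply hs
  have : IsPer fun x => x ∈ Bad := fun l x => propext (hBp l x)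
  have e := this.int_smul k (Int.fract s • e k) ⌊s⌋
  rw [← add_smul, Int.fract_add_floor] at e
  exact e ▸ (show s • P232.e k ∈ Bad from h)

/-- The heights in a window where the mollifications converge. -/
lemma line_data {V : ℝ} (hV : ∫ x in cell, ind C x = V) :
    ∫ s in Ioc (0 : ℝ) 1, ind C (s • e k) = V := by
  rw [← hV, setIntegral_line_fun hij hik hjk (measurable_ind hC) (abs_ind_le _) (isPer_ind hp)
    hi.ind_eq hj.ind_eq]

/-- A set depending on one coordinate only, of perimeter at most two, is a band; its perimeter is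
never below two. -/
lemma line_core {V : ℝ} (hV : ∫ x in cell, ind C x = V) (h0 : 0 < V) (h1 : V < 1) :
    2 ≤ per C ∧ (per C ≤ 2 → ∃ c, AEEq C (band k c V)) := by
  classical
  set f : ℝ → ℝ := fun s => ind C (s • e k) with hf
  have hfm : Measurable f :=
    (measurable_ind hC).comp (continuous_id.smul continuous_const).measurable
  have hfper : Function.Periodic f 1 := fun s => by
    have := periodic_line (isPer_ind hp) k 0 s
    simpa [hf] using this
  have hfi : ∀ a b : ℝ, IntegrableOn f (Ioc a b) := fun a b =>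
    Measure.integrableOn_of_bounded (M := 1) (by simp [Real.volume_Ioc]) hfm.aestronglyMeasurable
      (ae_of_all _ fun s => abs_ind_le C _)
  have hwin : ∀ q : ℝ, ∫ s in Ioc q (q + 1), f s = V := fun q => by
    rw [← intervalIntegral.integral_of_le (by linarith), hfper.intervalIntegral_add_eq q 0,
      intervalIntegral.integral_of_le (by linarith), zero_add]
    exact line_data hij hik hjk hC hp hi hj hV
  have h01 : ∀ s, f s = 0 ∨ f s = 1 := fun s => by
    by_cases h : s • e k ∈ C
    · exact Or.inr (ind_of_mem h)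
    · exact Or.inl (ind_of_notMem h)
  have hgood := ae_line_tendsto hij hik hjk hC hp hi hj
  set Good : Set ℝ := {s | Tendsto (fun n => moll (bump n) C (s • e k)) atTop (𝓝 (f s))}
  -- the sum of four jumps is a lower bound
  have hjump : ∀ a₀ a₁ a₂ a₃, a₀ ∈ Good → a₁ ∈ Good → a₂ ∈ Good → a₃ ∈ Good → a₀ ≤ a₁ → a₁ ≤ a₂ →
      a₂ ≤ a₃ → a₃ ≤ a₀ + 1 →
      ENNReal.ofReal (|f a₁ - f a₀| + |f a₂ - f a₁| + |f a₃ - f a₂| + |f a₀ - f a₃|) ≤ per C := by
    intro a₀ a₁ a₂ a₃ g₀ g₁ g₂ g₃ h₀ h₁ h₂ h₃
    by_cases hfin : per C = (⊤ : ℝ≥0∞)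
    · simp [hfin]
    rw [ENNReal.ofReal_le_iff_le_toReal hfin]
    refine le_of_tendsto' ((((g₁.sub g₀).abs.add (g₂.sub g₁).abs).add (g₃.sub g₂).abs).add
      (g₀.sub g₃).abs) fun n => ?_
    exact (four_steps_le_gradMass hij hik hjk ((moll_contDiff (bump n) hC).of_le (by norm_cast))
      (moll_isPer (bump n) hp) (hi.moll _) (hj.moll _) h₀ h₁ h₂ h₃).trans
      (gradMass_moll_le _ hC hp hfin)
  -- an empty height, and a full one in the following window
  have key0 : ∃ q, q ∈ Good ∧ f q = 0 := by
    by_contra h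
    push Not at h
    have : ∫ s in Ioc (0:ℝ) (0 + 1), f s = ∫ s in Ioc (0:ℝ) (0 + 1), (1:ℝ) :=
      integral_congr_ae ((ae_restrict_of_ae hgood).mono fun s hs =>
        (h01 s).resolve_left (h s hs))
    rw [hwin] at this
    simp at this
    linarith
  obtain ⟨q, hq, hq0⟩ := key0
  set P : Set ℝ := Ioo q (q + 1) ∩ {s | s ∈ Good ∧ f s = 1} with hP
  have hPne : P.Nonempty := by
    by_contra h
    have hz : ∫ s in Ioc q (q + 1), f s = 0 := by
      refine integral_eq_zero_of_ae ?_
      rw [← Measure.restrict_congr_set Ioo_ae_eq_Ioc]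
      filter_upwards [ae_restrict_mem measurableSet_Ioo, ae_restrict_of_ae hgood] with s hs hsg
      exact (h01 s).resolve_right fun h' => h ⟨s, hs, hsg, h'⟩
    rw [hwin] at hz
    linarith
  obtain ⟨p, hp', hpg, hp1⟩ := hPne
  have hper2 : 2 ≤ per C := by
    have := hjump q p p p hq hpg hpg hpg hp'.1.le le_rfl le_rfl hp'.2.le
    rw [hq0, hp1] at this
    norm_num at this
    simpa using this
  refine ⟨hper2, fun hle => ?_⟩
  have hPne' : P.Nonempty := ⟨p, hp', hpg, hp1⟩
  have hPb : BddBelow P := ⟨q, fun s hs => hs.1.1.le⟩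
  have hPa : BddAbove P := ⟨q + 1, fun s hs => hs.1.2.le⟩
  set α := sInf P
  set β := sSup P
  have hqα : q ≤ α := le_csInf hPne' fun s hs => hs.1.1.le
  have hβq : β ≤ q + 1 := csSup_le hPne' fun s hs => hs.1.2.le
  have hmid : ∀ s ∈ Good, α < s → s < β → f s = 1 := by
    intro s hs hαs hsβ
    refine (h01 s).resolve_left fun h0 => ?_
    obtain ⟨p₁, hp₁, hlt⟩ := exists_lt_of_csInf_lt hPne' hαs
    obtain ⟨p₂, hp₂, hgt⟩ := exists_lt_of_lt_csSup hPne' hsβ
    have := (hjump q p₁ s p₂ hq hp₁.2.1 hs hp₂.2.1 hp₁.1.1.le hlt.le hgt.le hp₂.1.2.le).trans hle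
    rw [hq0, hp₁.2.2, hp₂.2.2, h0] at this
    norm_num at this
  -- the set agrees with the interval in the window
  have hfI : ∀ᵐ s ∂volume.restrict (Ioc q (q + 1)), f s = (Ioo α β).indicator (1 : ℝ → ℝ) s := by
    rw [← Measure.restrict_congr_set Ioo_ae_eq_Ioc]
    have hne : ∀ᵐ s : ℝ, s ≠ α ∧ s ≠ β :=
      (measure_eq_zero_iff_ae_notMem.1 (measure_singleton α)).and
        (measure_eq_zero_iff_ae_notMem.1 (measure_singleton β))
    filter_upwards [ae_restrict_mem measurableSet_Ioo, ae_restrict_of_ae hgood,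
      ae_restrict_of_ae hne] with s hs hsg hsne
    by_cases h : s ∈ Ioo α β
    · rw [indicator_of_mem h]; exact hmid s hsg h.1 h.2
    · rw [indicator_of_notMem h]
      refine (h01 s).resolve_right fun h1' => h ⟨?_, ?_⟩
      · exact lt_of_le_of_ne (csInf_le hPb ⟨hs, hsg, h1'⟩) (Ne.symm hsne.1)
      · exact lt_of_le_of_ne (le_csSup hPa ⟨hs, hsg, h1'⟩) hsne.2
  have hVab : β - α = V := by
    have hab : α ≤ β := (csInf_le hPb ⟨hp', hpg, hp1⟩).trans (le_csSup hPa ⟨hp', hpg, hp1⟩)
    rw [← hwin q, integral_congr_ae hfI, setIntegral_indicator measurableSet_Ioo,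
      inter_eq_right.2 (show Ioo α β ⊆ Ioc q (q + 1) from
        fun s hs => ⟨lt_of_le_of_lt hqα hs.1, hs.2.le.trans hβq⟩)]
    simp [Measure.real, Real.volume_Ioo, hab]
  refine ⟨(α + β) / 2, ?_⟩
  set B := band k ((α + β) / 2) V with hB
  have hBm : MeasurableSet B := (isOpen_band _ _ _).measurableSet
  have hBp := isPeriodicSet_band k ((α + β) / 2) V
  refine aeEq_of_integral hC hBm ?_
  rw [setIntegral_line_fun hij hik hjk (H := fun x => |ind C x - ind B x|) (C := 2)
    ((measurable_ind hC).sub (measurable_ind hBm)).abs (fun x => by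
      rw [abs_abs, abs_le]
      have := ind_mem C x; have := ind_mem B x
      constructor <;> linarith)
    ((isPer_ind hp).comp₂ (isPer_ind hBp) fun a b => |a - b|)
    (fun x t => by rw [hi.ind_eq, (invAlong_band hik _ _).ind_eq])
    (fun x t => by rw [hj.ind_eq, (invAlong_band hjk _ _).ind_eq])]
  have hdp : Function.Periodic (fun s : ℝ => |ind C (s • e k) - ind B (s • e k)|) 1 := fun s => by
    have a := periodic_line (isPer_ind hp) k 0 s
    have b := periodic_line (isPer_ind hBp) k 0 s
    simp only [zero_add] at a b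
    simp only [a, hB, b]
  have hw : ∫ s in Ioc (0 : ℝ) 1, |ind C (s • e k) - ind B (s • e k)|
      = ∫ s in Ioc q (q + 1), |ind C (s • e k) - ind B (s • e k)| := by
    rw [← intervalIntegral.integral_of_le zero_le_one,
      ← intervalIntegral.integral_of_le (show q ≤ q + 1 by linarith),
      hdp.intervalIntegral_add_eq q 0, zero_add]
  rw [hw]
  refine integral_eq_zero_of_ae ?_
  filter_upwards [hfI, ae_restrict_mem measurableSet_Ioc] with s hs hsI
  have : s • e k ∈ B ↔ s ∈ Ioo α β := by
    simp only [hB, band, mem_ofPred_eq, PiLp.smul_apply, e_self, smul_eq_mul, mul_one]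
    constructor
    · rintro ⟨m, hm⟩
      rw [abs_lt] at hm
      rcases lt_trichotomy m 0 with hm0 | hm0 | hm0
      · have : (m : ℝ) ≤ -1 := by exact_mod_cast Int.le_sub_one_of_lt hm0
        linarith [hsI.1]
      · subst hm0
        push_cast at hm
        constructor <;> linarith
      · have : (1 : ℝ) ≤ m := by exact_mod_cast hm0
        linarith [hsI.2]
    · intro h
      refine ⟨0, abs_lt.2 ⟨?_, ?_⟩⟩ <;> push_cast <;> linarith [h.1, h.2]
  have hb : ind B (s • e k) = (Ioo α β).indicator (1 : ℝ → ℝ) s := by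
    by_cases h : s ∈ Ioo α β
    · rw [indicator_of_mem h, ind_of_mem (this.2 h)]; rfl
    · rw [indicator_of_notMem h, ind_of_notMem (mt this.1 h)]
  show |ind C (s • e k) - ind B (s • e k)| = 0
  rw [hb, ← hs, sub_self, abs_zero]

end classify

end Vale.Agent.P232
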