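import Vale.Agent.P232.Uniq.Endpoint
import Vale.Agent.P232.BallProfile

/-!
Bounds on the slices and lines of a set whose symmetrisation has the slices of a ball: its slice
areas stay below the equatorial area and its lines below the diameter.
-/

open MeasureTheory Set Filter Function
open scoped ENNReal Topology

namespace Vale.Agent.P232

open Cylinder

variable {D : Set R3}

lemma tent_mem_Ioo_of_ne {s : ℝ} (h : s ∈ Ioo (0 : ℝ) 1) (hs : s ≠ 1 / 2) :
    tent s ∈ Ioo (0 : ℝ) 1 := by
  rcases lt_or_gt_of_ne hs with h' | h'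
  · have : round s = 0 := by
      rw [round_eq, Int.floor_eq_iff]; push_cast; constructor <;> linarith [h.1]
    simp only [tent, this, Int.cast_zero, sub_zero, abs_of_pos h.1]
    exact ⟨by linarith [h.1], by linarith⟩
  · have : round s = 1 := by
      rw [round_eq, Int.floor_eq_iff]; push_cast; constructor <;> linarith [h.2]
    simp only [tent, this, Int.cast_one, abs_of_neg (sub_neg.2 h.2)]
    exact ⟨by linarith [h.2], by linarith⟩

lemma ae_tent_mem : ∀ᵐ s ∂volume.restrict (Ioc (0 : ℝ) 1), tent s ∈ Ioo (0 : ℝ) 1 := by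
  rw [← Measure.restrict_congr_set Ioo_ae_eq_Ioc, ae_restrict_iff' measurableSet_Ioo]
  have hne : ∀ᵐ s : ℝ, s ≠ 1 / 2 := measure_eq_zero_iff_ae_notMem.1 (measure_singleton _)
  filter_upwards [hne] with s hs h using tent_mem_Ioo_of_ne h hs

/-- Below the diameter of the ball all lines of a down-set with the slices of a ball are empty. -/
lemma notMem_of_ball (hdown : IsDownset D) {w : ℝ} {j : Fin 3}
    (hs : ∀ z ∈ Ioo (0 : ℝ) 1, sliceArea D j z = ballArea w z) {p : R3}
    (hp : ∀ l, 0 < p l) (hw : 4 * w ^ 2 ≤ Real.pi * p j ^ 2) : p ∉ D := by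
  intro hmem
  have hc := hdown.1 hmem
  have he : ins j (p j) (p (j.succAbove 0), p (j.succAbove 1)) = p := by
    ext l
    rcases Fin.eq_self_or_eq_succAbove j l with rfl | ⟨i, rfl⟩
    · rw [ins_apply_self]
    · rw [ins_apply_succAbove]; fin_cases i <;> rfl
  set a := p (j.succAbove 0)
  set b := p (j.succAbove 1)
  have hmem' : (a, b) ∈ slice D j (p j) := by
    show ins j (p j) (a, b) ∈ D
    rw [he]; exact hmem
  have hsub : Ico 0 a ×ˢ Ico 0 b ⊆ slice D j (p j) := fun q hq =>
    slice_downset hdown hmem'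
      ⟨⟨hq.1.1, hq.1.2.trans (hc _).2⟩, hq.2.1, hq.2.2.trans (hc _).2⟩ hq.1.2.le hq.2.2.le
  have hlt : volume (slice D j (p j)) < ⊤ :=
    lt_of_le_of_lt (volume_slice_le hdown.1 j (p j)) ENNReal.one_lt_top
  have h := measureReal_mono hsub hlt.ne
  rw [show volume.real (slice D j (p j)) = sliceArea D j (p j) from rfl,
    hs _ ⟨hp j, (hc j).2⟩, ballArea, max_eq_right (by nlinarith), Measure.real,
    Measure.volume_eq_prod, Measure.prod_prod, Real.volume_Ico, Real.volume_Ico,
    ← ENNReal.ofReal_mul (by linarith [hp (j.succAbove 0)]), sub_zero, sub_zero,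
    ENNReal.toReal_ofReal (mul_nonneg (hp _).le (hp _).le)] at h
  linarith [mul_pos (hp (j.succAbove 0)) (hp (j.succAbove 1))]

/-- The masses of the lines of the unfolded down-set are at most the diameter. -/
lemma lineMass_fold_le (hD : MeasurableSet D) (hdown : IsDownset D) {w : ℝ} {i j k : Fin 3}
    (hij : i ≠ j) (hik : i ≠ k) (hjk : j ≠ k)
    (hs : ∀ z ∈ Ioo (0 : ℝ) 1, sliceArea D j z = ballArea w z) {ℓ : ℝ} (hℓ : 0 ≤ ℓ)
    (hw : 4 * w ^ 2 ≤ Real.pi * ℓ ^ 2) {s t : ℝ} (hs0 : tent s ∈ Ioo (0 : ℝ) 1)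
    (ht0 : tent t ∈ Ioo (0 : ℝ) 1) :
    sliceInt (fun x => ind D (fold (toSlice k s x))) i t ≤ ℓ := by
  set F : R3 → ℝ := fun y => ind D (toSlice k (tent s) (toSlice i (tent t) y))
  have hFm : Measurable F :=
    (measurable_ind hD).comp ((measurable_toSlice k _).comp (measurable_toSlice i _))
  have hle : ∀ y, F y ≤ {y : R3 | y j ≤ ℓ}.indicator (fun _ => (1 : ℝ)) y := fun y => by
    rcases le_or_gt (y j) ℓ with h | h
    · rw [indicator_of_mem (show y ∈ {y : R3 | y j ≤ ℓ} from h)]
      exact (ind_mem D _).2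
    · rw [indicator_of_notMem (show y ∉ {y : R3 | y j ≤ ℓ} from not_le.2 h)]
      refine (ind_of_notMem (notMem_of_ball hdown hs (fun l => ?_) ?_)).le
      · rcases coord_cases hij hik hjk l with rfl | rfl | rfl
        · rw [toSlice_apply_ne (Ne.symm hik), toSlice_apply_self]; exact ht0.1
        · rw [toSlice_apply_ne (Ne.symm hjk), toSlice_apply_ne hij]; linarith
        · rw [toSlice_apply_self]; exact hs0.1
      · rw [toSlice_apply_ne (Ne.symm hjk), toSlice_apply_ne hij]
        refine hw.trans (mul_le_mul_of_nonneg_left ?_ Real.pi_nonneg)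
        exact pow_le_pow_left₀ hℓ h.le 2
  have hcoord : MeasurableSet {y : R3 | y j ≤ ℓ} :=
    measurableSet_le (PiLp.continuous_apply 2 _ j).measurable measurable_const
  have hI : IntegrableOn ({y : R3 | y j ≤ ℓ}.indicator (fun _ => (1 : ℝ))) cell :=
    (integrable_const (1 : ℝ)).indicator hcoord
  simp only [sliceInt, fold_toSlice]
  rw [setIntegral_fold (F := F) hFm.aestronglyMeasurable]
  refine (integral_mono (integrable_cell_of_bound hFm fun y => abs_ind_le D _)
    hI hle).trans ?_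
  rw [setIntegral_eq_slices (k := j) measurableSet_cell hI]
  have e : ∀ z : ℝ, ∫ q in slice cell j z, {y : R3 | y j ≤ ℓ}.indicator (fun _ => (1 : ℝ)) (ins j z q)
      = (Ico (0 : ℝ) 1 ∩ Iic ℓ).indicator (fun _ => (1 : ℝ)) z := fun z => by
    by_cases hz : z ∈ Ico (0 : ℝ) 1
    · have hsq : slice cell j z = square := by
        ext q
        rw [mem_slice, ins_mem_cell]
        exact and_iff_right hz
      by_cases hzl : z ≤ ℓ <;>
        simp [hsq, hz, hzl, indicator, ins_apply_self, Measure.real, square,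
          Measure.volume_eq_prod]
    · rw [slice_eq_empty Subset.rfl hz]
      simp [hz]
  simp only [e]
  rw [integral_indicator_const (1 : ℝ) (measurableSet_Ico.inter measurableSet_Iic), smul_eq_mul,
    mul_one]
  refine (measureReal_mono (show Ico (0 : ℝ) 1 ∩ Iic ℓ ⊆ Icc 0 ℓ from fun z hz => ⟨hz.1.1, hz.2⟩)
    (by simp [Real.volume_Icc])).trans ?_
  simp [hℓ]

variable {E : Set R3}

/-- A vanishing excess energy bounds a profile almost everywhere. -/
lemma ae_le_of_excess {f : ℝ → ℝ} (hm : Measurable f) (h01 : ∀ s, f s ∈ Icc (0 : ℝ) 1) {M : ℝ}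
    (hM : 0 ≤ M) (h : ∫ s in Ioc (0 : ℝ) 1, max (f s - M) 0 ≤ 0) :
    ∀ᵐ s ∂volume.restrict (Ioc (0 : ℝ) 1), f s ≤ M := by
  have hi : IntegrableOn (fun s => max (f s - M) 0) (Ioc (0 : ℝ) 1) :=
    Integrable.mono' (integrable_const (1 : ℝ))
      ((hm.sub_const M).max measurable_const).aestronglyMeasurable (ae_of_all _ fun s => by
        rw [Real.norm_of_nonneg (le_max_right _ _), max_le_iff]
        exact ⟨by linarith [(h01 s).2], zero_le_one⟩)
  filter_upwards [(integral_eq_zero_iff_of_nonneg (fun s => le_max_right _ _) hi).1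
    (le_antisymm h (integral_nonneg fun s => le_max_right _ _))] with s hs
  linarith [le_max_left (f s - M) 0, show max (f s - M) 0 = 0 from hs]

/-- The slice areas are at most the equatorial area. -/
theorem slices_le_of_ball (hE : MeasurableSet E) (hD : MeasurableSet D) (hdown : IsDownset D)
    {w : ℝ} {k : Fin 3} (hs : ∀ z ∈ Ioo (0 : ℝ) 1, sliceArea D k z = ballArea w z)
    (hA : sliceEnergyOf (fun t => max (t - w ^ 2) 0) (ind E) k
      ≤ sliceEnergyOf (fun t => max (t - w ^ 2) 0) (fun x => ind D (fold x)) k) :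
    ∀ᵐ s ∂volume.restrict (Ioc (0 : ℝ) 1), sliceVol E k s ≤ w ^ 2 := by
  have hsl : ∀ s, sliceInt (ind E) k s = sliceVol E k s := fun s => by
    simp only [sliceInt, sliceVol, ind_sliceCyl]
  refine ae_le_of_excess (measurable_sliceVol hE k) (sliceVol_mem E k) (sq_nonneg w) ?_
  have h0 : sliceEnergyOf (fun t => max (t - w ^ 2) 0) (fun x => ind D (fold x)) k = 0 := by
    refine integral_eq_zero_of_ae ?_
    filter_upwards [ae_tent_mem] with s hs'
    simp only [sliceInt_fold hD hdown.1, hs _ hs', Pi.zero_apply]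
    refine max_eq_right (sub_nonpos.2 (max_le ?_ (sq_nonneg w)))
    nlinarith [mul_nonneg Real.pi_nonneg (sq_nonneg (tent s))]
  rw [h0, sliceEnergyOf] at hA
  simpa only [hsl] using hA

/-- The lines are at most the diameter. -/
theorem lines_le_of_ball (hE : MeasurableSet E) (hD : MeasurableSet D) (hdown : IsDownset D)
    {w : ℝ} {i j k : Fin 3} (hij : i ≠ j) (hik : i ≠ k) (hjk : j ≠ k)
    (hs : ∀ z ∈ Ioo (0 : ℝ) 1, sliceArea D j z = ballArea w z) {ℓ : ℝ} (hℓ : 0 ≤ ℓ)
    (hw : 4 * w ^ 2 ≤ Real.pi * ℓ ^ 2)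
    (hA : lineEnergyOf (fun t => max (t - ℓ) 0) (ind E) k i
      ≤ lineEnergyOf (fun t => max (t - ℓ) 0) (fun x => ind D (fold x)) k i) :
    ∀ᵐ s ∂volume.restrict (Ioc (0 : ℝ) 1), ∀ᵐ t ∂volume.restrict (Ioc (0 : ℝ) 1),
      sliceVol (sliceCyl E k s) i t ≤ ℓ := by
  have hsl : ∀ s, sliceEnergyOf (fun t => max (t - ℓ) 0) (fun x => ind E (toSlice k s x)) i
      = ∫ t in Ioc (0 : ℝ) 1, max (sliceVol (sliceCyl E k s) i t - ℓ) 0 := fun s => by
    simp only [sliceEnergyOf, sliceInt, sliceVol, ind_sliceCyl]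
  have h0 : lineEnergyOf (fun t => max (t - ℓ) 0) (fun x => ind D (fold x)) k i = 0 := by
    refine integral_eq_zero_of_ae ?_
    filter_upwards [ae_tent_mem] with s hs'
    refine integral_eq_zero_of_ae ?_
    filter_upwards [ae_tent_mem] with t ht'
    exact max_eq_right (sub_nonpos.2 (lineMass_fold_le hD hdown hij hik hjk hs hℓ hw hs' ht'))
  rw [h0] at hA
  have hi := integrable_sliceEnergyOf_slice (isGauge_excess ℓ) (measurable_ind hE) (ind_mem E) k i
  have hz := (integral_eq_zero_iff_of_nonneg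
    (fun s => integral_nonneg fun t => le_max_right _ _) hi).1
    (le_antisymm hA (integral_nonneg fun s => integral_nonneg fun t => le_max_right _ _))
  filter_upwards [hz] with s hs'
  refine ae_le_of_excess (measurable_sliceVol (measurableSet_sliceCyl hE k s) i)
    (sliceVol_mem _ i) hℓ ?_
  rw [← hsl s]
  exact le_of_eq hs'

end Vale.Agent.P232
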