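import Vale.Agent.P232.Uniq.TestSlices
import Vale.Agent.P232.Uniq.Endpoint
import Vale.Agent.P232.Plain

/-!
The planar isoperimetric bound `2 √(π a)` for sets invariant in one direction: for area at most
`1/π` without any hypothesis, up to area `π/9` when no line is full. With it, the test inequality
for the slice areas of a set without full lines.
-/

open MeasureTheory Set Filter Function
open scoped ENNReal NNReal Topology RealInnerProductSpace ContDiff

namespace Vale.Agent.P232

/-! ### Area at most `1/π`: an invariant symmetrisation -/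

/-- A function invariant under translations along `e k`. -/
def IsInvFun (k : Fin 3) (v : R3 → ℝ) : Prop := ∀ (x : R3) (t : ℝ), v (x + t • e k) = v x

lemma IsInvFun.sliceInt {k : Fin 3} {v : R3 → ℝ} (h : IsInvFun k v) (s : ℝ) :
    P232.sliceInt v k s = ∫ x in cell, v x := by
  simp only [P232.sliceInt, toSlice, h _ _]

lemma IsInvFun.pol {k : Fin 3} {v : R3 → ℝ} (h : IsInvFun k v) (i : Fin 3) (c : ℝ) :
    IsInvFun k (P232.pol i c v) := fun x t => by
  by_cases hik : i = k
  · subst hik
    have hr : ∀ y, v (refl i c y) = v y := fun y => by rw [refl_eq, h]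
    simp only [P232.pol, hr, max_self, min_self, ite_self]
    exact h x t
  · have hx : (x + t • e k) i = x i := by simp [e_ne (Ne.symm hik)]
    have hr : refl i c (x + t • e k) = refl i c x + t • e k := by
      rw [refl_eq, refl_eq, hx]; module
    simp only [P232.pol, hx, hr, h _ _]

/-- An invariant set has a symmetrised down-set with constant slices in that direction. -/
theorem exists_downset_inv {C : Set R3} (hC : MeasurableSet C) (hp : IsPeriodicSet C) {k : Fin 3}
    (hk : InvAlong C k) {P V : ℝ} (hP0 : 0 ≤ P) (hP : per C ≤ ENNReal.ofReal P) (hV0 : 0 ≤ V)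
    (hV : vol C = ENNReal.ofReal V) :
    ∃ D, MeasurableSet D ∧ IsDownset D ∧ (volume D).toReal = V ∧ RelPerLE D (P / 2) ∧
      ∀ z ∈ Ioo (0 : ℝ) 1, areaExt D k z = V := by
  have hne : per C ≠ ⊤ := (hP.trans_lt ENNReal.ofReal_lt_top).ne
  have hgm := measurable_ind hC
  have hli : LocallyIntegrable (C.indicator (1 : R3 → ℝ)) volume :=
    (locallyIntegrable_const (1 : ℝ)).indicator hC
  have hae : ∀ᵐ x, Tendsto (fun n => moll (bump n) C x) atTop (𝓝 (ind C x)) :=
    ContDiffBump.ae_convolution_tendsto_right_of_locallyIntegrable (K := 2)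
      tendsto_one_div_add_atTop_nhds_zero_nat
      (Eventually.of_forall fun n => le_of_eq (by simp only [bump]; field_simp)) hli
  have hmass : ∀ n, ∫ x in cell, moll (bump n) C x = V := fun n => by
    rw [setIntegral_moll (bump n) hC hp, hV, ENNReal.toReal_ofReal hV0]
  have hL1 : Tendsto (fun n => ∫ x in cell, |moll (bump n) C x - ind C x|) atTop (𝓝 0) := by
    rw [← integral_zero R3 ℝ (μ := volume.restrict cell)]
    refine tendsto_integral_of_dominated_convergence (fun _ => (1 : ℝ))
      (fun n => ((moll_contDiff (bump n) hC).continuous.measurable.sub hgm).abs.aestronglyMeasurable)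
      (integrable_const 1) (fun n => ae_of_all _ fun x => ?_)
      ((ae_restrict_of_ae hae).mono fun x hx => by simpa using (hx.sub_const (ind C x)).abs)
    obtain ⟨a, b⟩ := moll_mem (bump n) (E := C) x
    obtain ⟨c, d⟩ := ind_mem C x
    rw [Real.norm_eq_abs, abs_abs, abs_le]
    constructor <;> linarith
  have key : ∀ n : ℕ, ∃ v : R3 → ℝ, IsSymApprox P V (1 / (n + 1 : ℝ)) v ∧ IsInvFun k v := by
    intro n
    obtain ⟨m, hm⟩ := (hL1.eventually
      (gt_mem_nhds (show (0 : ℝ) < 1 / (n + 1 : ℝ) by positivity))).exists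
    set u := moll (bump m) C
    have hs : ContDiff ℝ 1 u := (moll_contDiff (bump m) hC).of_le (by norm_cast)
    have hper : IsPer u := moll_isPer (bump m) hp
    have h01 : ∀ x, 0 ≤ u x ∧ u x ≤ 1 := moll_mem (bump m)
    obtain ⟨v, hvc, hvp, hv01, hev, hdec, hF, htest, hQ⟩ := exists_symmDec_of (P := P)
      hs hper h01 ((gradMass_moll_le (bump m) hC hp hne).trans
        (ENNReal.toReal_le_of_le_ofReal hP0 hP))
      (IsInvFun k) (fun x t => hk.moll (bump m) x t)
      (fun {K w} i c _ _ _ _ hQw => hQw.pol i c)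
      (fun f w hf _ _ _ hlim x t => tendsto_nhds_unique
        ((hlim _).congr fun n => (hf n).2.2.2 x t) (hlim x))
    refine ⟨v, ⟨hvc, hvp, hv01, ?_, ?_, htest, hev, fun x y h => anti_of_coord hdec h⟩, hQ⟩
    · rw [show (∫ x in cell, v x) = ∫ x in cell, u x from hF id continuous_id]; exact hmass m
    · rw [hF (fun t => t * (1 - t)) (by fun_prop)]
      refine le_trans ?_ hm.le
      refine integral_mono ((hper.comp fun t => t * (1 - t)).integrable_cell
          ((by fun_prop : Continuous fun t : ℝ => t * (1 - t)).comp hs.continuous))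
        (Integrable.of_bound ((hs.continuous.measurable.sub hgm).abs.aestronglyMeasurable) 1
          (ae_of_all _ fun x => ?_)) fun x => ?_
      · obtain ⟨p₁, p₂⟩ := ind_mem C x
        rw [Real.norm_eq_abs, abs_abs, abs_le]
        constructor <;> linarith [(h01 x).1, (h01 x).2]
      · obtain ⟨a, b⟩ := h01 x
        by_cases hx : x ∈ C
        · simp only [ind_of_mem hx]
          rw [abs_of_nonpos (by linarith)]; nlinarith
        · simp only [ind_of_notMem hx, sub_zero]
          rw [abs_of_nonneg a]; nlinarith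
  choose v hv hQ using key
  obtain ⟨D, hD, hdown, hvol, hrel, φ, hφ, hlim⟩ := exists_downset_of_symApprox_seq hv
  refine ⟨D, hD, hdown, hvol, hrel, ?_⟩
  set g : R3 → ℝ := fun x => ind D (fold x)
  have hgm' : Measurable g := (measurable_ind hD).comp lipschitz_fold.continuous.measurable
  have hEn : sliceEnergyOf (fun t => t ^ 2) g k = V ^ 2 := by
    refine tendsto_nhds_unique (tendsto_sliceEnergyOf isGauge_sq (f := fun n => v (φ n))
      (fun n => (hv _).continuous.measurable) hgm' (fun n => (hv _).periodic)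
      (isPer_fold.comp (ind D)) (fun n => (hv _).mem) (fun x => ind_mem D _) hlim k) ?_
    refine tendsto_const_nhds.congr fun n => ?_
    simp only [sliceEnergyOf, (hQ (φ n)).sliceInt, (hv (φ n)).mass]
    simp [Measure.real]
  have hg1 : ∫ s in Ioc (0 : ℝ) 1, sliceInt g k s = V := by
    simp only [sliceInt]
    rw [setIntegral_toSlice hgm' (C := 1) (fun x => abs_ind_le D _) (isPer_fold.comp (ind D)) k]
    simp only [g]
    rw [setIntegral_fold (F := ind D) (measurable_ind hD).aestronglyMeasurable, ind,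
      setIntegral_indicator hD, inter_eq_right.2 hdown.1]
    simp [Measure.real, hvol]
  have hmem : ∀ x, 0 ≤ g x ∧ g x ≤ 1 := fun x => ind_mem D _
  have i2 := integrable_sliceInt_sq hgm' hmem k
  have i1 : IntegrableOn (sliceInt g k) (Ioc (0 : ℝ) 1) :=
    Integrable.mono' (integrable_const (1 : ℝ)) (measurable_sliceInt hgm' k).aestronglyMeasurable
      (ae_of_all _ fun s => by
        obtain ⟨a, b⟩ := sliceInt_mem hgm' hmem k s
        rw [Real.norm_of_nonneg a]; exact b)
  have hcst : IntegrableOn (fun _ : ℝ => V ^ 2) (Ioc (0 : ℝ) 1) := integrable_const _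
  have e : ∀ s, (sliceInt g k s - V) ^ 2 = sliceInt g k s ^ 2 - 2 * V * sliceInt g k s + V ^ 2 :=
    fun s => by ring
  have hd : ∫ s in Ioc (0 : ℝ) 1, (sliceInt g k s - V) ^ 2 = 0 := by
    simp only [e]
    rw [integral_add (i2.fun_sub (i1.const_mul _)) hcst, integral_sub i2 (i1.const_mul _),
      integral_const_mul, hg1,
      show ∫ s in Ioc (0 : ℝ) 1, sliceInt g k s ^ 2 = V ^ 2 from hEn]
    simp [Measure.real]
    ring
  have hi : IntegrableOn (fun s => (sliceInt g k s - V) ^ 2) (Ioc (0 : ℝ) 1) := by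
    simp only [e]
    exact (i2.fun_sub (i1.const_mul _)).fun_add hcst
  have hz := (integral_eq_zero_iff_of_nonneg (fun s => sq_nonneg _) hi).1 hd
  have hA := areaExt_antitone hdown k
  have pick : ∀ a b : ℝ, 0 ≤ a → a < b → b ≤ 1 → ∃ y ∈ Ioo a b, areaExt D k y = V := by
    intro a b ha hab hb
    have hsub : Ioo (a / 2) (b / 2) ⊆ Ioc (0 : ℝ) 1 := fun s hs =>
      ⟨by linarith [hs.1], by linarith [hs.2]⟩
    have hz' := ae_restrict_of_ae_restrict_of_subset hsub hz
    have : NeZero (volume.restrict (Ioo (a / 2) (b / 2))) :=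
      ⟨by simp [Measure.restrict_eq_zero, Real.volume_Ioo]; linarith⟩
    obtain ⟨s, hs, hmem'⟩ := (hz'.and (ae_restrict_mem measurableSet_Ioo)).exists
    have ht : tent s = 2 * s := by
      have : round s = 0 := by
        rw [round_eq, Int.floor_eq_iff]; push_cast
        constructor <;> linarith [hmem'.1, hmem'.2]
      simp only [tent, this, Int.cast_zero, sub_zero,
        abs_of_nonneg (show 0 ≤ s by linarith [hmem'.1])]
    refine ⟨2 * s, ⟨by linarith [hmem'.1], by linarith [hmem'.2]⟩, ?_⟩
    have h1 : sliceInt g k s = V := sub_eq_zero.1 (pow_eq_zero_iff two_ne_zero |>.1 hs)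
    rw [areaExt_eq (by linarith [hmem'.1]), ← ht, ← sliceInt_fold hD hdown.1]
    exact h1
  intro z hz01
  obtain ⟨y, hy, hyV⟩ := pick z 1 hz01.1.le hz01.2 le_rfl
  obtain ⟨y', hy', hy'V⟩ := pick 0 z le_rfl hz01.1 hz01.2.le
  exact le_antisymm (hy'V ▸ hA hy'.2.le) (hyV ▸ hA hy.1.le)

/-- **The planar bound up to area `1/π`.** -/
theorem per_ge_of_inv {C : Set R3} (hC : MeasurableSet C) (hp : IsPeriodicSet C) {k : Fin 3}
    (hk : InvAlong C k) {V : ℝ} (hV : ∫ x in cell, ind C x = V) (hV1 : V ≤ 1 / Real.pi) :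
    ENNReal.ofReal (2 * Real.sqrt (Real.pi * V)) ≤ per C := by
  by_cases hfin : per C = ⊤
  · simp [hfin]
  have hV0 : 0 ≤ V := hV ▸ integral_nonneg fun x => (ind_mem C x).1
  obtain ⟨D, hD, hdown, -, hrel, harea⟩ := exists_downset_inv hC hp hk ENNReal.toReal_nonneg
    (ENNReal.ofReal_toReal hfin).ge hV0 (vol_of_integral_ind hC hV)
  have h := slice_partition hD hdown hrel k (N := 1) (t := fun i => (i : ℝ))
    (fun i _ => by push_cast; linarith) (by simp) (by simp)
    (f := fun _ => Real.sqrt (Real.pi * V)) (fun i _ => integrableOn_const (by simp))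
    (fun i hi => Eventually.of_forall fun z hz ε hε => by
      obtain rfl : i = 0 := by omega
      simp only [Nat.cast_zero, zero_add, Nat.cast_one] at hz
      obtain ⟨p, q, hpq, hle⟩ := sq_plain (isSqDown_slice hD hdown k z) hε
      refine ⟨p, q, hpq, ?_⟩
      have he : volume.real (slice D k z) = V := (areaExt_eq hz.1.le).symm.trans (harea z hz)
      rw [he, min_eq_left ((sqrt_le_one_of_le hV1).trans
        (le_min le_rfl (one_le_sqrt_compl hV1)))] at hle
      linarith)
  simp only [Finset.sum_range_one, Nat.cast_zero, zero_add, Nat.cast_one, integral_const,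
    smul_eq_mul] at h
  have h1 : Real.sqrt (Real.pi * V) ≤ (per C).toReal / 2 := by
    refine le_trans ?_ h
    refine Real.le_sqrt_of_sq_le ?_
    simp [Measure.real, Real.volume_Ioo]
    positivity
  calc ENNReal.ofReal (2 * Real.sqrt (Real.pi * V)) ≤ ENNReal.ofReal (per C).toReal :=
        ENNReal.ofReal_le_ofReal (by linarith)
    _ = per C := ENNReal.ofReal_toReal hfin

/-! ### Area up to `π/9` -/

section lines

variable {C : Set R3} {i j k : Fin 3} (hij : i ≠ j) (hik : i ≠ k) (hjk : j ≠ k)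
  (hC : MeasurableSet C) (hp : IsPeriodicSet C) (hk : InvAlong C k)

include hij hik hjk hC hp hk in
/-- A gap in both directions: compress to the area `1/π`. -/
lemma sqrt_le_of_gaps (hprof : 2 ≤ profile (1 / Real.pi)) {P : ℝ} (hP0 : 0 ≤ P)
    (hP : per C ≤ ENNReal.ofReal P) {V : ℝ} (hV : ∫ x in cell, ind C x = V)
    (hVlo : 1 / Real.pi < V)
    (hgi : ¬ ∀ᵐ s ∂volume.restrict (Ioc (0 : ℝ) 1), sliceVol C i s ≠ 0)
    (hgj : ¬ ∀ᵐ s ∂volume.restrict (Ioc (0 : ℝ) 1), sliceVol C j s ≠ 0) :
    2 * Real.sqrt (Real.pi * V) ≤ P := by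
  obtain ⟨a, ha⟩ := exists_empty_height hC i hgi
  obtain ⟨b, hb⟩ := exists_empty_height hC j hgj
  set C' := shift (a • e i + b • e j) C with hC'
  have hC'm : MeasurableSet C' := measurableSet_shift hC _
  have hC'p : IsPeriodicSet C' := isPeriodicSet_shift hp _
  have hC'k : InvAlong C' k := fun x t => by
    simp only [hC', shift, mem_ofPred_eq]
    rw [add_right_comm]
    exact hk _ t
  have hP' : per C' ≤ ENNReal.ofReal P := (per_shift_le hC hp _).trans hP
  have hrew : ∀ (f : ℝ → ℝ) (c r : ℝ),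
      (∫ s in (-r)..r, f (s + c)) = ∫ s in (c - r)..(c + r), f s := fun f c r => by
    rw [intervalIntegral.integral_comp_add_right]
    ring_nf
  have hdi : Tendsto (fun n => (∫ s in (-cutR n)..(cutR n), sliceVol C' i s) / cutR n)
      atTop (𝓝 0) := by
    refine ha.congr fun n => ?_
    simp only [hC', sliceVol_shift hp hij, hrew]
  have hdj : Tendsto (fun n => (∫ s in (-cutR n)..(cutR n), sliceVol C' j s) / cutR n)
      atTop (𝓝 0) := by
    refine hb.congr fun n => ?_
    simp only [hC', add_comm (a • e i) (b • e j), sliceVol_shift hp (Ne.symm hij), hrew]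
  have hpi := Real.pi_pos
  have hV0 : 0 < V := lt_trans (by positivity) hVlo
  have hpV : 1 < Real.pi * V := by rw [div_lt_iff₀ hpi] at hVlo; linarith
  set s := Real.sqrt (Real.pi * V) with hs
  have hs1 : 1 ≤ s := Real.one_le_sqrt.2 hpV.le
  set lam := 1 / s with hlam
  have hl0 : 0 < lam := by positivity
  have hl1 : lam ≤ 1 := (div_le_one (by linarith)).2 hs1
  have hl2 : lam ^ 2 * V = 1 / Real.pi := by
    rw [hlam, hs, div_pow, one_pow, Real.sq_sqrt (by positivity)]
    field_simp
  set B := squeezeSet C' i j lam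
  have hVB : ∫ x in cell, ind B x = 1 / Real.pi := by
    have hv : ∫ x in cell, ind C' x = V := by
      rw [← hV, ← (isPer_ind hp).setIntegral_add (a • e i + b • e j)]
      refine setIntegral_congr_fun measurableSet_cell fun x _ => ?_
      by_cases h : x + (a • e i + b • e j) ∈ C
      · rw [ind_of_mem h, ind_of_mem (E := C') h]
      · rw [ind_of_notMem h, ind_of_notMem (E := C') h]
    have := setIntegral_squeeze hij hik hjk hC'm hC'k hl0 hl1 (h := fun _ => 1) (D := 1)
      measurable_const (fun _ => by simp) (fun _ _ => rfl) (fun _ _ => rfl)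
    simp only [mul_one] at this
    rw [this, hv, hl2]
  have hle : profile (1 / Real.pi) ≤ ENNReal.ofReal (lam * P) :=
    (profile_le (measurableSet_squeeze hC'm i j lam) (isPeriodicSet_squeeze C' i j lam)
      (vol_of_integral_ind (measurableSet_squeeze hC'm i j lam) hVB)).trans
      (per_squeeze_le hij hik hjk hC'm hC'p hC'k hl0 hl1 hP' hP0 hdi hdj)
  have h2 : (2 : ℝ≥0∞) ≤ ENNReal.ofReal (lam * P) := hprof.trans hle
  rw [show (2 : ℝ≥0∞) = ENNReal.ofReal 2 by simp, ENNReal.ofReal_le_ofReal_iff (by positivity),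
    hlam, one_div_mul_eq_div, le_div_iff₀ (by linarith)] at h2
  exact h2

include hC hp hk in
/-- The derivative along the invariant direction integrates to zero over the set. -/
lemma setIntegral_fderiv_inv {φ : R3 → ℝ} (hφ : ContDiff ℝ 1 φ) (hφp : IsPer φ) :
    ∫ x in cell, ind C x * fderiv ℝ φ x (e k) = 0 := by
  set d : R3 → ℝ := fun x => fderiv ℝ φ x (e k) with hd
  have hdc : Continuous d := (hφ.continuous_fderiv one_ne_zero).clm_apply continuous_const
  have hdp : IsPer d := hφp.fderiv.comp fun L => L (e k)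
  obtain ⟨D, -, hD⟩ := hdp.bounded hdc
  rw [← setIntegral_line (h := fun x => ind C x * d x) (C := D)
    ((measurable_ind hC).mul hdc.measurable) (fun x => by
      rw [abs_mul]; exact (mul_le_of_le_one_left (abs_nonneg _) (abs_ind_le C x)).trans (hD x))
    ((isPer_ind hp).comp₂ hdp fun a b => a * b) k]
  refine integral_eq_zero_of_ae (ae_of_all _ fun x => ?_)
  have hder : ∀ s, HasDerivAt (fun s => φ (x + s • e k)) (d (x + s • e k)) s := fun s => by
    have hl : HasDerivAt (fun s : ℝ => x + s • e k) (e k) s := by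
      simpa using ((hasDerivAt_id s).smul_const (e k)).const_add x
    exact (hφ.differentiable one_ne_zero (x + s • e k)).hasFDerivAt.comp_hasDerivAt s hl
  simp only [hk.ind_eq, integral_const_mul, Pi.zero_apply]
  rw [← intervalIntegral.integral_of_le zero_le_one,
    intervalIntegral.integral_eq_sub_of_hasDerivAt (fun s _ => hder s)
      ((hdc.comp (show Continuous fun s : ℝ => x + s • e k by fun_prop)).intervalIntegrable _ _)]
  rw [one_smul, zero_smul, add_zero, hφp k x, sub_self, mul_zero]

include hij hik hjk hC hp hk in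
/-- All lines in one direction nonempty, no line full: a strip's two sides and the projection. -/
lemma hypot_le_of_full_projection {P : ℝ} (hP0 : 0 ≤ P) (hP : per C ≤ ENNReal.ofReal P) {V : ℝ}
    (hV : ∫ x in cell, ind C x = V)
    (hi0 : ∀ᵐ s ∂volume.restrict (Ioc (0 : ℝ) 1), sliceVol C i s ≠ 0)
    (hi1 : ∀ᵐ s ∂volume.restrict (Ioc (0 : ℝ) 1), sliceVol C i s ≠ 1)
    (hj1 : ∀ᵐ s ∂volume.restrict (Ioc (0 : ℝ) 1), sliceVol C j s ≠ 1) :
    2 * Real.sqrt (1 + V ^ 2) ≤ P := by
  have hV0 : 0 ≤ V := hV ▸ integral_nonneg fun x => (ind_mem C x).1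
  have hline : ∀ {a b : Fin 3}, a ≠ b → a ≠ k → b ≠ k → ∀ s : ℝ, sliceVol C a s ≠ 0 →
      sliceVol C a s ≠ 1 → ENNReal.ofReal 2 ≤ per (sliceCyl C a s) := fun {a b} hab hak hbk s h0 h1 => by
    have hmem := sliceVol_mem C a s
    rw [show ENNReal.ofReal 2 = 2 by simp]
    exact (line_core hak hab (Ne.symm hbk) (measurableSet_sliceCyl hC a s)
      (isPeriodicSet_sliceCyl hp a s) (invAlong_sliceCyl C a s) (hk.sliceCyl a s) rfl
      (lt_of_le_of_ne hmem.1 (Ne.symm h0)) (lt_of_le_of_ne hmem.2 h1)).1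
  have hsli : ∀ᵐ s ∂volume.restrict (Ioc (0 : ℝ) 1),
      ENNReal.ofReal (2 : ℝ) ≤ per (sliceCyl C i s) := by
    filter_upwards [hi0, hi1] with s h0 h1
    exact hline hij hik hjk s h0 h1
  set o : ℝ → ℝ := fun s => 2 * occ (sliceVol C j) s with ho
  have hom : Measurable o := (measurable_occ (measurable_sliceVol hC j)).const_mul 2
  have ho0 : ∀ s, 0 ≤ o s := fun s => mul_nonneg zero_le_two (occ_mem _ s).1
  have ho2 : ∀ s, o s ≤ 2 := fun s => by
    have := (occ_mem (sliceVol C j) s).2; simp only [ho]; linarith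
  have hslj : ∀ᵐ s ∂volume.restrict (Ioc (0 : ℝ) 1),
      ENNReal.ofReal (o s) ≤ per (sliceCyl C j s) := by
    filter_upwards [hj1] with s h1
    by_cases h0 : sliceVol C j s = 0
    · simp [ho, occ, h0]
    · simpa [ho, occ, h0] using hline (Ne.symm hij) hjk hik s h0 h1
  have hoV : 2 * V ≤ ∫ s, o s ∂volume.restrict (Ioc (0 : ℝ) 1) := by
    have hf : ∫ s in Ioc (0 : ℝ) 1, sliceVol C j s = V := by
      rw [← hV, ← setIntegral_toSlice (measurable_ind hC) (abs_ind_le C) (isPer_ind hp) j]
      simp only [sliceVol, ind_sliceCyl]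
    rw [← hf, ← integral_const_mul]
    refine integral_mono_of_nonneg (ae_of_all _ fun s => mul_nonneg zero_le_two
      (sliceVol_mem C j s).1) (Integrable.mono' (integrable_const (2 : ℝ)) hom.aestronglyMeasurable
        (ae_of_all _ fun s => by rw [Real.norm_of_nonneg (ho0 s)]; exact ho2 s))
      (ae_of_all _ fun s => ?_)
    simp only [ho, occ]
    split_ifs with h
    · simp [h]
    · linarith [(sliceVol_mem C j s).2]
  set H := Real.sqrt (1 + V ^ 2) with hH
  have hH0 : 0 < H := Real.sqrt_pos.2 (by positivity)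
  have hH2 : H ^ 2 = 1 + V ^ 2 := Real.sq_sqrt (by positivity)
  set lam := 1 / H with hlam
  set mu := V / H with hmu
  refine le_of_forall_pos_le_add fun η hη => ?_
  obtain ⟨X, hX, hXi, hXle⟩ := exists_field_of_slices hC hp i hsli (half_pos hη)
  obtain ⟨Y, hY, hYj, hYle⟩ := exists_field_of_slices_var hC hp j hom ho0 ho2
    (w := fun _ => 1) continuous_const (fun _ => rfl) (fun _ => by simp) hslj (half_pos hη)
  rw [setIntegral_inter_cell hC] at hXle
  simp only [mul_one, one_mul] at hYle
  have hXc : ContDiff ℝ 1 fun x => X x j := (contDiff_piLp _).1 hX.smooth j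
  have hYc : ContDiff ℝ 1 fun x => Y x i := (contDiff_piLp _).1 hY.smooth i
  set W : R3 → R3 := fun x => (lam * X x j) • e j + (mu * Y x i) • e i with hW
  have hWc : ContDiff ℝ 1 W := ((contDiff_const.mul hXc).smul contDiff_const).add
    ((contDiff_const.mul hYc).smul contDiff_const)
  have hsq : lam ^ 2 + mu ^ 2 = 1 := by
    rw [hlam, hmu, div_pow, div_pow, one_pow, ← add_div, hH2, div_self (by positivity)]
  have hWt : IsTestField W := by
    refine ⟨hWc, fun l x => by simp only [hW, hX.periodic l x, hY.periodic l x], fun x => ?_⟩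
    have hWi : W x i = mu * Y x i := by simp [hW, e_self, e_ne (Ne.symm hij)]
    have hWj : W x j = lam * X x j := by simp [hW, e_self, e_ne hij]
    have hWk : W x k = 0 := by simp [hW, e_ne hik, e_ne hjk]
    have h1 : ‖W x‖ ^ 2 = (mu * Y x i) ^ 2 + (lam * X x j) ^ 2 := by
      rw [EuclideanSpace.norm_sq_eq, three_sum hij hik hjk, hWi, hWj, hWk]
      simp only [Real.norm_eq_abs, sq_abs]
      ring
    have a1 : |X x j| ≤ 1 :=
      (PiLp.norm_apply_le (X x) j).trans (hX.norm_le x) |>.trans_eq rfl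
    have a2 : |Y x i| ≤ 1 :=
      (PiLp.norm_apply_le (Y x) i).trans (hY.norm_le x) |>.trans_eq rfl
    rw [abs_le] at a1 a2
    nlinarith [norm_nonneg (W x),
      mul_le_mul_of_nonneg_left (show X x j ^ 2 ≤ 1 by nlinarith) (sq_nonneg lam),
      mul_le_mul_of_nonneg_left (show Y x i ^ 2 ≤ 1 by nlinarith) (sq_nonneg mu)]
  have hWd : ∀ x, dv W x = lam * fderiv ℝ (fun y => X y j) x (e j)
      + mu * fderiv ℝ (fun y => Y y i) x (e i) := fun x => by
    have d := (((hXc.differentiable one_ne_zero x).hasFDerivAt.const_mul lam).smul_const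
      (e j)).add (((hYc.differentiable one_ne_zero x).hasFDerivAt.const_mul mu).smul_const (e i))
    have h6 : fderiv ℝ W x = _ := d.fderiv
    simp only [dv, h6, three_sum hij hik hjk]
    simp [e_self, e_ne hij, e_ne hik, e_ne hij.symm, e_ne hjk]
    ring
  have hXd : ∀ x, dv X x = fderiv ℝ (fun y => X y j) x (e j) + fderiv ℝ (fun y => X y k) x (e k) :=
    fun x => by
    have h0 : fderiv ℝ (fun y => X y i) x (e i) = 0 := by
      rw [show (fun y => X y i) = fun _ => (0 : ℝ) from funext hXi]; simp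
    simp only [fderiv_coord hX.smooth] at h0 ⊢
    simp only [dv, three_sum hij hik hjk, h0, zero_add]
  have hYd : ∀ x, dv Y x = fderiv ℝ (fun y => Y y i) x (e i) + fderiv ℝ (fun y => Y y k) x (e k) :=
    fun x => by
    have h0 : fderiv ℝ (fun y => Y y j) x (e j) = 0 := by
      rw [show (fun y => Y y j) = fun _ => (0 : ℝ) from funext hYj]; simp
    simp only [fderiv_coord hY.smooth] at h0 ⊢
    simp only [dv, three_sum hij hik hjk, h0, add_zero]
  have ii : ∀ {g : R3 → ℝ}, Continuous g → IntegrableOn (fun x => ind C x * g x) cell :=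
    fun hg => integrable_cell_mul (measurable_ind hC) (abs_ind_le C) hg
  have cd : ∀ {f : R3 → ℝ}, ContDiff ℝ 1 f → ∀ v, Continuous fun x => fderiv ℝ f x v :=
    fun hf v => (hf.continuous_fderiv one_ne_zero).clm_apply continuous_const
  have drop : ∀ {Z : R3 → R3} {l : Fin 3}, IsTestField Z →
      (∀ x, dv Z x = fderiv ℝ (fun y => Z y l) x (e l) + fderiv ℝ (fun y => Z y k) x (e k)) →
      ∫ x in cell, ind C x * dv Z x
        = ∫ x in cell, ind C x * fderiv ℝ (fun y => Z y l) x (e l) := fun {Z l} hZ hd => by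
    have hl : ContDiff ℝ 1 fun y => Z y l := (contDiff_piLp _).1 hZ.smooth l
    have hkk : ContDiff ℝ 1 fun y => Z y k := (contDiff_piLp _).1 hZ.smooth k
    simp only [hd, mul_add]
    rw [integral_add (ii (cd hl _)) (ii (cd hkk _)),
      setIntegral_fderiv_inv hC hp hk hkk (fun m x => by rw [hZ.periodic m x]), add_zero]
  have eX := drop hX hXd
  have eY := drop hY hYd
  have hle := (setIntegral_dv_le_per (ne_top_of_le_ne_top ENNReal.ofReal_ne_top hP) hWt).trans
    (ENNReal.toReal_le_of_le_ofReal hP0 hP)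
  rw [setIntegral_inter_cell hC] at hle
  have eW : ∫ x in cell, ind C x * dv W x = lam * (∫ x in cell, ind C x * dv X x)
      + mu * ∫ x in cell, ind C x * dv Y x := by
    rw [eX, eY, ← integral_const_mul, ← integral_const_mul,
      ← integral_add ((ii (cd hXc _)).const_mul _) ((ii (cd hYc _)).const_mul _)]
    exact setIntegral_congr_fun measurableSet_cell fun x _ => by simp only [hWd]; ring
  simp only [ind] at eW hYle
  have hl0 : 0 ≤ lam := by positivity
  have hm0 : 0 ≤ mu := by positivity
  have hl1 : lam ≤ 1 := by nlinarith [sq_nonneg mu]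
  have hm1 : mu ≤ 1 := by nlinarith [sq_nonneg lam]
  have eH : 2 * H = lam * 2 + mu * (2 * V) := by
    rw [hlam, hmu]; field_simp; rw [hH2]
  linarith [mul_le_mul_of_nonneg_left hXle hl0,
    mul_le_mul_of_nonneg_left ((sub_le_sub_right hoV (η / 2)).trans hYle) hm0,
    mul_le_mul_of_nonneg_right hl1 (half_pos hη).le,
    mul_le_mul_of_nonneg_right hm1 (half_pos hη).le]

include hij hik hjk hC hp hk in
/-- **The planar bound up to area `π/9`, without full lines.** -/
theorem per_ge_of_lines (hprof : 2 ≤ profile (1 / Real.pi)) {V : ℝ}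
    (hV : ∫ x in cell, ind C x = V) (hV9 : V ≤ Real.pi / 9)
    (hi1 : ∀ᵐ s ∂volume.restrict (Ioc (0 : ℝ) 1), sliceVol C i s ≠ 1)
    (hj1 : ∀ᵐ s ∂volume.restrict (Ioc (0 : ℝ) 1), sliceVol C j s ≠ 1) :
    ENNReal.ofReal (2 * Real.sqrt (Real.pi * V)) ≤ per C := by
  rcases le_or_gt V (1 / Real.pi) with h | h
  · exact per_ge_of_inv hC hp hk hV h
  by_cases hfin : per C = ⊤
  · simp [hfin]
  have hP := (ENNReal.ofReal_toReal hfin).ge
  have hsq : Real.sqrt (Real.pi * V) ≤ Real.sqrt (1 + V ^ 2) := by
    refine Real.sqrt_le_sqrt ?_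
    nlinarith [Real.pi_lt_d4, Real.pi_gt_d4, mul_le_mul_of_nonneg_left hV9 Real.pi_pos.le,
      mul_nonneg (sub_nonneg.2 hV9) (show (0 : ℝ) ≤ 8 / 9 * Real.pi - V by
        linarith [Real.pi_gt_three])]
  calc ENNReal.ofReal (2 * Real.sqrt (Real.pi * V)) ≤ ENNReal.ofReal (per C).toReal := by
        refine ENNReal.ofReal_le_ofReal ?_
        by_cases gi : ∀ᵐ s ∂volume.restrict (Ioc (0 : ℝ) 1), sliceVol C i s ≠ 0
        · linarith [hypot_le_of_full_projection hij hik hjk hC hp hk ENNReal.toReal_nonneg hP hV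
            gi hi1 hj1]
        by_cases gj : ∀ᵐ s ∂volume.restrict (Ioc (0 : ℝ) 1), sliceVol C j s ≠ 0
        · linarith [hypot_le_of_full_projection (Ne.symm hij) hjk hik hC hp hk
            ENNReal.toReal_nonneg hP hV gj hj1 hi1]
        exact sqrt_le_of_gaps hij hik hjk hC hp hk hprof ENNReal.toReal_nonneg hP hV h gi gj
    _ = per C := ENNReal.ofReal_toReal hfin

end lines

/-- The slice areas of a set without full lines and with slices of area at most `π/9` satisfy
the test inequality with weight `2 √(π f)`. -/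
theorem testBound_slices (hprof : 2 ≤ profile (1 / Real.pi)) {E : Set R3} (hE : MeasurableSet E)
    (hp : IsPeriodicSet E) (k : Fin 3)
    (hlines : ∀ i, i ≠ k → ∀ᵐ s ∂volume.restrict (Ioc (0 : ℝ) 1),
      ∀ᵐ t ∂volume.restrict (Ioc (0 : ℝ) 1), sliceVol (sliceCyl E k s) i t ≠ 1)
    (hsmall : ∀ᵐ s ∂volume.restrict (Ioc (0 : ℝ) 1), sliceVol E k s ≤ Real.pi / 9)
    {P : ℝ} (hP0 : 0 ≤ P) (hP : per E ≤ ENNReal.ofReal P) :
    TestBound (sliceVol E k) (fun s => 2 * Real.sqrt (Real.pi * sliceVol E k s)) P := by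
  obtain ⟨i, j, hij, hik, hjk⟩ : ∃ i j : Fin 3, i ≠ j ∧ i ≠ k ∧ j ≠ k := by
    fin_cases k <;> decide
  refine testBound_of_slices hE hp k (K := 2 * Real.sqrt (Real.pi * 1))
    ((Real.continuous_sqrt.measurable.comp
      ((measurable_sliceVol hE k).const_mul _)).const_mul 2)
    (fun s => mul_nonneg zero_le_two (Real.sqrt_nonneg _)) (fun s => mul_le_mul_of_nonneg_left
      (Real.sqrt_le_sqrt (mul_le_mul_of_nonneg_left (sliceVol_mem E k s).2 Real.pi_nonneg))
      zero_le_two) ?_ hP0 hP
  filter_upwards [hlines i hik, hlines j hjk, hsmall] with s hi hj hs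
  exact per_ge_of_lines hij hik hjk (measurableSet_sliceCyl hE k s)
    (isPeriodicSet_sliceCyl hp k s) (invAlong_sliceCyl E k s) hprof rfl hs hi hj

end Vale.Agent.P232
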