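import Vale.Agent.P232.InteriorEq
import Vale.Agent.P232.Uniq.Majorise
import Vale.Agent.P232.Uniq.PlanarLines
import Vale.Agent.P232.Uniq.BallShape
import Vale.Agent.P232.Uniq.Ball.Ball
import Vale.Agent.P232.Uniq.Ball.DiscLine

/-!
Every minimiser of volume below `1/π` is a ball or a tube.
-/

open MeasureTheory Set Filter Function Real
open scoped ENNReal Topology

namespace Vale.Agent.P232

open Cylinder

lemma integral_sliceVol {E : Set R3} (hE : MeasurableSet E) (hp : IsPeriodicSet E) (k : Fin 3) :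
    ∫ s in (0 : ℝ)..1, sliceVol E k s = ∫ x in cell, ind E x := by
  rw [intervalIntegral.integral_of_le zero_le_one,
    ← setIntegral_toSlice (measurable_ind hE) (abs_ind_le E) (isPer_ind hp) k]
  simp only [sliceVol, ind_sliceCyl]

variable {C : Set R3} {i j k : Fin 3} {P : ℝ}

/-- Slices of an invariant set that are mixed almost everywhere cost two. -/
lemma two_le_of_mixed (hij : i ≠ j) (hik : i ≠ k) (hjk : j ≠ k) (hC : MeasurableSet C)
    (hp : IsPeriodicSet C) (hk : InvAlong C k) (hP0 : 0 ≤ P) (hP : per C ≤ ENNReal.ofReal P)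
    (h : ∀ᵐ s ∂volume.restrict (Ioc (0 : ℝ) 1), sliceVol C i s ≠ 0 ∧ sliceVol C i s ≠ 1) :
    2 ≤ P := by
  have ht := testBound_of_slices hC hp i (c := fun _ => 2) (K := 2) measurable_const
    (fun _ => zero_le_two) (fun _ => le_rfl) (by
      filter_upwards [h] with s hs
      have hmem := sliceVol_mem C i s
      rw [show ENNReal.ofReal 2 = 2 by simp]
      exact (line_core hik hij (Ne.symm hjk) (measurableSet_sliceCyl hC i s)
        (isPeriodicSet_sliceCyl hp i s) (invAlong_sliceCyl C i s) (hk.sliceCyl i s) rfl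
        (lt_of_le_of_ne hmem.1 (Ne.symm hs.1)) (lt_of_le_of_ne hmem.2 hs.2)).1) hP0 hP
  simpa using ht (fun _ => 0) contDiff_const (fun _ => rfl) (fun _ => by simp)

/-- The test inequality for the lines of an invariant set without full lines. -/
lemma testBound_lines (hij : i ≠ j) (hik : i ≠ k) (hjk : j ≠ k) (hC : MeasurableSet C)
    (hp : IsPeriodicSet C) (hk : InvAlong C k) (hP0 : 0 ≤ P) (hP : per C ≤ ENNReal.ofReal P)
    (hone : ∀ᵐ s ∂volume.restrict (Ioc (0 : ℝ) 1), sliceVol C i s ≠ 1) :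
    TestBound (sliceVol C i) (fun s => 2 * occ (sliceVol C i) s) P := by
  refine testBound_of_slices hC hp i (K := 2)
    ((measurable_occ (measurable_sliceVol hC i)).const_mul 2)
    (fun s => mul_nonneg zero_le_two (occ_mem _ s).1)
    (fun s => by linarith [(occ_mem (sliceVol C i) s).2]) ?_ hP0 hP
  filter_upwards [hone] with s hs
  by_cases a : sliceVol C i s = 0
  · simp [occ, a]
  have hmem := sliceVol_mem C i s
  rw [occ, if_neg a, mul_one, show ENNReal.ofReal 2 = 2 by simp]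
  exact (line_core hik hij (Ne.symm hjk) (measurableSet_sliceCyl hC i s)
    (isPeriodicSet_sliceCyl hp i s) (invAlong_sliceCyl C i s) (hk.sliceCyl i s) rfl
    (lt_of_le_of_ne hmem.1 (Ne.symm a)) (lt_of_le_of_ne hmem.2 hs)).1

/-- Invariant sets of area below `1/π` attaining the perimeter of the disc are tubes. -/
theorem tube_of_invAlong (hprof : 2 ≤ profile (1 / π)) (hC : MeasurableSet C)
    (hp : IsPeriodicSet C) (hk : InvAlong C k) {V : ℝ} (hV : ∫ x in cell, ind C x = V) (h0 : 0 < V)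
    (h1 : V < 1 / π) (hP : per C ≤ ENNReal.ofReal (2 * Real.sqrt (π * V))) :
    ∃ c r, 0 < r ∧ r < 1 / 2 ∧ AEEq C (tube k c r) := by
  set r := Real.sqrt (V / π) with hr
  have hr0 : 0 < r := Real.sqrt_pos.2 (by positivity)
  have hr2 : r ^ 2 = V / π := Real.sq_sqrt (by positivity)
  have hVr : V = π * r ^ 2 := by rw [hr2]; field_simp
  have hsq : Real.sqrt (π * V) = π * r := by
    rw [hVr, show π * (π * r ^ 2) = (π * r) ^ 2 by ring, Real.sqrt_sq (by positivity)]
  have hr1 : π * r < 1 := by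
    rw [← hsq, Real.sqrt_lt' one_pos, one_pow]
    rw [lt_div_iff₀ Real.pi_pos] at h1
    linarith
  rw [hsq] at hP
  have hP0 : 0 ≤ 2 * (π * r) := by positivity
  have hP2 : per C ≤ 2 := hP.trans
    ((ENNReal.ofReal_le_ofReal (show 2 * (π * r) ≤ 2 by linarith)).trans (by simp))
  obtain ⟨i, hik, -⟩ := exists_ne_two k k
  obtain ⟨j, hjk, hji⟩ := exists_ne_two k i
  have hij := Ne.symm hji
  have mi : ¬ ∀ᵐ s ∂volume.restrict (Ioc (0 : ℝ) 1), sliceVol C i s ≠ 0 ∧ sliceVol C i s ≠ 1 :=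
    fun h => by linarith [two_le_of_mixed hij hik hjk hC hp hk hP0 hP h]
  have mj : ¬ ∀ᵐ s ∂volume.restrict (Ioc (0 : ℝ) 1), sliceVol C j s ≠ 0 ∧ sliceVol C j s ≠ 1 :=
    fun h => by linarith [two_le_of_mixed hji hjk hik hC hp hk hP0 hP h]
  rw [eventually_and, not_and_or] at mi mj
  have hc : ∀ l, (¬ ∀ᵐ s ∂volume.restrict (Ioc (0 : ℝ) 1), sliceVol C l s ≠ 1) →
      ¬ ∀ᵐ s ∂volume.restrict (Ioc (0 : ℝ) 1), sliceVol Cᶜ l s ≠ 0 := fun l hl h =>
    hl (h.mono fun s hs he => hs (by rw [sliceVol_compl hC, he, sub_self]))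
  rcases mi with ei | fi <;> rcases mj with ej | fj
  · have key : ∀ {a b : Fin 3}, a ≠ b → a ≠ k → b ≠ k →
        (¬ ∀ᵐ s ∂volume.restrict (Ioc (0 : ℝ) 1), sliceVol C b s ≠ 0) →
        ∃ c, ∀ᵐ s ∂volume.restrict (Ioc (0 : ℝ) 1),
          sliceVol C a s = 2 * Real.sqrt (r ^ 2 - dnear (s - c) ^ 2) := by
      intro a b hab hak hbk hg
      obtain ⟨c, hc⟩ := BallUniq.disc_profile (measurable_sliceVol hC a) (periodic_sliceVol hp a)
        (sliceVol_mem C a) hr0 hr1 (by rw [integral_sliceVol hC hp a, hV, hVr])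
        (testBound_lines hab hak hbk hC hp hk hP0 hP (sliceVol_ne_one_of_gap hC hp hab hg))
        (le_of_eq (by ring))
      exact ⟨c, ae_restrict_of_ae hc⟩
    obtain ⟨a, ha⟩ := key hij hik hjk ej
    obtain ⟨b, hb⟩ := key hji hjk hik ei
    have hrh : r < 1 / 2 := by nlinarith [Real.pi_gt_three]
    exact ⟨_, r, hr0, hrh, aeEq_tube_of_slices hij hik hjk hC hp hr0.le hrh.le ha hb⟩
  · exact absurd (sliceVol_ne_one_of_gap hC hp hji ei) fj
  · exact absurd (sliceVol_ne_one_of_gap hC hp hij ej) fi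
  · exact (no_double_gap hij hik hjk hC.compl hp.compl hk.compl ((per_compl hC).le.trans hP2)
      ((integral_ind_compl hC).trans (by rw [hV])) (by linarith [inv_pi_le_half]) hprof (hc i fi)
      (hc j fj)).elim

/-- A minimiser with slices of one area is a tube. -/
theorem tube_of_const_slices (hprof : 2 ≤ profile (1 / π)) {E : Set R3} (hE : MeasurableSet E)
    (hp : IsPeriodicSet E) {V : ℝ} (hV : ∫ x in cell, ind E x = V) (h0 : 0 < V) (h1 : V < 1 / π)
    (hP : per E ≤ ENNReal.ofReal (2 * Real.sqrt (π * V)))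
    (hs : ∀ᵐ s ∂volume.restrict (Ioc (0 : ℝ) 1), sliceVol E k s = V) :
    ∃ S, IsShape S ∧ AEEq E S := by
  have hper : ∀ᵐ s ∂volume.restrict (Ioc (0 : ℝ) 1),
      ENNReal.ofReal (2 * Real.sqrt (π * V)) ≤ per (sliceCyl E k s) :=
    hs.mono fun s h => per_ge_of_inv (measurableSet_sliceCyl hE k s)
      (isPeriodicSet_sliceCyl hp k s) (invAlong_sliceCyl E k s) h h1.le
  have h2 : 2 * Real.sqrt (π * V) ≤ 2 := by linarith [sqrt_le_one_of_le h1.le]
  obtain ⟨C, hC, hCp, hCk, hEC⟩ := exists_invAlong_of hE hp k (by positivity) h2 hP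
    fun η hη => exists_field_of_slices hE hp k hper hη
  obtain ⟨c, r, hr0, hr, h⟩ := tube_of_invAlong hprof hC hCp hCk
    ((integral_congr_ae hEC.ind.symm).trans hV) h0 h1 ((hEC.per_eq hE hC).symm.le.trans hP)
  exact ⟨_, Or.inr (Or.inl ⟨k, c, r, hr0, hr, rfl⟩), hEC.trans h⟩

/-- **Every minimiser of volume below `1/π` is a ball or a tube.** -/
theorem lowShapes (hcrux : CruxBound) : LowShapes := by
  intro E V hE hp hv h0 h1 hP
  have hprof : 2 ≤ profile (1 / π) := by
    rw [profile_eq_of_crux hcrux (by positivity) (by linarith [inv_pi_le_half]), profileJ_inv_pi]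
    simp
  rw [profileJ_eq_ballTube h1.le] at hP
  have hP0 : 0 ≤ 2 * ballTube V := by linarith [ballTube_pos h0]
  have hV := integral_ind_of_vol hE h0.le hv
  obtain ⟨D, hD, hdown, hvol, hrel, hA⟩ := exists_downset_energy hE hp hP0 hP h0.le hv
  rw [show 2 * ballTube V / 2 = ballTube V by ring] at hrel
  have htube : ∀ {k : Fin 3}, (∀ᵐ s ∂volume.restrict (Ioc (0 : ℝ) 1), sliceVol E k s = V) →
      ∃ S, IsShape S ∧ AEEq E S := fun hs =>
    tube_of_const_slices hprof hE hp hV h0 h1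
      (hP.trans (ENNReal.ofReal_le_ofReal (mul_le_mul_of_nonneg_left (min_le_right _ _)
        zero_le_two))) hs
  rcases faces_of_eq hcrux hD hdown hrel (hvol.symm ▸ h0) (hvol.symm ▸ h1) (by rw [hvol]) with
    ⟨hb, hf⟩ | ⟨-, k, hk⟩
  swap
  · rw [hvol] at hk
    exact htube (const_slices_of_face hE hp h0.le hv hD hdown hvol hk (hA _ isGauge_sq k).1)
  rw [hvol] at hb
  obtain ⟨w, hw0, hw, hs⟩ := sliceArea_eq_ballArea hD hdown hrel (hvol.symm ▸ h0) (hvol.symm ▸ hb)
    (by rw [hvol]) hf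
  rw [hvol] at hw
  have hw9 : w ^ 2 ≤ π / 9 := by
    set p := Real.sqrt π with hpdef
    have hp2 : p ^ 2 = π := Real.sq_sqrt Real.pi_nonneg
    have hpb := mul_le_mul_of_nonneg_left hb (Real.sqrt_nonneg π)
    rw [← hpdef] at hpb
    have h3 : w ^ 3 ≤ (p / 3) ^ 3 := by
      rw [show (p / 3) ^ 3 = p * p ^ 2 / 27 by ring, hp2]; linarith
    have := pow_le_pow_left₀ hw0.le (le_of_pow_le_pow_left₀ three_ne_zero (by positivity) h3) 2
    rw [div_pow, hp2] at this
    linarith
  have htb : ∀ k, TestBound (sliceVol E k) (fun s => 2 * Real.sqrt (π * sliceVol E k s))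
      (2 * ballTube V) := fun k => by
    refine testBound_slices hprof hE hp k (fun i hik => ?_) ((slices_le_of_ball hE hD hdown (hs k)
      (hA _ (isGauge_excess _) k).1).mono fun s h => h.trans hw9) hP0 hP
    obtain ⟨j, hjk, hji⟩ := exists_ne_two k i
    filter_upwards [lines_le_of_ball hE hD hdown (Ne.symm hji) hik hjk (hs j) (ℓ := 2 / 3)
      (by norm_num) (by linarith) ((hA _ (isGauge_excess _) k).2 i hik)] with s h
    exact h.mono fun t ht => by linarith [ht, show sliceVol (sliceCyl E k s) i t ≤ 2 / 3 from ht]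
  have hball : ∀ k, (∃ c r, 0 < r ∧ r ≤ 1 / 2 ∧ V = 4 / 3 * π * r ^ 3 ∧
      ∀ᵐ s : ℝ, sliceVol E k s = π * max 0 (r ^ 2 - dnear (s - c) ^ 2)) ∨
      (V = 4 * π / 81 ∧ ∀ᵐ s : ℝ, sliceVol E k s = 4 * π / 81) := fun k => by
    have e := (integral_sliceVol hE hp k).trans hV
    have h := BallUniq.ball_profile (measurable_sliceVol hE k) (periodic_sliceVol hp k)
      (sliceVol_mem E k) (e.symm ▸ h0) (e.symm ▸ hb) (htb k) (by rw [e])
    rwa [e] at h
  by_cases hc : ∃ k, ∀ᵐ s ∂volume.restrict (Ioc (0 : ℝ) 1), sliceVol E k s = V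
  · obtain ⟨k, hk⟩ := hc
    exact htube hk
  rw [not_exists] at hc
  choose c r hr0 hr hrv hprofile using fun k => (hball k).resolve_right fun h =>
    hc k ((ae_restrict_of_ae h.2).mono fun s hs' => hs'.trans h.1.symm)
  have hrr : ∀ k, r k = r 0 := fun k => by
    have e : r k ^ 3 = r 0 ^ 3 :=
      mul_left_cancel₀ (show (4 / 3 * π : ℝ) ≠ 0 by positivity) ((hrv k).symm.trans (hrv 0))
    exact (pow_left_inj₀ (hr0 k).le (hr0 0).le three_ne_zero).1 e
  have hlt : r 0 < 1 / 2 := by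
    refine lt_of_le_of_lt (b := 1 / 3) (le_of_pow_le_pow_left₀ three_ne_zero (by norm_num) ?_)
      (by norm_num)
    refine le_of_mul_le_mul_left ?_ (show (0 : ℝ) < 4 / 3 * π by positivity)
    rw [← hrv 0]
    linarith
  refine ⟨_, Or.inl ⟨WithLp.toLp 2 c, r 0, hr0 0, hlt, rfl⟩,
    aeEq_ball_of_slices hE hp _ (hr0 0).le hlt.le fun k => ?_⟩
  filter_upwards [ae_restrict_of_ae (hprofile k)] with s hs'
  rw [hs', hrr k]

end Vale.Agent.P232
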