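import Vale.Agent.P232.Endgame
import Vale.Agent.P232.Uniq.Endpoint

/-!
The classification of all minimisers from the classification below volume `1/π` and the statement
about down-sets at the endpoint.
-/

open MeasureTheory Set Real
open scoped ENNReal

namespace Vale.Agent.P232

/-- The open ball of radius `r` around `c`, repeated periodically. -/
def ballSet (c : R3) (r : ℝ) : Set R3 :=
  {x | ∃ m : Fin 3 → ℤ, ∑ i, (x i - c i - m i) ^ 2 < r ^ 2}

/-- A ball, a tube around a coordinate circle, or a band between two coordinate tori. -/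
def IsShape (S : Set R3) : Prop :=
  (∃ c r, 0 < r ∧ r < 1 / 2 ∧ S = ballSet c r) ∨
    (∃ l c r, 0 < r ∧ r < 1 / 2 ∧ S = tube l c r) ∨
    ∃ k c w, 0 < w ∧ w < 1 ∧ S = band k c w

/-- The classification of the minimisers below volume `1/π`. -/
def LowShapes : Prop :=
  ∀ (E : Set R3) (V : ℝ), MeasurableSet E → IsPeriodicSet E → vol E = ENNReal.ofReal V →
    0 < V → V < 1 / π → per E ≤ ENNReal.ofReal (profileJ V) → ∃ S, IsShape S ∧ AEEq E S

lemma isShape_band_inv_pi (k : Fin 3) (c : ℝ) : IsShape (band k c (1 / π)) :=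
  Or.inr (Or.inr ⟨k, c, _, by positivity, by linarith [inv_pi_le_half], rfl⟩)

lemma isShape_tube_inv_pi (l : Fin 3) (c : R3) : IsShape (tube l c (1 / π)) :=
  Or.inr (Or.inl ⟨l, c, _, by positivity,
    one_div_lt_one_div_of_lt two_pos (by linarith [pi_gt_three]), rfl⟩)

/-- Minimisers of volume at most `1 - 1/π`, not less than `1/π`. -/
theorem shape_of_mid (hend : EndpointBound) {E : Set R3} {V : ℝ} (hE : MeasurableSet E)
    (hp : IsPeriodicSet E) (hv : vol E = ENNReal.ofReal V) (hlo : 1 / π ≤ V)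
    (hhi : V < 1 - 1 / π) (hP : per E ≤ ENNReal.ofReal (profileJ V)) :
    ∃ S, IsShape S ∧ AEEq E S := by
  have hc := cruxBound_of_endpoint hend
  have hpi : (0 : ℝ) < 1 / π := by positivity
  have hprof : 2 ≤ profile (1 / π) := by
    rw [profile_eq_of_crux hc hpi (by linarith [inv_pi_le_half]), profileJ_inv_pi]
    simp
  have hface : ∀ D : Set R3, MeasurableSet D → IsDownset D → RelPerLE D 1 →
      (volume D).toReal = 1 / π → ∃ k, faceArea D k = 1 / π :=
    fun D hD hdown hrel hvol => full_face_of_le_one hc hend hD hdown hrel hvol le_rfl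
  have hP2 : per E ≤ 2 := hP.trans ((ENNReal.ofReal_le_ofReal (profileJ_le_two V)).trans (by simp))
  rcases eq_or_lt_of_le hlo with h | h
  · rw [← h] at hv
    rcases endShape_of_faces hprof hface hE hp hv hP2 with ⟨k, c, hA⟩ | ⟨l, c, hA⟩
    · exact ⟨_, isShape_band_inv_pi k c, hA⟩
    · exact ⟨_, isShape_tube_inv_pi l c, hA⟩
  · obtain ⟨k, c, hA⟩ := band_of_faces hprof hface hE hp hv h hhi hP2
    exact ⟨_, Or.inr (Or.inr ⟨k, c, V, hpi.trans h, by linarith, rfl⟩), hA⟩

/-- **Every minimiser is a ball, a tube, a band or the complement of one of these.** -/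
theorem classification_of (hend : EndpointBound) (hlow : LowShapes) {E : Set R3} {V : ℝ}
    (h0 : 0 < V) (h1 : V < 1) (hE : MeasurableSet E) (hp : IsPeriodicSet E)
    (hv : vol E = ENNReal.ofReal V) (hmin : per E = profile V) :
    ∃ S, IsShape S ∧ (AEEq E S ∨ AEEq Eᶜ S) := by
  have hP : per E ≤ ENNReal.ofReal (profileJ V) := by
    rw [hmin, profile_eq_of_endpoint hend h0 h1]
  rcases lt_or_ge V (1 / π) with h | h
  · obtain ⟨S, hS, hES⟩ := hlow E V hE hp hv h0 h hP
    exact ⟨S, hS, Or.inl hES⟩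
  rcases lt_or_ge V (1 - 1 / π) with h' | h'
  · obtain ⟨S, hS, hES⟩ := shape_of_mid hend hE hp hv h h' hP
    exact ⟨S, hS, Or.inl hES⟩
  have hvc : vol Eᶜ = ENNReal.ofReal (1 - V) :=
    vol_of_integral_ind hE.compl (by rw [integral_ind_compl hE, integral_ind_of_vol hE h0.le hv])
  have hPc : per Eᶜ ≤ ENNReal.ofReal (profileJ (1 - V)) := by
    rw [per_compl hE, profileJ_symm]; exact hP
  rcases lt_or_ge (1 - V) (1 / π) with h'' | h''
  · obtain ⟨S, hS, hES⟩ := hlow Eᶜ (1 - V) hE.compl hp.compl hvc (by linarith) h'' hPc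
    exact ⟨S, hS, Or.inr hES⟩
  · obtain ⟨S, hS, hES⟩ := shape_of_mid hend hE.compl hp.compl hvc h''
      (by linarith [one_div_lt_one_div_of_lt two_pos (show (2 : ℝ) < π by linarith [pi_gt_three])])
      hPc
    exact ⟨S, hS, Or.inr hES⟩

end Vale.Agent.P232
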