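import Vale.Agent.P232.Uniq.Line
import Vale.Agent.P232.Uniq.Square

/-!
The one-dimensional test inequality for the line lengths of an invariant set of perimeter at most
two, with cuts at heights where the lines are empty in density.
-/

open MeasureTheory Set Filter
open scoped ENNReal Topology Interval

namespace Vale.Agent.P232

/-- The lines are empty in density at the height `a`. -/
def EmptyAt (f : ℝ → ℝ) (a : ℝ) : Prop :=
  Tendsto (fun n => (∫ s in (a - cutR n)..(a + cutR n), f s) / cutR n) atTop (𝓝 0)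

lemma EmptyAt.add_one {f : ℝ → ℝ} (hf : Function.Periodic f 1) {a : ℝ} (h : EmptyAt f a) :
    EmptyAt f (a + 1) := by
  refine h.congr fun n => ?_
  congr 1
  rw [show a + 1 - cutR n = a - cutR n + 1 by ring, show a + 1 + cutR n = a + cutR n + 1 by ring,
    ← intervalIntegral.integral_comp_add_right]
  exact intervalIntegral.integral_congr fun s _ => (hf s).symm

lemma ae_emptyAt {f : ℝ → ℝ} (hm : Measurable f) (h01 : ∀ s, f s ∈ Icc (0 : ℝ) 1) :
    ∀ᵐ t : ℝ, f t = 0 → EmptyAt f t := by
  have hloc : LocallyIntegrable f volume :=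
    (locallyIntegrable_const (1 : ℝ)).mono hm.aestronglyMeasurable
      (ae_of_all _ fun s => by
        simpa [abs_of_nonneg (h01 s).1] using (h01 s).2)
  filter_upwards [LocallyIntegrable.ae_hasDerivAt_integral hloc] with t ht h0
  have hd : HasDerivAt (fun x => ∫ u in (0 : ℝ)..x, f u) 0 t := h0 ▸ ht 0
  have hr : Tendsto cutR atTop (𝓝[>] 0) := tendsto_nhdsWithin_iff.2
    ⟨tendsto_cutR, Eventually.of_forall fun n => cutR_pos n⟩
  have hl : Tendsto (fun n => -cutR n) atTop (𝓝[<] 0) := tendsto_nhdsWithin_iff.2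
    ⟨by simpa using tendsto_cutR.neg, Eventually.of_forall fun n => neg_lt_zero.2 (cutR_pos n)⟩
  have key := (hd.tendsto_slope_zero_right.comp hr).add (hd.tendsto_slope_zero_left.comp hl)
  rw [add_zero] at key
  refine key.congr fun n => ?_
  have i : ∀ a b : ℝ, IntervalIntegrable f volume a b := fun a b =>
    intervalIntegrable_iff.2 ((hloc.integrableOn_isCompact isCompact_uIcc).mono_set uIoc_subset_uIcc)
  rw [← intervalIntegral.integral_interval_sub_left (i 0 (t + cutR n)) (i 0 (t - cutR n))]
  simp only [Function.comp_apply, smul_eq_mul]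
  have := cutR_pos n
  field_simp
  rw [sub_eq_add_neg t (cutR n)]
  ring

/-- The cost of a cut at an empty height. -/
lemma cut_error {f : ℝ → ℝ} (hm : Measurable f) (h01 : ∀ s, f s ∈ Icc (0 : ℝ) 1)
    (hp : Function.Periodic f 1) {A : ℝ} (hA0 : 0 ≤ A)
    (hA : ∀ n s, |deriv (cut n) s| ≤ A / cutR n ∧
      (|s| ≤ 1/2 → cutR n < |s| → deriv (cut n) s = 0)) (n : ℕ) (a q : ℝ) :
    ∫ s in q..(q + 1), f s * |deriv (cut n) (s - a)|
      ≤ A * ((∫ s in (a - cutR n)..(a + cutR n), f s) / cutR n) := by
  have hr := cutR_pos n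
  have hr4 := cutR_le n
  set G : ℝ → ℝ := fun s => f s * |deriv (cut n) (s - a)| with hG
  have hGp : Function.Periodic G 1 := fun s => by
    simp only [hG, hp s]
    congr 2
    rw [show s + 1 - a = s - a + 1 by ring, ← deriv_comp_add_const,
      show (fun u => cut n (u + 1)) = cut n from funext (cut_periodic n)]
  rw [hGp.intervalIntegral_add_eq q (a - 1/2)]
  have hdc : Continuous fun s => |deriv (cut n) (s - a)| :=
    (((contDiff_cut n).continuous_deriv le_rfl).comp (continuous_id.sub continuous_const)).abs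
  have hfi : ∀ u v : ℝ, IntervalIntegrable f volume u v := fun u v =>
    intervalIntegrable_const.mono_fun' (g := fun _ => (1 : ℝ)) hm.aestronglyMeasurable
      (ae_of_all _ fun s => by simpa [abs_of_nonneg (h01 s).1] using (h01 s).2)
  have hGi : ∀ u v : ℝ, IntervalIntegrable G volume u v := fun u v =>
    (hfi u v).mul_continuousOn hdc.continuousOn
  rw [← intervalIntegral.integral_add_adjacent_intervals (hGi (a - 1/2) (a - cutR n))
      (hGi (a - cutR n) _),
    ← intervalIntegral.integral_add_adjacent_intervals (hGi (a - cutR n) (a + cutR n))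
      (hGi (a + cutR n) _)]
  have hz : ∀ u v : ℝ, a - 1/2 ≤ u → v ≤ a + 1/2 → u ≤ v → (v ≤ a - cutR n ∨ a + cutR n ≤ u) →
      ∫ s in u..v, G s = 0 := by
    intro u v hu hv huv hside
    refine intervalIntegral.integral_zero_ae ?_
    have hne : ∀ᵐ s : ℝ, s ≠ a - cutR n :=
      measure_eq_zero_iff_ae_notMem.1 (measure_singleton _)
    filter_upwards [hne] with s hs hsI
    rw [uIoc_of_le huv] at hsI
    have : deriv (cut n) (s - a) = 0 := by
      refine (hA n _).2 (abs_le.2 ⟨by linarith [hsI.1], by linarith [hsI.2]⟩) ?_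
      rcases hside with h | h
      · have : s < a - cutR n := lt_of_le_of_ne (hsI.2.trans h) hs
        exact lt_of_lt_of_le (by linarith) (neg_le_abs _)
      · exact lt_of_lt_of_le (by linarith [hsI.1]) (le_abs_self _)
    simp [hG, this]
  rw [hz _ _ le_rfl (by linarith) (by linarith) (Or.inl le_rfl),
    hz (a + cutR n) (a - 1/2 + 1) (by linarith) (by linarith) (by linarith) (Or.inr le_rfl),
    zero_add, add_zero, ← mul_div_assoc, le_div_iff₀ hr, ← intervalIntegral.integral_mul_const,
    ← intervalIntegral.integral_const_mul]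
  refine intervalIntegral.integral_mono_on (by linarith) ((hGi _ _).mul_const _)
    ((hfi _ _).const_mul A) fun s _ => ?_
  calc G s * cutR n = f s * (|deriv (cut n) (s - a)| * cutR n) := mul_assoc _ _ _
    _ ≤ f s * A := mul_le_mul_of_nonneg_left ((le_div_iff₀ hr).1 (hA n _).1) (h01 s).1
    _ = A * f s := mul_comm _ _

/-- One where a line meets the set in positive length. -/
noncomputable def occ (f : ℝ → ℝ) (s : ℝ) : ℝ := if f s = 0 then 0 else 1

lemma occ_mem (f : ℝ → ℝ) (s : ℝ) : occ f s ∈ Icc (0 : ℝ) 1 := by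
  unfold occ; split_ifs <;> simp

lemma measurable_occ {f : ℝ → ℝ} (hm : Measurable f) : Measurable (occ f) :=
  Measurable.ite (hm (measurableSet_singleton 0)) measurable_const measurable_const

/-- The one-dimensional functional of a test function on an interval. -/
noncomputable def testVal (f : ℝ → ℝ) (A : ℝ → ℝ) (p q : ℝ) : ℝ :=
  ∫ s in p..q, (f s * deriv A s + 2 * (occ f s * Real.sqrt (1 - A s ^ 2)))

section field

variable {C : Set R3} {i j k : Fin 3} (hij : i ≠ j) (hik : i ≠ k) (hjk : j ≠ k)
  (hC : MeasurableSet C) (hp : IsPeriodicSet C) (hk : InvAlong C k) (hP : per C ≤ 2)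
  (hone : ∀ᵐ s ∂volume.restrict (Ioc (0 : ℝ) 1), sliceVol C i s ≠ 1)
include hij hik hjk hC hp hk hP hone

/-- The inequality for a periodic test function. -/
lemma periodic_test {α : ℝ → ℝ} (hα : ContDiff ℝ 1 α) (hαp : Function.Periodic α 1)
    (hαb : ∀ s, |α s| < 1) : testVal (sliceVol C i) α 0 1 ≤ 2 := by
  set l := sliceVol C i with hl
  set w : ℝ → ℝ := fun s => Real.sqrt (1 - α s ^ 2) with hw
  have hpos : ∀ s, 0 < 1 - α s ^ 2 := fun s => by
    have := abs_lt.1 (hαb s); nlinarith
  have hwd : ContDiff ℝ 1 w := (contDiff_const.sub (hα.pow 2)).sqrt fun s => (hpos s).ne'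
  have hwp : Function.Periodic w 1 := fun s => by simp only [hw, hαp s]
  have hw01 : ∀ s, w s ∈ Icc (0 : ℝ) 1 := fun s =>
    ⟨Real.sqrt_nonneg _, Real.sqrt_le_one.2 (by nlinarith [sq_nonneg (α s)])⟩
  set T : Set ℝ := {s | l s ≠ 0} with hT
  have hTm : MeasurableSet T := (measurable_sliceVol hC i (measurableSet_singleton 0)).compl
  have hsl : ∀ᵐ s ∂volume.restrict (Ioc (0 : ℝ) 1), s ∈ T →
      ENNReal.ofReal 2 ≤ per (sliceCyl C i s) := by
    filter_upwards [hone] with s hs hsT
    have hmem := sliceVol_mem C i s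
    rw [show ENNReal.ofReal 2 = 2 by simp]
    exact (line_core hik hij (Ne.symm hjk) (measurableSet_sliceCyl hC i s)
      (isPeriodicSet_sliceCyl hp i s) (invAlong_sliceCyl C i s) (hk.sliceCyl i s) rfl
      (lt_of_le_of_ne hmem.1 (Ne.symm hsT)) (lt_of_le_of_ne hmem.2 hs)).1
  refine le_of_forall_pos_le_add fun η hη => ?_
  obtain ⟨X, hX, hXi, hle⟩ := exists_field_of_slices_weighted hC hp i hTm hwd.continuous hwp hw01
    hsl hη
  set W : R3 → R3 := fun x => w (x i) • X x + α (x i) • e i with hW
  have hpi : ContDiff ℝ 1 fun x : R3 => x i := (EuclideanSpace.proj i : R3 →L[ℝ] ℝ).contDiff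
  have hWt : IsTestField W := by
    refine ⟨((hwd.comp hpi).smul hX.smooth).add ((hα.comp hpi).smul contDiff_const),
      fun l x => ?_, fun x => ?_⟩
    · simp only [hW, hX.periodic l x]
      by_cases a : l = i
      · subst a; simp only [PiLp.add_apply, e_self, hwp _, hαp _]
      · simp [e_ne a]
    · have h1 : ‖W x‖ ^ 2 = w (x i) ^ 2 * ‖X x‖ ^ 2 + α (x i) ^ 2 := by
        rw [EuclideanSpace.norm_sq_eq, EuclideanSpace.norm_sq_eq, three_sum hij hik hjk,
          three_sum hij hik hjk]
        simp [hW, e_self, e_ne hij, e_ne hik, e_ne hij.symm, e_ne hik.symm, hXi x]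
        simp only [mul_pow, sq_abs]
        ring
      have h2 : w (x i) ^ 2 = 1 - α (x i) ^ 2 := Real.sq_sqrt (hpos _).le
      have h3 : ‖X x‖ ^ 2 ≤ 1 := by nlinarith [hX.norm_le x, norm_nonneg (X x)]
      nlinarith [norm_nonneg (W x), mul_le_mul_of_nonneg_left h3 (sq_nonneg (w (x i)))]
  have hdv : ∀ x, dv W x = w (x i) * dv X x + deriv α (x i) := fun x => by
    set pr : R3 →L[ℝ] ℝ := EuclideanSpace.proj i with hpr
    have d1 : HasFDerivAt (fun y : R3 => w (pr y)) (deriv w (pr x) • pr) x :=
      (hwd.differentiable one_ne_zero _).hasDerivAt.comp_hasFDerivAt x pr.hasFDerivAt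
    have d2 : HasFDerivAt (fun y : R3 => α (pr y)) (deriv α (pr x) • pr) x :=
      (hα.differentiable one_ne_zero _).hasDerivAt.comp_hasFDerivAt x pr.hasFDerivAt
    have d3 := (d1.smul ((hX.smooth.differentiable one_ne_zero) x).hasFDerivAt).add
      (d2.smul_const (e i))
    have h6 : fderiv ℝ W x = _ := d3.fderiv
    simp only [dv, h6, three_sum hij hik hjk, hpr]
    simp [e_self, e_ne hij, e_ne hik, e_ne hij.symm, e_ne hik.symm, hXi x]
    ring
  have hfin : per C ≠ (⊤ : ℝ≥0∞) := ne_top_of_le_ne_top (by simp) hP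
  have hb := (setIntegral_dv_le_per hfin hWt).trans
    (show (per C).toReal ≤ 2 by simpa using ENNReal.toReal_mono (by simp) hP)
  rw [setIntegral_inter_cell hC] at hb
  have hdαc : Continuous fun x : R3 => deriv α (x i) :=
    (hα.continuous_deriv le_rfl).comp hpi.continuous
  have i1 := integrable_cell_mul (measurable_ind hC) (abs_ind_le C)
    (h := fun x => w (x i) * dv X x)
    ((hwd.continuous.comp hpi.continuous).mul (continuous_dv hX.smooth))
  have i2 := integrable_cell_mul (measurable_ind hC) (abs_ind_le C) hdαc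
  have hsum : ∫ x in cell, C.indicator 1 x * dv W x
      = (∫ x in cell, ind C x * (w (x i) * dv X x)) + ∫ x in cell, ind C x * deriv α (x i) := by
    rw [← integral_add i1 i2]
    exact setIntegral_congr_fun measurableSet_cell fun x _ => by simp only [hdv, ind]; ring
  have hdp : IsPer fun x : R3 => ind C x * deriv α (x i) := fun l x => by
    simp only [isPer_ind hp l x]
    by_cases a : l = i
    · subst a
      simp only [PiLp.add_apply, e_self]
      rw [← deriv_comp_add_const, show (fun u => α (u + 1)) = α from funext hαp]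
    · simp [e_ne a]
  obtain ⟨D, hD⟩ : ∃ D, ∀ x, |ind C x * deriv α (x i)| ≤ D := by
    have hdper : Function.Periodic (deriv α) 1 := fun s => by
      rw [← deriv_comp_add_const, show (fun u => α (u + 1)) = α from funext hαp]
    obtain ⟨D, hD⟩ := (hdper.compact_of_continuous one_ne_zero
      (hα.continuous_deriv le_rfl)).isBounded.exists_norm_le
    refine ⟨D, fun x => ?_⟩
    rw [abs_mul]
    exact (mul_le_of_le_one_left (abs_nonneg _) (abs_ind_le C x)).trans
      (hD _ (mem_range_self _))
  have hl2 : ∫ x in cell, ind C x * deriv α (x i) = ∫ s in Ioc (0 : ℝ) 1, l s * deriv α s := by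
    rw [← setIntegral_toSlice (h := fun x => ind C x * deriv α (x i))
      ((measurable_ind hC).mul hdαc.measurable) hD hdp i]
    refine setIntegral_congr_fun measurableSet_Ioc fun s _ => ?_
    simp only [toSlice_apply_self, Pi.mul_apply, integral_mul_const, hl, sliceVol, ind_sliceCyl]
  have hval : testVal l α 0 1 = (∫ s in Ioc (0 : ℝ) 1, l s * deriv α s)
      + 2 * ∫ s in T, w s ∂volume.restrict (Ioc (0 : ℝ) 1) := by
    rw [testVal, intervalIntegral.integral_of_le zero_le_one, ← integral_indicator hTm,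
      ← integral_const_mul, ← integral_add]
    · refine setIntegral_congr_fun measurableSet_Ioc fun s _ => ?_
      by_cases a : l s = 0
      · simp [hT, occ, a]
      · rw [indicator_of_mem (show s ∈ T from a)]; simp [occ, a, hw]
    · refine Integrable.mono' (integrable_const D) ((measurable_sliceVol hC i).mul
        (hα.continuous_deriv le_rfl).measurable).aestronglyMeasurable (ae_of_all _ fun s => ?_)
      simp only [Pi.mul_apply, hl, sliceVol, ind_sliceCyl, ← integral_mul_const]
      refine (norm_integral_le_of_norm_le_const (C := D) (ae_of_all _ fun x => ?_)).trans ?_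
      · have := hD (toSlice i s x)
        rwa [toSlice_apply_self] at this
      · simp [Measure.real, volume_cell]
    · exact ((Integrable.mono' (integrable_const (1 : ℝ)) hwd.continuous.aestronglyMeasurable
        (ae_of_all _ fun s => abs_le.2 ⟨by linarith [(hw01 s).1], (hw01 s).2⟩)).indicator
          hTm).const_mul 2
  rw [hsum, hl2] at hb
  linarith

/-- The inequality with two cuts at empty heights. -/
theorem cut_test {p a : ℝ} (hpa : p ≤ a) (hap : a ≤ p + 1)
    (hep : EmptyAt (sliceVol C i) p) (hea : EmptyAt (sliceVol C i) a) {A₁ A₂ : ℝ → ℝ}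
    (h1 : ContDiff ℝ 1 A₁) (h2 : ContDiff ℝ 1 A₂) (hb1 : ∀ s ∈ Icc p a, |A₁ s| ≤ 1)
    (hb2 : ∀ s ∈ Icc a (p + 1), |A₂ s| ≤ 1) :
    testVal (sliceVol C i) A₁ p a + testVal (sliceVol C i) A₂ a (p + 1) ≤ 2 := by
  set l := sliceVol C i with hl
  have hlm : Measurable l := measurable_sliceVol hC i
  have hlp : Function.Periodic l 1 := periodic_sliceVol hp i
  have hl01 : ∀ s, l s ∈ Icc (0 : ℝ) 1 := sliceVol_mem C i
  obtain ⟨A, hA0, hA⟩ := exists_deriv_cut_bound
  set ρ : ℕ → ℝ := fun n => 1 - cutR n with hρ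
  have hρ1 : ∀ n, 0 ≤ ρ n ∧ ρ n < 1 := fun n =>
    ⟨by linarith [cutR_le n], by linarith [cutR_pos n]⟩
  set χ : ℕ → ℝ → ℝ := fun n s => cut n (s - p) * cut n (s - a) with hχ
  have hχc : ∀ n, ContDiff ℝ 1 (χ n) := fun n =>
    ((contDiff_cut n).comp (contDiff_id.sub contDiff_const)).mul
      ((contDiff_cut n).comp (contDiff_id.sub contDiff_const))
  have hχ01 : ∀ n s, χ n s ∈ Icc (0 : ℝ) 1 := fun n s =>
    ⟨mul_nonneg (cut_mem n _).1 (cut_mem n _).1,
      mul_le_one₀ (cut_mem n _).2 (cut_mem n _).1 (cut_mem n _).2⟩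
  set pick : ℝ → ℝ := fun u => if u < a then A₁ u else A₂ u with hpick
  set α : ℕ → ℝ → ℝ := fun n s => ρ n * (χ n s * pick (p + Int.fract (s - p))) with hα
  have hαp : ∀ n, Function.Periodic (α n) 1 := fun n s => by
    simp only [hα, hχ, show s + 1 - p = s - p + 1 by ring, show s + 1 - a = s - a + 1 by ring,
      cut_periodic n _, Int.fract_add_one]
  have hpickb : ∀ s, |pick (p + Int.fract (s - p))| ≤ 1 := fun s => by
    have h0 := Int.fract_nonneg (s - p)
    have h1' := Int.fract_lt_one (s - p)
    simp only [hpick]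
    split_ifs with h
    · exact hb1 _ ⟨by linarith, h.le⟩
    · exact hb2 _ ⟨not_lt.1 h, by linarith⟩
  have hαb : ∀ n s, |α n s| < 1 := fun n s => by
    rw [hα, abs_mul, abs_of_nonneg (hρ1 n).1, abs_mul, abs_of_nonneg (hχ01 n s).1]
    exact lt_of_le_of_lt (mul_le_of_le_one_right (hρ1 n).1
      (mul_le_one₀ (hχ01 n s).2 (abs_nonneg _) (hpickb s))) (hρ1 n).2
  -- the local form
  have hloc1 : ∀ n, ∀ s ∈ Ioo p a, α n =ᶠ[𝓝 s] fun u => ρ n * (χ n u * A₁ u) := fun n s hs => by
    filter_upwards [Ioo_mem_nhds hs.1 hs.2] with u hu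
    have : Int.fract (u - p) = u - p :=
      Int.fract_eq_self.2 ⟨by linarith [hu.1], by linarith [hu.2]⟩
    simp [hα, hpick, this, hu.2]
  have hloc2 : ∀ n, ∀ s ∈ Ioo a (p + 1), α n =ᶠ[𝓝 s] fun u => ρ n * (χ n u * A₂ u) :=
    fun n s hs => by
    filter_upwards [Ioo_mem_nhds hs.1 hs.2] with u hu
    have : Int.fract (u - p) = u - p :=
      Int.fract_eq_self.2 ⟨by linarith [hu.1], by linarith [hu.2]⟩
    simp [hα, hpick, this, not_lt.2 hu.1.le]
  have hαc : ∀ n, ContDiff ℝ 1 (α n) := fun n => by
    have zero : ∀ b s, Int.fract (s - b) = 0 → ∀ᶠ u in 𝓝 s, cut n (u - b) = 0 := fun b s h0 => by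
      have hs : s - b = (⌊s - b⌋ : ℝ) := by linarith [Int.floor_add_fract (s - b)]
      have ev : ∀ᶠ u in 𝓝 (s - b), cut n u = 0 := hs ▸ cut_eventually_zero n ⌊s - b⌋
      exact (continuous_id.sub continuous_const).continuousAt.eventually ev
    refine contDiff_iff_contDiffAt.2 fun s => ?_
    by_cases z1 : Int.fract (s - p) = 0
    · exact (contDiffAt_const (c := (0 : ℝ))).congr_of_eventuallyEq
        ((zero p s z1).mono fun u hu => by simp [hα, hχ, hu])
    by_cases z2 : Int.fract (s - a) = 0
    · exact (contDiffAt_const (c := (0 : ℝ))).congr_of_eventuallyEq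
        ((zero a s z2).mono fun u hu => by simp [hα, hχ, hu])
    set m : ℤ := ⌊s - p⌋
    have hu0 : 0 < s - p - m := by
      rw [Int.self_sub_floor]
      exact lt_of_le_of_ne (Int.fract_nonneg _) (Ne.symm z1)
    have hu1 : s - p - m < 1 := by rw [Int.self_sub_floor]; exact Int.fract_lt_one _
    have hne : s - m ≠ a := fun h => z2 <| by
      rw [show s - a = (m : ℝ) by linarith]; exact Int.fract_intCast m
    have hfr : ∀ᶠ u in 𝓝 s, p + Int.fract (u - p) = u - m := by
      filter_upwards [Ioo_mem_nhds (show p + (m : ℝ) < s by linarith)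
        (show s < p + m + 1 by linarith)] with u hu
      have : ⌊u - p⌋ = m := Int.floor_eq_iff.2 ⟨by linarith [hu.1], by linarith [hu.2]⟩
      rw [← Int.self_sub_floor, this]; ring
    rcases lt_or_gt_of_ne hne with h | h
    · refine ((contDiff_const.mul ((hχc n).mul
        (h1.comp (contDiff_id.sub contDiff_const)))).contDiffAt).congr_of_eventuallyEq (f := fun u =>
          ρ n * (χ n u * A₁ (u - m))) ?_
      filter_upwards [hfr, eventually_lt_nhds (show s < a + m by linarith)] with u hu hlt
      simp [hα, hpick, hu, show u - (m : ℝ) < a by linarith]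
    · refine ((contDiff_const.mul ((hχc n).mul
        (h2.comp (contDiff_id.sub contDiff_const)))).contDiffAt).congr_of_eventuallyEq (f := fun u =>
          ρ n * (χ n u * A₂ (u - m))) ?_
      filter_upwards [hfr, eventually_gt_nhds (show a + m < s by linarith)] with u hu hlt
      simp [hα, hpick, hu, show ¬ u - (m : ℝ) < a by linarith]
  have iI : ∀ {g : ℝ → ℝ}, Continuous g → ∀ u v, IntervalIntegrable (fun s => l s * g s)
      volume u v := fun hg u v =>
    (intervalIntegrable_const.mono_fun' (g := fun _ => (1 : ℝ)) hlm.aestronglyMeasurable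
      (ae_of_all _ fun s => by simpa [abs_of_nonneg (hl01 s).1] using (hl01 s).2)).mul_continuousOn
      hg.continuousOn
  have iO : ∀ {g : ℝ → ℝ}, Continuous g → ∀ u v, IntervalIntegrable (fun s => occ l s * g s)
      volume u v := fun hg u v =>
    (intervalIntegrable_const.mono_fun' (g := fun _ => (1 : ℝ))
      (measurable_occ hlm).aestronglyMeasurable
      (ae_of_all _ fun s => by
        simpa [abs_of_nonneg (occ_mem l s).1] using (occ_mem l s).2)).mul_continuousOn
      hg.continuousOn
  -- the approximate values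
  set F : ℕ → (ℝ → ℝ) → ℝ → ℝ := fun n B s => l s * (ρ n * (χ n s * deriv B s))
    + 2 * (occ l s * Real.sqrt (1 - (ρ n * (χ n s * B s)) ^ 2)) with hF
  have hFi : ∀ n B, ContDiff ℝ 1 B → ∀ u v, IntervalIntegrable (F n B) volume u v :=
    fun n B hB u v => (iI (continuous_const.mul ((hχc n).continuous.mul
      (hB.continuous_deriv le_rfl))) u v).add ((iO (continuous_const.sub ((continuous_const.mul
      ((hχc n).continuous.mul hB.continuous)).pow 2)).sqrt u v).const_mul 2)
  have hEc : ∀ n b, Continuous fun s => |deriv (cut n) (s - b)| := fun n b =>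
    (((contDiff_cut n).continuous_deriv le_rfl).comp (continuous_id.sub continuous_const)).abs
  set G : ℕ → ℝ → ℝ := fun n s => l s * deriv (α n) s
    + 2 * (occ l s * Real.sqrt (1 - α n s ^ 2)) + (l s * |deriv (cut n) (s - p)|
      + l s * |deriv (cut n) (s - a)|) with hG
  have hGi : ∀ n u v, IntervalIntegrable (G n) volume u v := fun n u v =>
    ((iI ((hαc n).continuous_deriv le_rfl) u v).add ((iO
      (continuous_const.sub ((hαc n).continuous.pow 2)).sqrt u v).const_mul 2)).add
      ((iI (hEc n p) u v).add (iI (hEc n a) u v))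
  have hpiece : ∀ n, ∀ (u v : ℝ) (B : ℝ → ℝ), u ≤ v → ContDiff ℝ 1 B →
      (∀ s ∈ Icc u v, |B s| ≤ 1) →
      (∀ s ∈ Ioo u v, α n =ᶠ[𝓝 s] fun w => ρ n * (χ n w * B w)) →
      ∫ s in u..v, F n B s ≤ ∫ s in u..v, G n s := by
    intro n u v B huv hB hBb hl'
    refine intervalIntegral.integral_mono_ae_restrict huv (hFi n B hB u v) (hGi n u v) ?_
    rw [← Measure.restrict_congr_set Ioo_ae_eq_Icc]
    filter_upwards [ae_restrict_mem measurableSet_Ioo] with s hs
    have hd : HasDerivAt (fun w => ρ n * (χ n w * B w))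
        (ρ n * ((deriv (cut n) (s - p) * cut n (s - a) + cut n (s - p) * deriv (cut n) (s - a))
          * B s + χ n s * deriv B s)) s := by
      have d : ∀ b, HasDerivAt (fun w => cut n (w - b)) (deriv (cut n) (s - b)) s := fun b =>
        ((contDiff_cut n).differentiable one_ne_zero (s - b)).hasDerivAt.comp_sub_const s b
      exact (((d p).mul (d a)).mul (hB.differentiable one_ne_zero s).hasDerivAt).const_mul (ρ n)
    simp only [hF, hG, (hl' s hs).deriv_eq, hd.deriv, (hl' s hs).eq_of_nhds]
    set dp := deriv (cut n) (s - p)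
    set da := deriv (cut n) (s - a)
    have hbs := abs_le.1 (hBb s (Ioo_subset_Icc_self hs))
    have ca := cut_mem n (s - a)
    have cp := cut_mem n (s - p)
    have e1 : -(|dp| + |da|) ≤ ρ n * ((dp * cut n (s - a) + cut n (s - p) * da) * B s) := by
      refine le_trans (neg_le_neg ?_) (neg_abs_le _)
      rw [abs_mul, abs_mul, abs_of_nonneg (hρ1 n).1]
      refine (mul_le_of_le_one_left (by positivity) (hρ1 n).2.le).trans
        ((mul_le_of_le_one_right (abs_nonneg _) (abs_le.2 hbs)).trans ?_)
      refine (abs_add_le _ _).trans (add_le_add ?_ ?_)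
      · rw [abs_mul, abs_of_nonneg ca.1]; exact mul_le_of_le_one_right (abs_nonneg _) ca.2
      · rw [abs_mul, abs_of_nonneg cp.1]; exact mul_le_of_le_one_left (abs_nonneg _) cp.2
    have e2 := mul_le_mul_of_nonneg_left e1 (hl01 s).1
    linarith [e2]
  have hbound : ∀ n, (∫ s in p..a, F n A₁ s) + (∫ s in a..(p + 1), F n A₂ s)
      ≤ 2 + (A * ((∫ s in (p - cutR n)..(p + cutR n), l s) / cutR n)
        + A * ((∫ s in (a - cutR n)..(a + cutR n), l s) / cutR n)) := by
    intro n
    refine (add_le_add (hpiece n p a A₁ hpa h1 hb1 (hloc1 n))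
      (hpiece n a (p + 1) A₂ hap h2 hb2 (hloc2 n))).trans ?_
    rw [intervalIntegral.integral_add_adjacent_intervals (hGi n _ _) (hGi n _ _)]
    simp only [hG]
    have q1 : IntervalIntegrable
        (fun s => l s * deriv (α n) s + 2 * (occ l s * Real.sqrt (1 - α n s ^ 2))) volume p (p + 1) :=
      (iI ((hαc n).continuous_deriv le_rfl) _ _).add ((iO
        (continuous_const.sub ((hαc n).continuous.pow 2)).sqrt _ _).const_mul 2)
    rw [intervalIntegral.integral_add q1 ((iI (hEc n p) _ _).add (iI (hEc n a) _ _)),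
      intervalIntegral.integral_add (iI (hEc n p) _ _) (iI (hEc n a) _ _)]
    refine add_le_add ?_ (add_le_add (cut_error hlm hl01 hlp hA0 hA n p p)
      (cut_error hlm hl01 hlp hA0 hA n a p))
    have hper : Function.Periodic (fun s => l s * deriv (α n) s
        + 2 * (occ l s * Real.sqrt (1 - α n s ^ 2))) 1 := fun s => by
      simp only [hlp s, occ, hαp n s]
      rw [← deriv_comp_add_const, show (fun u => α n (u + 1)) = α n from funext (hαp n)]
    rw [hper.intervalIntegral_add_eq p 0, zero_add]
    exact periodic_test hij hik hjk hC hp hk hP hone (hαc n) (hαp n) (hαb n)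
  -- the limit
  have hlimit : ∀ (u v : ℝ) (B : ℝ → ℝ), u ≤ v → ContDiff ℝ 1 B →
      (∀ s ∈ Ioo u v, Real.sin (Real.pi * (s - p)) ≠ 0 ∧ Real.sin (Real.pi * (s - a)) ≠ 0) →
      Tendsto (fun n => ∫ s in u..v, F n B s) atTop (𝓝 (testVal l B u v)) := by
    intro u v B huv hB hsin
    obtain ⟨K, hK⟩ := (isCompact_Icc (a := u) (b := v)).exists_bound_of_continuousOn
      (hB.continuous_deriv le_rfl).continuousOn
    simp only [testVal, intervalIntegral.integral_of_le huv,
      setIntegral_congr_set (Ioo_ae_eq_Ioc (μ := volume) (a := u) (b := v)).symm]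
    refine tendsto_integral_of_dominated_convergence (fun _ => K + 2)
      (fun n => (((hFi n B hB u v).1).mono_set Ioo_subset_Ioc_self).aestronglyMeasurable)
      (integrable_const _) (fun n => ?_) ?_
    · filter_upwards [ae_restrict_mem measurableSet_Ioo] with s hs
      refine (norm_add_le _ _).trans (add_le_add ?_ ?_)
      · rw [norm_mul, norm_mul, norm_mul, Real.norm_of_nonneg (hl01 s).1,
          Real.norm_of_nonneg (hρ1 n).1, Real.norm_of_nonneg (hχ01 n s).1]
        refine (mul_le_of_le_one_left (mul_nonneg (hρ1 n).1 (mul_nonneg (hχ01 n s).1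
          (norm_nonneg _))) (hl01 s).2).trans ?_
        exact (mul_le_of_le_one_left (mul_nonneg (hχ01 n s).1 (norm_nonneg _)) (hρ1 n).2.le).trans
          ((mul_le_of_le_one_left (norm_nonneg _) (hχ01 n s).2).trans
            (hK s (Ioo_subset_Icc_self hs)))
      · rw [norm_mul, norm_mul, Real.norm_of_nonneg (occ_mem l s).1,
          Real.norm_of_nonneg (Real.sqrt_nonneg _), Real.norm_two]
        exact mul_le_of_le_one_right two_pos.le (mul_le_one₀ (occ_mem l s).2 (Real.sqrt_nonneg _)
          (Real.sqrt_le_one.2 (sub_le_self _ (sq_nonneg _))))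
    · filter_upwards [ae_restrict_mem measurableSet_Ioo] with s hs
      have hχ1 : Tendsto (fun n => χ n s) atTop (𝓝 1) := by
        simpa [hχ] using (tendsto_cut (hsin s hs).1).mul (tendsto_cut (hsin s hs).2)
      have hρt : Tendsto ρ atTop (𝓝 1) := by simpa [hρ] using tendsto_cutR.const_sub 1
      have t1 : Tendsto (fun n => ρ n * (χ n s * deriv B s)) atTop (𝓝 (deriv B s)) := by
        simpa using hρt.mul (hχ1.mul_const (deriv B s))
      have t2 : Tendsto (fun n => ρ n * (χ n s * B s)) atTop (𝓝 (B s)) := by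
        simpa using hρt.mul (hχ1.mul_const (B s))
      exact (t1.const_mul _).add
        (((((t2.pow 2).const_sub 1).sqrt).const_mul _).const_mul 2)
  have hsin : ∀ t : ℝ, -1 < t → t < 1 → t ≠ 0 → Real.sin (Real.pi * t) ≠ 0 := fun t h1 h2 h3 => by
    rcases lt_or_gt_of_ne h3 with h | h
    · exact (Real.sin_neg_of_neg_of_neg_pi_lt (by nlinarith [Real.pi_pos])
        (by nlinarith [Real.pi_pos])).ne
    · exact (Real.sin_pos_of_pos_of_lt_pi (by nlinarith [Real.pi_pos])
        (by nlinarith [Real.pi_pos])).ne'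
  have he0 : Tendsto (fun n => 2 + (A * ((∫ s in (p - cutR n)..(p + cutR n), l s) / cutR n)
      + A * ((∫ s in (a - cutR n)..(a + cutR n), l s) / cutR n))) atTop (𝓝 2) := by
    simpa using ((hep.const_mul A).add (hea.const_mul A)).const_add 2
  refine le_of_tendsto_of_tendsto' ((hlimit p a A₁ hpa h1 fun s hs => ?_).add
    (hlimit a (p + 1) A₂ hap h2 fun s hs => ?_)) he0 hbound
  · exact ⟨hsin _ (by linarith [hs.1]) (by linarith [hs.2]) (by linarith [hs.1]),
      hsin _ (by linarith [hs.1]) (by linarith [hs.2]) (by linarith [hs.2])⟩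
  · exact ⟨hsin _ (by linarith [hs.1]) (by linarith [hs.2]) (by linarith [hs.1]),
      hsin _ (by linarith [hs.1]) (by linarith [hs.2]) (by linarith [hs.1])⟩

end field

end Vale.Agent.P232
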