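import Vale.Agent.P232.Uniq.Slice

/-!
If almost every slice in a direction has perimeter at least `c`, then the set is tested nearly
to `c` by one field orthogonal to that direction.
-/

open MeasureTheory Set Filter
open scoped ENNReal Topology ContDiff

namespace Vale.Agent.P232

/-- A test field orthogonal to the direction `k` and constant along it. -/
structure IsFlatField (k : Fin 3) (Y : R3 → R3) : Prop where
  test : IsTestField Y
  orth : ∀ x, Y x k = 0
  inv : ∀ (x : R3) (t : ℝ), Y (x + t • e k) = Y x

lemma isFlatField_zero (k : Fin 3) : IsFlatField k 0 :=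
  ⟨isTestField_zero, fun x => by simp, fun x t => rfl⟩

lemma dv_line {k : Fin 3} {Y : R3 → R3} (hY : IsFlatField k Y) (x : R3) (t : ℝ) :
    dv Y (x + t • e k) = dv Y x := by
  rw [← dv_comp_add, show (fun y => Y (y + t • e k)) = Y from funext fun y => hY.inv y t]

/-- A field can be flattened to a slice without loss on an invariant set. -/
lemma exists_flat {C : Set R3} (hC : MeasurableSet C) (hp : IsPeriodicSet C) {k : Fin 3}
    (hi : InvAlong C k) {X : R3 → R3} (hX : IsTestField X) :
    ∃ Y, IsFlatField k Y ∧ ∫ x in C ∩ cell, dv X x ≤ ∫ x in C ∩ cell, dv Y x := by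
  set L : R3 →L[ℝ] R3 :=
    ContinuousLinearMap.id ℝ R3 - (EuclideanSpace.proj k : R3 →L[ℝ] ℝ).smulRight (e k) with hL
  have hts : ∀ s x, toSlice k s x = L x + s • e k := fun s x => by
    simp only [hL, toSlice, _root_.sub_apply, ContinuousLinearMap.id_apply,
      ContinuousLinearMap.smulRight_apply, PiLp.proj_apply]
    module
  set Y : ℝ → R3 → R3 := fun s x => X (toSlice k s x) - X (toSlice k s x) k • e k with hY
  have hflat : ∀ s, IsFlatField k (Y s) := fun s => by
    refine ⟨⟨?_, fun i x => ?_, fun x => ?_⟩, fun x => by simp [hY, e_self], fun x t => by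
      simp only [hY, toSlice_add_smul]⟩
    · have h1 : ContDiff ℝ 1 fun x => toSlice k s x := by
        simp only [hts]; exact L.contDiff.add contDiff_const
      have h2 := hX.smooth.comp h1
      exact h2.sub ((((contDiff_piLp _).1 h2) k).smul contDiff_const)
    · exact isPer_comp_toSlice (f := fun y => X y - X y k • e k)
        (hX.periodic.comp fun a => a - a k • e k) k s i x
    · refine le_trans ?_ (hX.norm_le (toSlice k s x))
      set v := X (toSlice k s x)
      simp only [hY]
      rw [EuclideanSpace.norm_eq, EuclideanSpace.norm_eq]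
      refine Real.sqrt_le_sqrt (Finset.sum_le_sum fun i _ => ?_)
      by_cases h : i = k
      · subst h; simp [e_self]; positivity
      · simp [v, e_ne (Ne.symm h)]
  set pk : R3 → ℝ := fun x => fderiv ℝ X x (e k) k with hpk
  have hdv : ∀ s x, dv (Y s) x = dv X (toSlice k s x) - pk (toSlice k s x) := fun s x => by
    have h1 : HasFDerivAt (fun x => toSlice k s x) L x := by
      simp only [hts]; exact L.hasFDerivAt.add_const _
    have h2 := ((hX.smooth.differentiable one_ne_zero) _).hasFDerivAt.comp x h1
    have h3 := (EuclideanSpace.proj k : R3 →L[ℝ] ℝ).hasFDerivAt.comp x h2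
    have h4 : HasFDerivAt (Y s)
        ((fderiv ℝ X (toSlice k s x)).comp L - ((EuclideanSpace.proj k : R3 →L[ℝ] ℝ).comp
          ((fderiv ℝ X (toSlice k s x)).comp L)).smulRight (e k)) x :=
      h2.sub (h3.smul_const (e k))
    simp only [dv, h4.fderiv, hpk]
    fin_cases k <;> simp [hL, e, Fin.sum_univ_three]
  have gm := measurable_ind hC
  have gp := isPer_ind hp
  have cd := continuous_dv hX.smooth
  have cp : Continuous pk := by
    have : Continuous fun x => fderiv ℝ X x (e k) :=
      (hX.smooth.continuous_fderiv one_ne_zero).clm_apply continuous_const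
    exact (PiLp.continuous_apply 2 _ k).comp this
  have pkp : IsPer pk := hX.periodic.fderiv.comp fun T => T (e k) k
  obtain ⟨C1, hC10, hC1⟩ := hX.periodic.dv.bounded cd
  obtain ⟨C2, hC20, hC2⟩ := pkp.bounded cp
  -- the derivative along the direction integrates to zero
  have hzero : ∫ x in cell, ind C x * pk x = 0 := by
    rw [← setIntegral_line (h := fun x => ind C x * pk x) (gm.mul cp.measurable) (C := C2)
      (fun x => by
        rw [abs_mul]
        exact (mul_le_of_le_one_left (abs_nonneg _) (abs_ind_le C x)).trans (hC2 x))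
      (gp.comp₂ pkp fun a b => a * b) k]
    refine integral_eq_zero_of_ae (ae_of_all _ fun x => ?_)
    have hint : ∫ s in Ioc (0 : ℝ) 1, pk (x + s • e k) = 0 := by
      rw [← intervalIntegral.integral_of_le zero_le_one]
      have hd : ∀ s : ℝ, HasDerivAt (fun s : ℝ => X (x + s • e k) k) (pk (x + s • e k)) s := by
        intro s
        have h1 : HasDerivAt (fun s : ℝ => x + s • e k) (e k) s := by
          simpa using ((hasDerivAt_id s).smul_const (e k)).const_add x
        exact (EuclideanSpace.proj k : R3 →L[ℝ] ℝ).hasFDerivAt.comp_hasDerivAt s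
          (((hX.smooth.differentiable one_ne_zero) _).hasFDerivAt.comp_hasDerivAt s h1)
      rw [intervalIntegral.integral_eq_sub_of_hasDerivAt (fun s _ => hd s)
        ((cp.comp (by fun_prop)).intervalIntegrable 0 1)]
      simp [hX.periodic k x]
    simp only [hi.ind_eq, integral_const_mul, hint, mul_zero, Pi.zero_apply]
  -- some slice does at least as well as the average
  set G : ℝ → ℝ := fun s => ∫ x in cell, ind C x * dv (Y s) x with hG
  set q : R3 → ℝ := fun x => ind C x * (dv X x - pk x) with hq
  have qm : Measurable q := gm.mul (cd.sub cp).measurable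
  have qb : ∀ x, |q x| ≤ C1 + C2 := fun x => by
    rw [abs_mul]
    refine (mul_le_of_le_one_left (abs_nonneg _) (abs_ind_le C x)).trans ?_
    exact (abs_sub _ _).trans (add_le_add (hC1 x) (hC2 x))
  have qp : IsPer q := gp.comp₂ (hX.periodic.dv.comp₂ pkp fun a b => a - b) fun a b => a * b
  have hGq : ∀ s, G s = ∫ x in cell, q (toSlice k s x) := fun s => by
    refine setIntegral_congr_fun measurableSet_cell fun x _ => ?_
    simp only [hq, hdv]
    rw [show ind C (toSlice k s x) = ind C x from hi.ind_eq x _]
  have hint : IntegrableOn G (Ioc 0 1) := by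
    rw [funext hGq]
    exact (integrable_prod_of_bound (F := fun s x => q (toSlice k s x))
      (qm.comp (continuous_toSlice k).measurable) fun s x => qb _).integral_prod_left
  have havg : ∫ s in Ioc (0 : ℝ) 1, G s = ∫ x in C ∩ cell, dv X x := by
    simp only [hGq]
    rw [setIntegral_toSlice qm qb qp k, setIntegral_inter_cell hC]
    have i1 := integrable_cell_mul gm (abs_ind_le C) cd
    have i2 := integrable_cell_mul gm (abs_ind_le C) cp
    simp only [hq, mul_sub]
    rw [integral_sub i1 i2, hzero, sub_zero]
    rfl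
  obtain ⟨s, -, hs⟩ := exists_setAverage_le (μ := volume) (s := Ioc (0 : ℝ) 1) (f := G)
    (by simp) (by simp) hint
  refine ⟨Y s, hflat s, ?_⟩
  rw [setAverage_eq, havg] at hs
  simp only [Measure.real, Real.volume_Ioc, sub_zero, ENNReal.toReal_ofReal zero_le_one, inv_one,
    one_smul] at hs
  rw [setIntegral_inter_cell hC (dv (Y s))]
  exact hs

/-- Countably many flat fields test as well as all of them. -/
lemma exists_flat_seq (k : Fin 3) : ∃ F : ℕ → R3 → R3, (∀ i, IsFlatField k (F i)) ∧
    ∀ Y, IsFlatField k Y → ∀ η > 0, ∃ i, ∀ x ∈ cell, |dv Y x - dv (F i) x| ≤ η := by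
  let K : Set R3 := Metric.closedBall 0 2
  have : CompactSpace K := isCompact_iff_compactSpace.1 (isCompact_closedBall _ _)
  let Φ : {Y // IsFlatField k Y} → C(K, ℝ) := fun Y =>
    ⟨fun x => dv Y.1 x.1, (continuous_dv Y.2.test.smooth).comp continuous_subtype_val⟩
  have : Nonempty (range Φ) := ⟨⟨Φ ⟨0, isFlatField_zero k⟩, mem_range_self _⟩⟩
  choose F hF using fun i => (TopologicalSpace.denseSeq (range Φ) i).2
  refine ⟨fun i => (F i).1, fun i => (F i).2, fun Y hY η hη => ?_⟩
  obtain ⟨i, hi⟩ := (TopologicalSpace.denseRange_denseSeq (range Φ)).exists_dist_lt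
    ⟨Φ ⟨Y, hY⟩, mem_range_self _⟩ hη
  refine ⟨i, fun x hx => ?_⟩
  have h1 : dist (Φ ⟨Y, hY⟩) (Φ (F i)) < η := by rw [hF i]; exact hi
  have h2 := ContinuousMap.dist_apply_le_dist (f := Φ ⟨Y, hY⟩) (g := Φ (F i))
    ⟨x, cell_subset_ball hx⟩
  rw [Real.dist_eq] at h2
  exact h2.trans h1.le

lemma exists_test_gt {C : Set R3} {c η : ℝ} (h : ENNReal.ofReal c ≤ per C) (hη : 0 < η) :
    ∃ X, IsTestField X ∧ c - η ≤ ∫ x in C ∩ cell, dv X x := by
  by_cases hc : c - η ≤ 0
  · exact ⟨0, isTestField_zero, by simpa [dv_zero] using hc⟩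
  have hlt : ENNReal.ofReal (c - η) < per C :=
    lt_of_lt_of_le (ENNReal.ofReal_lt_ofReal_iff_of_nonneg (by linarith) |>.2 (by linarith)) h
  simp only [per, lt_iSup_iff] at hlt
  obtain ⟨X, hX, hlt⟩ := hlt
  refine ⟨X, hX, ?_⟩
  by_contra hh
  exact absurd (ENNReal.ofReal_le_ofReal (not_le.1 hh).le) (not_le.2 hlt)

/-- The slab-type set over a set of heights. -/
def heights (k : Fin 3) (B : Set ℝ) : Set R3 := {x | Int.fract (x k) ∈ B}

lemma measurableSet_heights (k : Fin 3) {B : Set ℝ} (hB : MeasurableSet B) :
    MeasurableSet (heights k B) :=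
  hB.preimage (measurable_fract.comp (PiLp.continuous_apply 2 _ k).measurable)

lemma isPeriodicSet_heights (k : Fin 3) (B : Set ℝ) : IsPeriodicSet (heights k B) := fun i x => by
  by_cases h : i = k
  · subst h; simp [heights, e_self, Int.fract_add_one]
  · simp [heights, e_ne h]

lemma invAlong_heights {j k : Fin 3} (h : j ≠ k) (B : Set ℝ) : InvAlong (heights k B) j :=
  fun x t => by simp [heights, e_ne h]

lemma InvAlong.moll {S : Set R3} {j : Fin 3} (h : InvAlong S j) (φ : ContDiffBump (0 : R3))
    (x : R3) (t : ℝ) : P232.moll φ S (x + t • e j) = P232.moll φ S x := by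
  simp only [moll_apply]
  congr 1; ext y
  rw [add_sub_right_comm]
  exact congrArg _ (h.ind_eq (x - y) t)

lemma fderiv_eq_zero_of_line {f : R3 → ℝ} {v : R3} {x : R3} (hf : DifferentiableAt ℝ f x)
    (h : ∀ t : ℝ, f (x + t • v) = f x) : fderiv ℝ f x v = 0 := by
  have h1 : HasLineDerivAt ℝ f (fderiv ℝ f x v) x v := hf.hasFDerivAt.hasLineDerivAt v
  have h2 : HasDerivAt (fun t : ℝ => f (x + t • v)) 0 0 := by
    simp only [h]; exact hasDerivAt_const 0 _
  exact h1.unique h2

/-- If the slices over a set `T` of heights have perimeter at least `c`, the set is tested, with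
a weight depending on the height, nearly to `c` times the weight of `T` by a field orthogonal to
`k`. -/
theorem exists_field_of_slices_weighted {E : Set R3} (hE : MeasurableSet E) (hp : IsPeriodicSet E)
    (k : Fin 3) {c : ℝ}
    {T : Set ℝ} (hT : MeasurableSet T) {w : ℝ → ℝ} (hw : Continuous w)
    (hwp : Function.Periodic w 1) (hw01 : ∀ s, w s ∈ Icc (0 : ℝ) 1)
    (h : ∀ᵐ s ∂volume.restrict (Ioc (0 : ℝ) 1), s ∈ T → ENNReal.ofReal c ≤ per (sliceCyl E k s))
    {η : ℝ} (hη : 0 < η) :
    ∃ X, IsTestField X ∧ (∀ x, X x k = 0) ∧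
      c * (∫ s in T, w s ∂volume.restrict (Ioc (0 : ℝ) 1)) - η
        ≤ ∫ x in cell, ind E x * (w (x k) * dv X x) := by
  set M := ∫ s in T, w s ∂volume.restrict (Ioc (0 : ℝ) 1) with hMdef
  have hwi : Integrable w (volume.restrict (Ioc (0 : ℝ) 1)) :=
    Integrable.mono' (integrable_const (1 : ℝ)) hw.aestronglyMeasurable
      (ae_of_all _ fun s => abs_le.2 ⟨by linarith [(hw01 s).1], (hw01 s).2⟩)
  have hM0 : 0 ≤ M := integral_nonneg fun s => (hw01 s).1
  have hM1 : M ≤ 1 := by
    refine (setIntegral_le_integral hwi (ae_of_all _ fun s => (hw01 s).1)).trans ?_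
    refine (integral_mono hwi (integrable_const (1 : ℝ)) fun s => (hw01 s).2).trans ?_
    simp [Measure.real]
  by_cases hcη : c * M - η ≤ 0
  · exact ⟨0, isTestField_zero, fun x => by simp, by simpa [dv_zero] using hcη⟩
  set θ := η / (c + 3) with hθ
  have hc : 0 < c := by
    by_contra hneg
    nlinarith [not_lt.1 hneg]
  have hθ0 : 0 < θ := by positivity
  have hθη : (c + 3) * θ = η := by rw [hθ]; field_simp
  have hθ1 : θ ≤ 1 := by rw [hθ, div_le_one (by linarith)]; nlinarith
  obtain ⟨F, hF, hdense⟩ := exists_flat_seq k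
  set g : ℕ → ℝ → ℝ := fun i s => ∫ x in cell, ind E (toSlice k s x) * dv (F i) x with hg
  have gmeas : ∀ i, Measurable (g i) := fun i => by
    have hm : Measurable fun p : ℝ × R3 => ind E (toSlice k p.1 p.2) * dv (F i) p.2 :=
      ((measurable_ind hE).comp (continuous_toSlice k).measurable).mul
        ((continuous_dv (hF i).test.smooth).measurable.comp measurable_snd)
    exact (hm.stronglyMeasurable.integral_prod_right' (ν := volume.restrict cell)).measurable
  set A : ℕ → Set ℝ := fun i => (T ∩ Ioo 0 1) ∩ {s | c - 2 * θ ≤ g i s} with hA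
  have Am : ∀ i, MeasurableSet (A i) := fun i =>
    (hT.inter measurableSet_Ioo).inter (measurableSet_le measurable_const (gmeas i))
  -- the union has full measure
  have hIoo : ∀ᵐ s ∂volume.restrict (Ioc (0 : ℝ) 1), s ∈ Ioo (0 : ℝ) 1 := by
    rw [← Measure.restrict_congr_set Ioo_ae_eq_Ioc]
    exact ae_restrict_mem measurableSet_Ioo
  have hfull : ∀ᵐ s ∂volume.restrict (Ioc (0 : ℝ) 1), s ∈ T → s ∈ ⋃ i, A i := by
    filter_upwards [h, hIoo] with s hs' hmem hsT
    have hs := hs' hsT
    have hCm := measurableSet_sliceCyl hE k s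
    obtain ⟨X, hX, hX2⟩ := exists_test_gt hs hθ0
    obtain ⟨Y, hY, hY2⟩ := exists_flat hCm (isPeriodicSet_sliceCyl hp k s)
      (invAlong_sliceCyl E k s) hX
    obtain ⟨i, hi⟩ := hdense Y hY θ hθ0
    refine mem_iUnion.2 ⟨i, ⟨hsT, hmem⟩, ?_⟩
    show c - 2 * θ ≤ g i s
    have hge := hX2.trans hY2
    rw [setIntegral_inter_cell hCm] at hge
    have i1 := integrable_cell_mul (measurable_ind hCm) (abs_ind_le _)
      (continuous_dv hY.test.smooth)
    have i2 := integrable_cell_mul (measurable_ind hCm) (abs_ind_le _)
      (continuous_dv (hF i).test.smooth)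
    have hdiff : (∫ x in cell, ind (sliceCyl E k s) x * dv Y x) - g i s ≤ θ := by
      have e0 : g i s = ∫ x in cell, ind (sliceCyl E k s) x * dv (F i) x := by
        simp [hg, ind_sliceCyl]
      rw [e0, ← integral_sub i1 i2]
      calc _ ≤ ∫ x in cell, θ := by
            refine setIntegral_mono_on (i1.sub i2) (integrable_const θ) measurableSet_cell
              fun x hx => ?_
            rw [← mul_sub]
            exact (le_abs_self _).trans ((abs_mul _ _).le.trans
              ((mul_le_of_le_one_left (abs_nonneg _) (abs_ind_le _ x)).trans (hi x hx)))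
        _ = θ := by simp [Measure.real, volume_cell]
    simp only [ind] at hdiff
    linarith
  set B : ℕ → Set ℝ := disjointed A with hB
  have Bm : ∀ i, MeasurableSet (B i) := fun i => MeasurableSet.disjointed Am i
  have BA : ∀ i, B i ⊆ A i := fun i => disjointed_subset A i
  have Bd : Pairwise (Function.onFun Disjoint B) := disjoint_disjointed A
  have htend : Tendsto (fun N : ℕ => ∑ i ∈ Finset.range N,
      ∫ s in B i, w s ∂volume.restrict (Ioc (0 : ℝ) 1)) atTop (𝓝 M) := by
    have h1 : M = ∫ s in ⋃ i, B i, w s ∂volume.restrict (Ioc (0 : ℝ) 1) := by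
      refine setIntegral_congr_set ?_
      rw [hB, iUnion_disjointed]
      filter_upwards [hfull] with s hs
      refine propext ⟨hs, fun h => ?_⟩
      obtain ⟨i, hi⟩ := mem_iUnion.1 h
      exact hi.1.1
    rw [h1]
    exact (hasSum_integral_iUnion Bm Bd hwi.integrableOn).tendsto_sum_nat
  obtain ⟨N, hN⟩ := (htend.eventually (lt_mem_nhds (show M - θ < M by linarith))).exists
  -- the glued fields
  set S : ℕ → Set R3 := fun i => heights k (B i) with hS
  have Sm : ∀ i, MeasurableSet (S i) := fun i => measurableSet_heights k (Bm i)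
  set ψ : ℕ → ℕ → R3 → ℝ := fun n i => moll (bump n) (S i) with hψ
  set X : ℕ → R3 → R3 := fun n x => ∑ i ∈ Finset.range N, ψ n i x • F i x with hX
  have hψc : ∀ n i, ContDiff ℝ 1 (ψ n i) := fun n i =>
    (moll_contDiff (bump n) (Sm i)).of_le (by norm_cast)
  have hsum : ∀ n x, ∑ i ∈ Finset.range N, ψ n i x ≤ 1 := fun n x => by
    simp only [hψ, moll_apply]
    have hmem : ∀ y, ∑ i ∈ Finset.range N, (S i).indicator (1 : R3 → ℝ) y ≤ 1 := fun y => by
      rw [← Finset.indicator_biUnion_apply]
      · exact (indicator_one_mem _ y).2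
      · exact fun i _ j _ hij => (Bd hij).preimage fun z : R3 => Int.fract (z k)
    have hint : ∀ i ∈ Finset.range N, Integrable (fun t =>
        (bump n).normed volume t * (S i).indicator (1 : R3 → ℝ) (x - t)) := fun i _ => by
      refine Integrable.mono' ((bump n).integrable_normed (μ := volume))
        ((bump n).continuous_normed.measurable.mul
          ((measurable_ind (Sm i)).comp (measurable_const.sub measurable_id))).aestronglyMeasurable
        (ae_of_all _ fun t => ?_)
      rw [norm_mul, Real.norm_of_nonneg ((bump n).nonneg_normed t)]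
      exact mul_le_of_le_one_right ((bump n).nonneg_normed t) (abs_ind_le (S i) _)
    rw [← integral_finsetSum _ hint]
    calc _ ≤ ∫ t, (bump n).normed volume t := by
          refine integral_mono (integrable_finsetSum _ hint) (bump n).integrable_normed fun t => ?_
          rw [← Finset.mul_sum]
          exact mul_le_of_le_one_right ((bump n).nonneg_normed t) (hmem _)
      _ = 1 := (bump n).integral_normed
  have hXt : ∀ n, IsTestField (X n) := fun n => by
    refine ⟨ContDiff.sum fun i _ => (hψc n i).smul (hF i).test.smooth, fun j x => ?_, fun x => ?_⟩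
    · simp only [hX]
      refine Finset.sum_congr rfl fun i _ => ?_
      rw [(hF i).test.periodic j x]
      exact congrArg (· • F i x) (moll_isPer (bump n) (isPeriodicSet_heights k (B i)) j x)
    · refine (norm_sum_le _ _).trans (le_trans (Finset.sum_le_sum fun i _ => ?_) (hsum n x))
      rw [norm_smul, Real.norm_of_nonneg (moll_mem _ x).1]
      exact mul_le_of_le_one_right (moll_mem _ x).1 ((hF i).test.norm_le x)
  have hdv : ∀ n x, dv (X n) x = ∑ i ∈ Finset.range N, ψ n i x * dv (F i) x := fun n x => by
    have hd : HasFDerivAt (X n) (∑ i ∈ Finset.range N, (ψ n i x • fderiv ℝ (F i) x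
        + (fderiv ℝ (ψ n i) x).smulRight (F i x))) x :=
      HasFDerivAt.fun_sum fun i _ => ((hψc n i).differentiable one_ne_zero x).hasFDerivAt.smul
        (((hF i).test.smooth.differentiable one_ne_zero) x).hasFDerivAt
    have hz : ∀ i j, fderiv ℝ (ψ n i) x (e j) * F i x j = 0 := fun i j => by
      by_cases hjk : j = k
      · subst hjk; simp [(hF i).orth x]
      · rw [fderiv_eq_zero_of_line ((hψc n i).differentiable one_ne_zero x)
          fun t => (invAlong_heights hjk (B i)).moll _ x t, zero_mul]
    simp only [dv, hd.fderiv, _root_.sum_apply, WithLp.ofLp_sum, Finset.sum_apply]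
    rw [Finset.sum_comm]
    refine Finset.sum_congr rfl fun i _ => ?_
    rw [Finset.mul_sum]
    refine Finset.sum_congr rfl fun j _ => ?_
    simp [hz i j]
  -- the limit of the pairings
  have gm := measurable_ind hE
  have hwF : ∀ i, IsPer (fun x : R3 => w (x k) * dv (F i) x) ∧
      Continuous fun x : R3 => w (x k) * dv (F i) x := fun i => by
    refine ⟨fun j x => ?_, (hw.comp (PiLp.continuous_apply 2 _ k)).mul
      (continuous_dv (hF i).test.smooth)⟩
    simp only [(hF i).test.periodic.dv j x]
    by_cases a : j = k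
    · subst a; simp only [PiLp.add_apply, e_self, hwp _]
    · simp [e_ne a]
  have hlim : Tendsto (fun n => ∫ x in cell, ind E x * (w (x k) * dv (X n) x)) atTop
      (𝓝 (∑ i ∈ Finset.range N, ∫ x in cell, ind E x * ind (S i) x * (w (x k) * dv (F i) x))) := by
    have hterm : ∀ i, Tendsto (fun n => ∫ x in cell, ind E x * ψ n i x * (w (x k) * dv (F i) x)) atTop
        (𝓝 (∫ x in cell, ind E x * ind (S i) x * (w (x k) * dv (F i) x))) := fun i => by
      obtain ⟨D, hD0, hD⟩ := (hwF i).1.bounded (hwF i).2
      have hli : LocallyIntegrable ((S i).indicator (1 : R3 → ℝ)) volume :=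
        (locallyIntegrable_const (1 : ℝ)).indicator (Sm i)
      have hae : ∀ᵐ x, Tendsto (fun n => ψ n i x) atTop (𝓝 (ind (S i) x)) :=
        ContDiffBump.ae_convolution_tendsto_right_of_locallyIntegrable (K := 2)
          tendsto_one_div_add_atTop_nhds_zero_nat
          (Eventually.of_forall fun n => le_of_eq (by simp only [bump]; field_simp)) hli
      refine tendsto_integral_of_dominated_convergence (fun _ => D)
        (fun n => ((gm.mul (hψc n i).continuous.measurable).mul
          (hwF i).2.measurable).aestronglyMeasurable)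
        (integrable_const D) (fun n => ae_of_all _ fun x => ?_)
        ((ae_restrict_of_ae hae).mono fun x hx => (hx.const_mul _).mul_const _)
      rw [norm_mul, norm_mul]
      refine (mul_le_of_le_one_left (norm_nonneg _) (mul_le_one₀ (abs_ind_le E x)
        (norm_nonneg _) ?_)).trans (hD x)
      rw [Real.norm_of_nonneg (moll_mem _ x).1]
      exact (moll_mem _ x).2
    refine (tendsto_finsetSum _ fun i _ => hterm i).congr fun n => ?_
    rw [← integral_finsetSum _ fun i _ => ?_]
    · refine setIntegral_congr_fun measurableSet_cell fun x _ => ?_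
      simp only [hdv, Finset.mul_sum]
      exact Finset.sum_congr rfl fun i _ => by ring
    · refine integrable_cell_mul (C := 1) (gm.mul (hψc n i).continuous.measurable) (fun x => ?_)
        (hwF i).2
      rw [abs_mul]
      exact mul_le_one₀ (abs_ind_le E x) (abs_nonneg _)
        (abs_le.2 ⟨by linarith [(moll_mem (bump n) (E := S i) x).1], (moll_mem _ x).2⟩)
  -- the limit is large
  have hbig : ∀ i, (c - 2 * θ) * (∫ s in B i, w s ∂volume.restrict (Ioc (0 : ℝ) 1))
      ≤ ∫ x in cell, ind E x * ind (S i) x * (w (x k) * dv (F i) x) := fun i => by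
    obtain ⟨D, hD0, hD⟩ := (hwF i).1.bounded (hwF i).2
    have qm : Measurable fun x => ind E x * ind (S i) x * (w (x k) * dv (F i) x) :=
      (gm.mul (measurable_ind (Sm i))).mul (hwF i).2.measurable
    have qb : ∀ x, |ind E x * ind (S i) x * (w (x k) * dv (F i) x)| ≤ D := fun x => by
      rw [abs_mul, abs_mul]
      exact (mul_le_of_le_one_left (abs_nonneg _)
        (mul_le_one₀ (abs_ind_le _ x) (abs_nonneg _) (abs_ind_le _ x))).trans (hD x)
    have qp : IsPer fun x => ind E x * ind (S i) x * (w (x k) * dv (F i) x) :=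
      ((isPer_ind hp).comp₂ (isPer_ind (isPeriodicSet_heights k (B i))) fun a b => a * b).comp₂
        (hwF i).1 fun a b => a * b
    rw [← setIntegral_toSlice qm qb qp k]
    have hind : ∀ s ∈ Ioo (0 : ℝ) 1, ∀ x,
        ind (S i) (toSlice k s x) = (B i).indicator 1 s := fun s hs x => by
      have hf : Int.fract s = s := Int.fract_eq_self.2 ⟨hs.1.le, hs.2⟩
      by_cases a : s ∈ B i
      · rw [indicator_of_mem a, ind_of_mem]; · rfl
        simp [hS, heights, toSlice_apply_self, hf, a]
      · rw [indicator_of_notMem a, ind_of_notMem]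
        simp [hS, heights, toSlice_apply_self, hf, a]
    have hrhs : (fun s => ∫ x in cell, ind E (toSlice k s x) * ind (S i) (toSlice k s x)
        * (w (toSlice k s x k) * dv (F i) (toSlice k s x))) =ᵐ[volume.restrict (Ioc (0 : ℝ) 1)]
        (B i).indicator (fun s => w s * g i s) := by
      filter_upwards [hIoo] with s hs
      have e2 : ∀ x, dv (F i) (toSlice k s x) = dv (F i) x := fun x => dv_line (hF i) x _
      simp only [hind s hs, e2, toSlice_apply_self]
      by_cases a : s ∈ B i
      · simp only [indicator_of_mem a, Pi.one_apply, hg, mul_one, ← integral_const_mul]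
        exact integral_congr_ae (ae_of_all _ fun x => by ring)
      · simp [a]
    rw [integral_congr_ae hrhs, integral_indicator (Bm i)]
    obtain ⟨D₀, -, hD₀⟩ :=
      (hF i).test.periodic.dv.bounded (continuous_dv (hF i).test.smooth)
    have hgi : IntegrableOn (fun s => w s * g i s) (B i) (volume.restrict (Ioc (0 : ℝ) 1)) := by
      refine (Integrable.mono' (integrable_const D₀) (hw.measurable.mul (gmeas i)).aestronglyMeasurable
        (ae_of_all _ fun s => ?_)).integrableOn
      simp only [Pi.mul_apply]
      rw [norm_mul]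
      refine (mul_le_of_le_one_left (norm_nonneg _)
        (abs_le.2 ⟨by linarith [(hw01 s).1], (hw01 s).2⟩)).trans ?_
      refine (norm_integral_le_of_norm_le_const (ae_of_all _ fun x => ?_)).trans
        (le_of_eq (by simp [Measure.real, volume_cell]; rfl))
      rw [norm_mul]
      exact (mul_le_of_le_one_left (norm_nonneg _) (abs_ind_le E _)).trans (hD₀ x)
    rw [← integral_const_mul]
    exact setIntegral_mono_on (hwi.integrableOn.const_mul _) hgi (Bm i)
          fun s hs => by
            rw [mul_comm]
            exact mul_le_mul_of_nonneg_left ((BA i) hs).2 (hw01 s).1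
  have hL : c * M - η + θ ≤ ∑ i ∈ Finset.range N, ∫ x in cell, ind E x * ind (S i) x * (w (x k) * dv (F i) x) := by
    refine le_trans ?_ (Finset.sum_le_sum fun i _ => hbig i)
    rw [← Finset.mul_sum]
    have hc2 : 0 ≤ c - 2 * θ := by nlinarith
    nlinarith [mul_le_mul_of_nonneg_left hN.le hc2]
  obtain ⟨n, hn⟩ := (hlim.eventually (le_mem_nhds (show c * M - η <
    ∑ i ∈ Finset.range N, ∫ x in cell, ind E x * ind (S i) x * (w (x k) * dv (F i) x) by linarith))).exists
  refine ⟨X n, hXt n, fun x => ?_, ?_⟩
  · simp [hX, (hF _).orth x]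
  · exact hn

/-- A set all of whose slices in direction `k` have perimeter at least `c` is tested nearly to
`c` by a field orthogonal to `k`. -/
theorem exists_field_of_slices {E : Set R3} (hE : MeasurableSet E) (hp : IsPeriodicSet E)
    (k : Fin 3) {c : ℝ}
    (h : ∀ᵐ s ∂volume.restrict (Ioc (0 : ℝ) 1), ENNReal.ofReal c ≤ per (sliceCyl E k s))
    {η : ℝ} (hη : 0 < η) :
    ∃ X, IsTestField X ∧ (∀ x, X x k = 0) ∧ c - η ≤ ∫ x in E ∩ cell, dv X x := by
  obtain ⟨X, hX, hXk, hle⟩ := exists_field_of_slices_weighted hE hp k (c := c) MeasurableSet.univ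
    (w := fun _ => 1) continuous_const (fun _ => rfl) (fun _ => by simp)
    (h.mono fun s hs _ => hs) hη
  refine ⟨X, hX, hXk, ?_⟩
  rw [setIntegral_inter_cell hE]
  simpa [Measure.real, ind] using hle

end Vale.Agent.P232
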