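import Vale.Agent.P232.Concave

/-!
Slices of periodic sets, kept as cylinders in three-space, and sets that are invariant in a
direction.
-/

open MeasureTheory Set Filter
open scoped ENNReal Topology RealInnerProductSpace ContDiff

namespace Vale.Agent.P232

/-- The indicator of a set as a real function. -/
noncomputable def ind (E : Set R3) : R3 → ℝ := E.indicator 1

lemma measurable_ind {E : Set R3} (hE : MeasurableSet E) : Measurable (ind E) :=
  measurable_one.indicator hE

lemma ind_mem (E : Set R3) (x : R3) : 0 ≤ ind E x ∧ ind E x ≤ 1 := indicator_one_mem E x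

lemma abs_ind_le (E : Set R3) (x : R3) : |ind E x| ≤ 1 := abs_indicator_one_le E x

lemma isPer_ind {E : Set R3} (hp : IsPeriodicSet E) : IsPer (ind E) := isPer_indicator hp

lemma ind_of_mem {E : Set R3} {x : R3} (h : x ∈ E) : ind E x = 1 := indicator_of_mem h _

lemma ind_of_notMem {E : Set R3} {x : R3} (h : x ∉ E) : ind E x = 0 := indicator_of_notMem h _

/-- Two sets agree almost everywhere in the cell. -/
def AEEq (E F : Set R3) : Prop := E =ᵐ[volume.restrict cell] F

lemma AEEq.symm {E F : Set R3} (h : AEEq E F) : AEEq F E := Filter.EventuallyEq.symm h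

lemma AEEq.trans {E F G : Set R3} (h : AEEq E F) (h' : AEEq F G) : AEEq E G :=
  Filter.EventuallyEq.trans h h'

lemma AEEq.ind {E F : Set R3} (h : AEEq E F) :
    P232.ind E =ᵐ[volume.restrict cell] P232.ind F :=
  indicator_ae_eq_of_ae_eq_set h

lemma aeEq_of_integral {E F : Set R3} (hE : MeasurableSet E) (hF : MeasurableSet F)
    (h : ∫ x in cell, |ind E x - ind F x| = 0) : AEEq E F := by
  have hi : Integrable (fun x => |ind E x - ind F x|) (volume.restrict cell) :=
    integrable_cell_of_bound (C := 2) ((measurable_ind hE).sub (measurable_ind hF)).abs fun x => by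
      rw [abs_abs, abs_le]
      have := ind_mem E x; have := ind_mem F x
      constructor <;> linarith
  filter_upwards [(integral_eq_zero_iff_of_nonneg (fun x => abs_nonneg _) hi).1 h] with x hx
  have hx' : ind E x = ind F x := sub_eq_zero.1 (abs_eq_zero.1 hx)
  refine propext ⟨fun a => ?_, fun a => ?_⟩
  · by_contra b
    rw [ind_of_mem (E := E) a, ind_of_notMem (E := F) b] at hx'
    exact one_ne_zero hx'
  · by_contra b
    rw [ind_of_notMem (E := E) b, ind_of_mem (E := F) a] at hx'
    exact zero_ne_one hx'

lemma AEEq.vol_eq {E F : Set R3} (h : AEEq E F) : vol E = vol F := by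
  have := measure_congr (μ := volume.restrict cell) h
  rwa [Measure.restrict_apply' measurableSet_cell, Measure.restrict_apply' measurableSet_cell]
    at this

lemma AEEq.per_eq {E F : Set R3} (hE : MeasurableSet E) (hF : MeasurableSet F) (h : AEEq E F) :
    per E = per F := by
  simp only [per, setIntegral_inter_cell hE, setIntegral_inter_cell hF]
  refine iSup_congr fun X => iSup_congr fun _ => ?_
  congr 1
  exact integral_congr_ae (h.ind.mono fun x hx => by
    show P232.ind E x * _ = P232.ind F x * _
    rw [hx])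

/-- A set invariant under all translations in a coordinate direction. -/
def InvAlong (E : Set R3) (k : Fin 3) : Prop := ∀ (x : R3) (t : ℝ), x + t • e k ∈ E ↔ x ∈ E

lemma InvAlong.ind_eq {E : Set R3} {k : Fin 3} (h : InvAlong E k) (x : R3) (t : ℝ) :
    ind E (x + t • e k) = ind E x := by
  by_cases a : x ∈ E
  · rw [ind_of_mem a, ind_of_mem ((h x t).2 a)]
  · rw [ind_of_notMem a, ind_of_notMem (mt (h x t).1 a)]

lemma InvAlong.compl {E : Set R3} {k : Fin 3} (h : InvAlong E k) : InvAlong Eᶜ k :=
  fun x t => not_congr (h x t)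

/-- The projection to the plane where coordinate `k` is `s`. -/
noncomputable def toSlice (k : Fin 3) (s : ℝ) (x : R3) : R3 := x + (s - x k) • e k

lemma continuous_toSlice (k : Fin 3) :
    Continuous fun p : ℝ × R3 => toSlice k p.1 p.2 := by
  unfold toSlice; fun_prop

lemma e_self (k : Fin 3) : e k k = 1 := by simp [e]

lemma e_ne {i k : Fin 3} (h : i ≠ k) : e i k = 0 := by simp [e, h.symm]

lemma toSlice_add_smul (k : Fin 3) (s t : ℝ) (x : R3) :
    toSlice k s (x + t • e k) = toSlice k s x := by
  simp only [toSlice, PiLp.add_apply, PiLp.smul_apply, e_self, smul_eq_mul, mul_one]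
  module

lemma toSlice_add_of_ne {i k : Fin 3} (h : i ≠ k) (s t : ℝ) (x : R3) :
    toSlice k s (x + t • e i) = toSlice k s x + t • e i := by
  simp only [toSlice, PiLp.add_apply, PiLp.smul_apply, e_ne h, smul_eq_mul, mul_zero, add_zero]
  module

lemma toSlice_apply_self (k : Fin 3) (s : ℝ) (x : R3) : toSlice k s x k = s := by
  simp [toSlice, e_self]

lemma toSlice_apply_ne {i k : Fin 3} (h : k ≠ i) (s : ℝ) (x : R3) : toSlice k s x i = x i := by
  simp [toSlice, e_ne h]

lemma isPer_comp_toSlice {α : Type*} {f : R3 → α} (hf : IsPer f) (k : Fin 3) (s : ℝ) :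
    IsPer fun x => f (toSlice k s x) := fun i x => by
  show f (toSlice k s (x + e i)) = f (toSlice k s x)
  by_cases h : i = k
  · subst h
    have := toSlice_add_smul i s 1 x
    rw [one_smul] at this
    rw [this]
  · have := toSlice_add_of_ne h s 1 x
    rw [one_smul] at this
    rw [this]
    exact hf i _

/-- The cylinder over the slice at height `s`. -/
def sliceCyl (E : Set R3) (k : Fin 3) (s : ℝ) : Set R3 := toSlice k s ⁻¹' E

lemma measurableSet_sliceCyl {E : Set R3} (hE : MeasurableSet E) (k : Fin 3) (s : ℝ) :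
    MeasurableSet (sliceCyl E k s) :=
  hE.preimage ((continuous_toSlice k).comp (continuous_const.prodMk continuous_id)).measurable

lemma isPeriodicSet_sliceCyl {E : Set R3} (hp : IsPeriodicSet E) (k : Fin 3) (s : ℝ) :
    IsPeriodicSet (sliceCyl E k s) := fun i x => by
  have := isPer_comp_toSlice (f := fun y => y ∈ E) (fun j y => propext (hp j y)) k s i x
  simpa [sliceCyl] using this

lemma invAlong_sliceCyl (E : Set R3) (k : Fin 3) (s : ℝ) : InvAlong (sliceCyl E k s) k :=
  fun x t => by simp [sliceCyl, toSlice_add_smul]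

lemma InvAlong.sliceCyl {E : Set R3} {l : Fin 3} (h : InvAlong E l) (k : Fin 3) (s : ℝ) :
    InvAlong (P232.sliceCyl E k s) l := fun x t => by
  by_cases hlk : l = k
  · subst hlk
    exact invAlong_sliceCyl E l s x t
  · simp only [P232.sliceCyl, mem_preimage, toSlice_add_of_ne hlk]
    exact h _ t

lemma ind_sliceCyl (E : Set R3) (k : Fin 3) (s : ℝ) (x : R3) :
    ind (sliceCyl E k s) x = ind E (toSlice k s x) := by
  by_cases h : toSlice k s x ∈ E
  · rw [ind_of_mem h, ind_of_mem (show x ∈ sliceCyl E k s from h)]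
  · rw [ind_of_notMem h, ind_of_notMem (show x ∉ sliceCyl E k s from h)]

/-- A periodic function of one variable has the same integral over every shifted period. -/
lemma setIntegral_Ioc_shift {F : ℝ → ℝ} (hF : Function.Periodic F 1) (c : ℝ) :
    ∫ s in Ioc (0 : ℝ) 1, F (s + c) = ∫ s in Ioc (0 : ℝ) 1, F s := by
  rw [← intervalIntegral.integral_of_le zero_le_one, ← intervalIntegral.integral_of_le zero_le_one,
    intervalIntegral.integral_comp_add_right]
  simpa [add_comm] using hF.intervalIntegral_add_eq c 0

lemma periodic_line {α : Type*} {f : R3 → α} (hf : IsPer f) (k : Fin 3) (x : R3) :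
    Function.Periodic (fun s : ℝ => f (x + s • e k)) 1 := fun s => by
  show f (x + (s + 1) • e k) = f (x + s • e k)
  rw [add_smul, one_smul, ← add_assoc]
  exact hf k _

instance : IsFiniteMeasure (volume.restrict (Ioc (0 : ℝ) 1)) :=
  ⟨by rw [Measure.restrict_apply_univ, Real.volume_Ioc]; exact ENNReal.ofReal_lt_top⟩

lemma integrable_prod_of_bound {F : ℝ → R3 → ℝ} {C : ℝ}
    (hF : Measurable fun p : ℝ × R3 => F p.1 p.2) (hb : ∀ s x, |F s x| ≤ C) :
    Integrable (Function.uncurry F)
      ((volume.restrict (Ioc (0 : ℝ) 1)).prod (volume.restrict cell)) :=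
  Integrable.mono' (integrable_const C) hF.aestronglyMeasurable
    (ae_of_all _ fun p => by simpa [Function.uncurry] using hb p.1 p.2)

/-- Averaging over a translation group. -/
lemma setIntegral_line {h : R3 → ℝ} {C : ℝ} (hm : Measurable h) (hb : ∀ x, |h x| ≤ C)
    (hp : IsPer h) (k : Fin 3) :
    ∫ x in cell, (∫ s in Ioc (0 : ℝ) 1, h (x + s • e k)) = ∫ x in cell, h x := by
  have hc : Continuous fun p : ℝ × R3 => p.2 + p.1 • e k := by fun_prop
  have hi := integrable_prod_of_bound (F := fun s x => h (x + s • e k))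
    (hm.comp hc.measurable) (fun s x => hb _)
  rw [← integral_integral_swap hi]
  simp only [hp.setIntegral_add]
  simp

/-- The integral over the cell, one slice at a time. -/
theorem setIntegral_toSlice {h : R3 → ℝ} {C : ℝ} (hm : Measurable h) (hb : ∀ x, |h x| ≤ C)
    (hp : IsPer h) (k : Fin 3) :
    ∫ s in Ioc (0 : ℝ) 1, (∫ x in cell, h (toSlice k s x)) = ∫ x in cell, h x := by
  have hi := integrable_prod_of_bound (F := fun s x => h (toSlice k s x))
    (hm.comp (continuous_toSlice k).measurable) (fun s x => hb _)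
  rw [integral_integral_swap hi, ← setIntegral_line hm hb hp k]
  refine setIntegral_congr_fun measurableSet_cell fun x _ => ?_
  have := setIntegral_Ioc_shift (periodic_line hp k x) (-(x k))
  simpa [toSlice, sub_eq_add_neg] using this

/-- The area of a slice. -/
noncomputable def sliceVol (E : Set R3) (k : Fin 3) (s : ℝ) : ℝ :=
  ∫ x in cell, ind (sliceCyl E k s) x

lemma sliceVol_mono {E F : Set R3} (hE : MeasurableSet E) (hF : MeasurableSet F)
    (hpE : IsPeriodicSet E) (hpF : IsPeriodicSet F)
    (h : ∀ᵐ x ∂volume.restrict cell, x ∈ E → x ∈ F) (k : Fin 3) :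
    ∀ᵐ s ∂volume.restrict (Ioc (0 : ℝ) 1), sliceVol E k s ≤ sliceVol F k s := by
  set d : R3 → ℝ := fun x => max (ind E x - ind F x) 0 with hd
  have hdm : Measurable d := ((measurable_ind hE).sub (measurable_ind hF)).max measurable_const
  have hdb : ∀ x, |d x| ≤ 1 := fun x => by
    have := ind_mem E x; have := ind_mem F x
    rw [abs_of_nonneg (le_max_right _ _)]
    exact max_le (by linarith) zero_le_one
  have hdp : IsPer d := (isPer_ind hpE).comp₂ (isPer_ind hpF) fun a b => max (a - b) 0
  have h0 : ∫ x in cell, d x = 0 := by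
    refine integral_eq_zero_of_ae (h.mono fun x hx => ?_)
    by_cases a : x ∈ E
    · simp [hd, ind_of_mem a, ind_of_mem (hx a)]
    · simp [hd, ind_of_notMem a, (ind_mem F x).1]
  rw [← setIntegral_toSlice hdm hdb hdp k] at h0
  have hi := (integrable_prod_of_bound (F := fun s x => d (toSlice k s x))
    (hdm.comp (continuous_toSlice k).measurable) (fun s x => hdb _)).integral_prod_left
  filter_upwards [(integral_eq_zero_iff_of_nonneg
    (fun s => integral_nonneg fun x => le_max_right _ _) hi).1 h0] with s hs
  have iE : IntegrableOn (ind (sliceCyl E k s)) cell :=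
    integrable_cell_of_bound (measurable_ind (measurableSet_sliceCyl hE k s)) (abs_ind_le _)
  have iF : IntegrableOn (ind (sliceCyl F k s)) cell :=
    integrable_cell_of_bound (measurable_ind (measurableSet_sliceCyl hF k s)) (abs_ind_le _)
  rw [← sub_nonpos, sliceVol, sliceVol, ← integral_sub iE iF]
  refine le_trans ?_ (le_of_eq hs)
  refine integral_mono (iE.sub iF) (integrable_cell_of_bound (C := 1)
    (hdm.comp ((continuous_toSlice k).comp (continuous_const.prodMk continuous_id)).measurable)
    fun x => hdb _) fun x => ?_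
  simp only [ind_sliceCyl]
  exact le_max_left _ _

lemma InvAlong.sliceVol_eq {E : Set R3} {k : Fin 3} (h : InvAlong E k) (s : ℝ) :
    sliceVol E k s = ∫ x in cell, ind E x := by
  simp only [sliceVol, ind_sliceCyl, toSlice, h.ind_eq]

/-- If a set of perimeter at most `c₀` is tested nearly to `c₀` by fields orthogonal to the
direction `k`, it is invariant in that direction. -/
theorem exists_invAlong_of {E : Set R3} (hE : MeasurableSet E) (hp : IsPeriodicSet E) (k : Fin 3)
    {c₀ : ℝ} (h0 : 0 ≤ c₀) (h2 : c₀ ≤ 2) (hP : per E ≤ ENNReal.ofReal c₀)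
    (hL : ∀ η > 0, ∃ X, IsTestField X ∧ (∀ x, X x k = 0) ∧
      c₀ - η ≤ ∫ x in E ∩ cell, dv X x) :
    ∃ C, MeasurableSet C ∧ IsPeriodicSet C ∧ InvAlong C k ∧ AEEq E C := by
  have hfin : per E ≠ (⊤ : ℝ≥0∞) := ne_top_of_le_ne_top ENNReal.ofReal_ne_top hP
  have hP2 : (per E).toReal ≤ c₀ := ENNReal.toReal_le_of_le_ofReal h0 hP
  -- the derivative in direction `k` of the indicator vanishes
  have key : ∀ φ : R3 → ℝ, ContDiff ℝ 1 φ → IsPer φ → (∀ x, |φ x| ≤ 1) →
      ∫ x in cell, ind E x * fderiv ℝ φ x (e k) = 0 := by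
    suffices hle : ∀ φ : R3 → ℝ, ContDiff ℝ 1 φ → IsPer φ → (∀ x, |φ x| ≤ 1) →
        ∫ x in cell, ind E x * fderiv ℝ φ x (e k) ≤ 0 by
      intro φ h1 h2 h3
      refine le_antisymm (hle φ h1 h2 h3) ?_
      have := hle (fun x => -φ x) h1.neg (h2.comp fun a => -a) fun x => by simpa using h3 x
      simpa [integral_neg] using this
    intro φ hφ hφp hφb
    refine le_of_forall_pos_le_add fun ε hε => ?_
    obtain ⟨s, hs0, hs1, hsε⟩ : ∃ s : ℝ, 0 < s ∧ s ≤ 1/2 ∧ 3 * s ≤ ε :=
      ⟨min (1/2) (ε/3), lt_min (by norm_num) (by linarith), min_le_left _ _,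
        by linarith [min_le_right (1/2 : ℝ) (ε/3)]⟩
    obtain ⟨X, hX, hXk, hXint⟩ := hL (s ^ 2) (by positivity)
    set c := Real.sqrt (1 - s ^ 2) with hc
    have hc2 : c ^ 2 = 1 - s ^ 2 := Real.sq_sqrt (by nlinarith)
    have hc0 : 0 ≤ c := Real.sqrt_nonneg _
    set W : R3 → R3 := fun x => c • X x + (s * φ x) • e k with hW
    have hWt : IsTestField W := by
      refine ⟨(hX.smooth.const_smul c).add ((contDiff_const.mul hφ).smul contDiff_const),
        hX.periodic.comp₂ hφp fun a b => c • a + (s * b) • e k, fun x => ?_⟩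
      have h1 : ‖W x‖ ^ 2 = c ^ 2 * ‖X x‖ ^ 2 + s ^ 2 * φ x ^ 2 := by
        rw [EuclideanSpace.norm_sq_eq, EuclideanSpace.norm_sq_eq]
        fin_cases k <;> simp [hW, e, Fin.sum_univ_three] <;> simp at hXk <;>
          simp [hXk x] <;> ring
      have hX1 : ‖X x‖ ^ 2 ≤ 1 := by nlinarith [hX.norm_le x, norm_nonneg (X x)]
      have hp1 : φ x ^ 2 ≤ 1 := by nlinarith [sq_abs (φ x), hφb x, abs_nonneg (φ x)]
      nlinarith [norm_nonneg (W x), mul_le_mul_of_nonneg_left hX1 (sq_nonneg c),
        mul_le_mul_of_nonneg_left hp1 (sq_nonneg s)]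
    have hdv : ∀ x, dv W x = c * dv X x + s * fderiv ℝ φ x (e k) := fun x => by
      have d1 := (hX.smooth.differentiable one_ne_zero x)
      have d2 := (hφ.differentiable one_ne_zero x)
      have hd : HasFDerivAt W (c • fderiv ℝ X x + (s • fderiv ℝ φ x).smulRight (e k)) x :=
        (d1.hasFDerivAt.const_smul c).add ((d2.hasFDerivAt.const_mul s).smul_const (e k))
      simp only [dv, hd.fderiv]
      simp [Finset.sum_add_distrib, Finset.mul_sum, e]
    have hWb := (setIntegral_dv_le_per hfin hWt).trans hP2
    rw [setIntegral_inter_cell hE] at hWb hXint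
    have i1 := integrable_cell_mul (measurable_ind hE) (abs_ind_le E) (continuous_dv hX.smooth)
    have i2 := integrable_cell_mul (measurable_ind hE) (abs_ind_le E)
      (h := fun x => fderiv ℝ φ x (e k)) (by fun_prop)
    have hsum : ∫ x in cell, E.indicator 1 x * dv W x
        = c * (∫ x in cell, ind E x * dv X x)
          + s * ∫ x in cell, ind E x * fderiv ℝ φ x (e k) := by
      rw [← integral_const_mul, ← integral_const_mul, ← integral_add (i1.const_mul c)
        (i2.const_mul s)]
      refine setIntegral_congr_fun measurableSet_cell fun x _ => ?_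
      simp only [hdv, ind]
      ring
    rw [hsum] at hWb
    have hc1 : 1 - s ^ 2 ≤ c := by nlinarith
    have h2' : c * (c₀ - s ^ 2) ≤ c * ∫ x in cell, ind E x * dv X x :=
      mul_le_mul_of_nonneg_left hXint hc0
    have h3 : (1 - s ^ 2) * c₀ ≤ c * c₀ := mul_le_mul_of_nonneg_right hc1 h0
    have h6 : c ≤ 1 := Real.sqrt_le_one.2 (by nlinarith)
    have h4 : s * ∫ x in cell, ind E x * fderiv ℝ φ x (e k) ≤ 3 * s ^ 2 := by nlinarith
    have h5 : ∫ x in cell, ind E x * fderiv ℝ φ x (e k) ≤ 3 * s := by
      by_contra h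
      nlinarith [lt_of_not_ge h]
    linarith
  obtain ⟨u, hu', -, hul⟩ := exists_approx hE hp hfin
  set g := ind E with hg
  have gm := measurable_ind hE
  have gp := isPer_ind hp
  -- invariance of the pairing with smooth functions
  have shiftPair : ∀ φ : R3 → ℝ, ContDiff ℝ 1 φ → IsPer φ → (∀ x, |φ x| ≤ 1) → ∀ t : ℝ,
      ∫ x in cell, g (x + t • e k) * φ x = ∫ x in cell, g x * φ x := by
    intro φ hφ hφp hφb t
    set ψ : ℝ → ℝ := fun t => ∫ x in cell, g x * φ (x - t • e k) with hψ
    have hψd : ∀ t, HasDerivAt ψ 0 t := by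
      intro t₀
      have hcd : Continuous fun x => fderiv ℝ φ x (e k) := by fun_prop
      obtain ⟨C, -, hC⟩ := (hφp.fderiv.comp fun L => L (e k)).bounded hcd
      have h := (hasDerivAt_integral_of_dominated_loc_of_deriv_le (μ := volume.restrict cell)
        (F := fun (t : ℝ) x => g x * φ (x - t • e k))
        (F' := fun t x => g x * -fderiv ℝ φ (x - t • e k) (e k))
        (bound := fun _ => C) (x₀ := t₀) (s := univ) univ_mem
        (Eventually.of_forall fun t =>
          (gm.mul (hφ.continuous.comp (by fun_prop)).measurable).aestronglyMeasurable)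
        (integrable_cell_of_bound (C := 1) (gm.mul (hφ.continuous.comp (by fun_prop)).measurable)
          fun x => by rw [abs_mul]; exact mul_le_one₀ (abs_ind_le E x) (abs_nonneg _) (hφb _))
        ((gm.mul (hcd.comp (by fun_prop)).neg.measurable).aestronglyMeasurable)
        (ae_of_all _ fun x t _ => by
          rw [norm_mul, norm_neg]
          exact (mul_le_of_le_one_left (norm_nonneg _) (abs_ind_le E x)).trans (hC _))
        (integrable_const C)
        (ae_of_all _ fun x t _ => by
          have h1 : HasDerivAt (fun t : ℝ => x - t • e k) (-e k) t := by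
            simpa using ((hasDerivAt_id t).smul_const (e k)).const_sub x
          have h2 := ((hφ.differentiable one_ne_zero) _).hasFDerivAt.comp_hasDerivAt t h1
          rw [map_neg] at h2
          exact h2.const_mul (g x))).2
      refine h.congr_deriv ?_
      have hz := key (fun x => φ (x - t₀ • e k)) (hφ.comp (contDiff_id.sub contDiff_const))
        (hφp.comp_sub _) fun x => hφb _
      simp only [sub_eq_add_neg, fderiv_comp_add_right] at hz
      simp only [mul_neg, integral_neg, sub_eq_add_neg]
      rw [hz, neg_zero]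
    have hconst := is_const_of_deriv_eq_zero (fun t => (hψd t).differentiableAt)
      (fun t => (hψd t).deriv) t 0
    have h1 : ψ t = ∫ x in cell, g (x + t • e k) * φ x := by
      have := ((gp.comp₂ (hφp.comp_sub (t • e k)) fun a b => a * b)).setIntegral_add (t • e k)
      simp only [add_sub_cancel_right] at this
      exact this.symm
    rw [← h1, hconst]
    simp [hψ]
  -- translations in direction `k` do not move the set
  have shiftAE : ∀ t : ℝ, ∫ x in cell, |g (x + t • e k) - g x| = 0 := by
    intro t
    have gt : Measurable fun x => g (x + t • e k) := gm.comp (measurable_id.add_const _)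
    have lim : ∀ f : R3 → ℝ, Measurable f → (∀ x, |f x| ≤ 1) →
        Tendsto (fun n => ∫ x in cell, f x * u n x) atTop (𝓝 (∫ x in cell, f x * g x)) := by
      intro f hf hfb
      refine tendsto_iff_norm_sub_tendsto_zero.2 (squeeze_zero (fun n => norm_nonneg _)
        (fun n => ?_) hul)
      have hun := (hu' n).1.continuous.measurable
      have hub : ∀ x, |u n x| ≤ 1 := fun x => abs_le.2
        ⟨by linarith [((hu' n).2.2.1 x).1], ((hu' n).2.2.1 x).2⟩
      have j1 : IntegrableOn (fun x => f x * u n x) cell :=
        integrable_cell_of_bound (C := 1) (hf.mul hun) fun x => by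
          rw [abs_mul]; exact mul_le_one₀ (hfb x) (abs_nonneg _) (hub x)
      have j2 : IntegrableOn (fun x => f x * g x) cell :=
        integrable_cell_of_bound (C := 1) (hf.mul gm) fun x => by
          rw [abs_mul]; exact mul_le_one₀ (hfb x) (abs_nonneg _) (abs_ind_le E x)
      rw [Real.norm_eq_abs, ← integral_sub j1 j2]
      refine abs_integral_le_integral_abs.trans (setIntegral_mono_on (j1.sub j2).abs
        (integrable_cell_of_bound (C := 2) (hun.sub gm).abs fun x => by
          rw [abs_abs, abs_le]
          have := indicator_one_mem E x; have := (hu' n).2.2.1 x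
          constructor <;> linarith) measurableSet_cell fun x _ => ?_)
      rw [← mul_sub, abs_mul]
      exact mul_le_of_le_one_left (abs_nonneg _) (hfb x)
    have e1 : ∫ x in cell, g (x + t • e k) * g x = ∫ x in cell, g x * g x :=
      tendsto_nhds_unique (lim _ gt fun x => abs_ind_le E _)
        ((lim g gm (abs_ind_le E)).congr fun n => (shiftPair (u n)
          ((hu' n).1.of_le (by norm_cast)) (hu' n).2.1 (fun x => abs_le.2
            ⟨by linarith [((hu' n).2.2.1 x).1], ((hu' n).2.2.1 x).2⟩) t).symm)
    have i0 : ∀ f : R3 → ℝ, Measurable f → (∀ x, |f x| ≤ 1) → IntegrableOn f cell :=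
      fun f h1 h2 => integrable_cell_of_bound h1 h2
    have sq : ∀ x, g x * g x = g x := fun x => by
      by_cases a : x ∈ E <;> simp [hg, ind, a]
    have habs : ∀ x, |g (x + t • e k) - g x| =
        g (x + t • e k) + g x - 2 * (g (x + t • e k) * g x) := fun x => by
      by_cases a : x ∈ E <;> by_cases b : x + t • e k ∈ E <;> norm_num [hg, ind, a, b]
    have i3 : IntegrableOn (fun x => g (x + t • e k) * g x) cell :=
      i0 _ (gt.mul gm) fun x => by
        rw [abs_mul]; exact mul_le_one₀ (abs_ind_le E _) (abs_nonneg _) (abs_ind_le E _)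
    simp only [habs]
    rw [integral_sub ((i0 _ gt fun x => abs_ind_le E _).fun_add (i0 _ gm (abs_ind_le E)))
      (i3.const_mul 2), integral_add (i0 _ gt fun x => abs_ind_le E _) (i0 _ gm (abs_ind_le E)),
      integral_const_mul, e1, gp.setIntegral_add]
    simp only [sq]
    ring
  -- one slice represents the set
  have hm : Measurable fun p : ℝ × R3 => |g p.2 - g (toSlice k p.1 p.2)| :=
    ((gm.comp measurable_snd).sub (gm.comp (continuous_toSlice k).measurable)).abs
  have hb : ∀ (s : ℝ) (x : R3), abs (|g x - g (toSlice k s x)|) ≤ 2 := fun s x => by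
    rw [abs_abs, abs_le]
    have := ind_mem E x; have := ind_mem E (toSlice k s x)
    constructor <;> linarith
  have hi := integrable_prod_of_bound (F := fun s x => |g x - g (toSlice k s x)|) hm hb
  have hi' := integrable_prod_of_bound (F := fun s x => |g x - g (x + s • e k)|)
    ((gm.comp measurable_snd).sub
      (gm.comp (by fun_prop : Continuous fun p : ℝ × R3 => p.2 + p.1 • e k).measurable)).abs
    (C := 2) (fun s x => by
      rw [abs_abs, abs_le]
      have := ind_mem E x; have := ind_mem E (x + s • e k)
      constructor <;> linarith)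
  have hzero : ∫ s in Ioc (0 : ℝ) 1, (∫ x in cell, |g x - g (toSlice k s x)|) = 0 := by
    rw [integral_integral_swap hi]
    have : ∀ x, ∫ s in Ioc (0 : ℝ) 1, |g x - g (toSlice k s x)|
        = ∫ s in Ioc (0 : ℝ) 1, |g x - g (x + s • e k)| := fun x => by
      have := setIntegral_Ioc_shift
        ((periodic_line gp k x).comp fun b => |g x - b|) (-(x k))
      simpa [toSlice, sub_eq_add_neg] using this
    simp only [this]
    rw [← integral_integral_swap hi']
    simp only [abs_sub_comm (g _) (g (_ + _ • e k)), shiftAE, integral_zero]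
  have : (ae (volume.restrict (Ioc (0 : ℝ) 1))).NeBot := ae_neBot.2 (by simp)
  obtain ⟨s, hs⟩ := ((integral_eq_zero_iff_of_nonneg
    (fun s => integral_nonneg fun x => abs_nonneg _) hi.integral_prod_left).1 hzero).exists
  exact ⟨sliceCyl E k s, measurableSet_sliceCyl hE k s, isPeriodicSet_sliceCyl hp k s,
    invAlong_sliceCyl E k s, aeEq_of_integral hE (measurableSet_sliceCyl hE k s)
      (by simpa [ind_sliceCyl] using hs)⟩

/-- If a set of perimeter at most `2` is tested nearly to `2` by fields orthogonal to the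
direction `k`, it is invariant in that direction. -/
theorem exists_invAlong {E : Set R3} (hE : MeasurableSet E) (hp : IsPeriodicSet E) (k : Fin 3)
    (hP : per E ≤ 2)
    (hL : ∀ η > 0, ∃ X, IsTestField X ∧ (∀ x, X x k = 0) ∧
      2 - η ≤ ∫ x in E ∩ cell, dv X x) :
    ∃ C, MeasurableSet C ∧ IsPeriodicSet C ∧ InvAlong C k ∧ AEEq E C :=
  exists_invAlong_of hE hp k zero_le_two le_rfl (by simpa using hP) hL

end Vale.Agent.P232
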