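import Vale.Agent.P232.Uniq.Marginal

/-!
Vocabulary for the one-dimensional test inequality of a periodic profile with a weight.
-/

open MeasureTheory Set Filter Function
open scoped ENNReal Topology Interval

namespace Vale.Agent.P232

/-- Every periodic test `α` of modulus below one pairs with the profile `f` and the weight `L`
to at most `P`. -/
def TestBound (f L : ℝ → ℝ) (P : ℝ) : Prop :=
  ∀ α : ℝ → ℝ, ContDiff ℝ 1 α → Periodic α 1 → (∀ s, |α s| < 1) →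
    ∫ s in (0 : ℝ)..1, (f s * deriv α s + L s * Real.sqrt (1 - α s ^ 2)) ≤ P

/-- `a` and `b` are the essential bounds of a periodic function. -/
structure EssBounds (f : ℝ → ℝ) (a b : ℝ) : Prop where
  mem : ∀ᵐ s : ℝ, f s ∈ Icc a b
  low : ∀ ε > 0, 0 < volume ({s | f s < a + ε} ∩ Ioc (0 : ℝ) 1)
  high : ∀ ε > 0, 0 < volume ({s | b - ε < f s} ∩ Ioc (0 : ℝ) 1)

theorem TestBound.mono {f L : ℝ → ℝ} {P Q : ℝ} (h : TestBound f L P) (hPQ : P ≤ Q) :
    TestBound f L Q := fun α h1 h2 h3 => (h α h1 h2 h3).trans hPQ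

theorem ae_of_ae_Ioc {f : ℝ → ℝ} (hp : Periodic f 1) {p : ℝ → Prop}
    (h : ∀ᵐ s ∂volume.restrict (Ioc (0 : ℝ) 1), p (f s)) : ∀ᵐ s : ℝ, p (f s) := by
  rw [ae_restrict_iff' measurableSet_Ioc] at h
  have hz : ∀ n : ℤ, ∀ᵐ s : ℝ, s + n ∈ Ioc (0 : ℝ) 1 → p (f s) := fun n => by
    filter_upwards [(measurePreserving_add_right volume (n : ℝ)).quasiMeasurePreserving.ae h]
      with s hs hm
    simpa using (hp.int_mul n s) ▸ (by simpa using hs hm)
  filter_upwards [ae_all_iff.2 hz] with s hs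
  refine hs (1 - ⌈s⌉) ⟨?_, ?_⟩ <;> push_cast <;> linarith [Int.le_ceil s, Int.ceil_lt_add_one s]

/-- A bounded periodic function has essential bounds. -/
theorem exists_essBounds {f : ℝ → ℝ} (hp : Periodic f 1) {A B : ℝ}
    (hb : ∀ᵐ s : ℝ, f s ∈ Icc A B) : ∃ a b, EssBounds f a b ∧ A ≤ a ∧ a ≤ b ∧ b ≤ B := by
  set μ := volume.restrict (Ioc (0 : ℝ) 1)
  haveI : NeZero μ := ⟨by simp [μ, Measure.restrict_eq_zero]⟩
  have hb' := ae_restrict_of_ae (s := Ioc (0 : ℝ) 1) hb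
  set S : Set ℝ := {a | ∀ᵐ s ∂μ, a ≤ f s} with hS
  set T : Set ℝ := {b | ∀ᵐ s ∂μ, f s ≤ b} with hT
  have hAS : A ∈ S := hb'.mono fun s h => h.1
  have hBT : B ∈ T := hb'.mono fun s h => h.2
  have hle : ∀ a ∈ S, ∀ b ∈ T, a ≤ b := fun a ha b hb => by
    obtain ⟨s, h1, h2⟩ := (Filter.Eventually.and (show ∀ᵐ s ∂μ, a ≤ f s from ha)
      (show ∀ᵐ s ∂μ, f s ≤ b from hb)).exists
    exact le_trans h1 h2
  have hSb : BddAbove S := ⟨B, fun a ha => hle a ha B hBT⟩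
  have hTb : BddBelow T := ⟨A, fun b hb => hle A hAS b hb⟩
  have haS : sSup S ∈ S := by
    show ∀ᵐ s ∂μ, sSup S ≤ f s
    obtain ⟨u, -, hu, hmem⟩ := exists_seq_tendsto_sSup ⟨A, hAS⟩ hSb
    filter_upwards [ae_all_iff.2 hmem] with s hs
    exact le_of_tendsto' hu hs
  have hbT : sInf T ∈ T := by
    show ∀ᵐ s ∂μ, f s ≤ sInf T
    obtain ⟨u, -, hu, hmem⟩ := exists_seq_tendsto_sInf ⟨B, hBT⟩ hTb
    filter_upwards [ae_all_iff.2 hmem] with s hs
    exact ge_of_tendsto' hu hs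
  refine ⟨sSup S, sInf T, ⟨?_, ?_, ?_⟩, le_csSup hSb hAS, hle _ haS _ hbT, csInf_le hTb hBT⟩
  · exact (ae_of_ae_Ioc hp (p := fun y => sSup S ≤ y) haS).and
      (ae_of_ae_Ioc hp (p := fun y => y ≤ sInf T) hbT)
  · intro ε hε
    refine pos_iff_ne_zero.2 fun h0 => ?_
    have : sSup S + ε ∈ S := by
      show ∀ᵐ s ∂μ, sSup S + ε ≤ f s
      rw [ae_restrict_iff' measurableSet_Ioc]
      filter_upwards [measure_eq_zero_iff_ae_notMem.1 h0] with s hs hm
      by_contra hc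
      exact hs ⟨not_le.1 hc, hm⟩
    linarith [le_csSup hSb this]
  · intro ε hε
    refine pos_iff_ne_zero.2 fun h0 => ?_
    have : sInf T - ε ∈ T := by
      show ∀ᵐ s ∂μ, f s ≤ sInf T - ε
      rw [ae_restrict_iff' measurableSet_Ioc]
      filter_upwards [measure_eq_zero_iff_ae_notMem.1 h0] with s hs hm
      by_contra hc
      exact hs ⟨not_le.1 hc, hm⟩
    linarith [csInf_le hTb this]

end Vale.Agent.P232
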