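import Vale.Agent.P232.Uniq.TestBound

/-!
The one-dimensional test inequality for the slice areas of a periodic set, with the weight given
by a lower bound for the perimeters of the slices.
-/

open MeasureTheory Set Filter Function
open scoped ENNReal Topology RealInnerProductSpace ContDiff

namespace Vale.Agent.P232

/-- If almost every slice has perimeter at least a height-dependent `c`, the set is tested, with a
weight depending on the height, nearly to the weighted mean of `c` by a field orthogonal to `k`. -/
theorem exists_field_of_slices_var {E : Set R3} (hE : MeasurableSet E) (hp : IsPeriodicSet E)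
    (k : Fin 3) {c : ℝ → ℝ} {K : ℝ} (hc : Measurable c) (hc0 : ∀ s, 0 ≤ c s) (hcK : ∀ s, c s ≤ K)
    {w : ℝ → ℝ} (hw : Continuous w)
    (hwp : Function.Periodic w 1) (hw01 : ∀ s, w s ∈ Icc (0 : ℝ) 1)
    (h : ∀ᵐ s ∂volume.restrict (Ioc (0 : ℝ) 1), ENNReal.ofReal (c s) ≤ per (sliceCyl E k s))
    {η : ℝ} (hη : 0 < η) :
    ∃ X, IsTestField X ∧ (∀ x, X x k = 0) ∧
      (∫ s, c s * w s ∂volume.restrict (Ioc (0 : ℝ) 1)) - η
        ≤ ∫ x in cell, ind E x * (w (x k) * dv X x) := by
  set M := ∫ s, c s * w s ∂volume.restrict (Ioc (0 : ℝ) 1) with hMdef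
  have hwi : Integrable w (volume.restrict (Ioc (0 : ℝ) 1)) :=
    Integrable.mono' (integrable_const (1 : ℝ)) hw.aestronglyMeasurable
      (ae_of_all _ fun s => abs_le.2 ⟨by linarith [(hw01 s).1], (hw01 s).2⟩)
  have hcwi : Integrable (fun s => c s * w s) (volume.restrict (Ioc (0 : ℝ) 1)) :=
    Integrable.mono' (integrable_const K) (hc.mul hw.measurable).aestronglyMeasurable
      (ae_of_all _ fun s => by
        rw [Real.norm_of_nonneg (mul_nonneg (hc0 s) (hw01 s).1)]
        exact (mul_le_of_le_one_right (hc0 s) (hw01 s).2).trans (hcK s))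
  set θ := η / 4 with hθ
  have hθ0 : 0 < θ := by positivity
  obtain ⟨F, hF, hdense⟩ := exists_flat_seq k
  set g : ℕ → ℝ → ℝ := fun i s => ∫ x in cell, ind E (toSlice k s x) * dv (F i) x with hg
  have gmeas : ∀ i, Measurable (g i) := fun i => by
    have hm : Measurable fun p : ℝ × R3 => ind E (toSlice k p.1 p.2) * dv (F i) p.2 :=
      ((measurable_ind hE).comp (continuous_toSlice k).measurable).mul
        ((continuous_dv (hF i).test.smooth).measurable.comp measurable_snd)
    exact (hm.stronglyMeasurable.integral_prod_right' (ν := volume.restrict cell)).measurable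
  set A : ℕ → Set ℝ := fun i => Ioo 0 1 ∩ {s | c s - 2 * θ ≤ g i s} with hA
  have Am : ∀ i, MeasurableSet (A i) := fun i =>
    measurableSet_Ioo.inter (measurableSet_le (hc.sub_const _) (gmeas i))
  -- the union has full measure
  have hIoo : ∀ᵐ s ∂volume.restrict (Ioc (0 : ℝ) 1), s ∈ Ioo (0 : ℝ) 1 := by
    rw [← Measure.restrict_congr_set Ioo_ae_eq_Ioc]
    exact ae_restrict_mem measurableSet_Ioo
  have hfull : ∀ᵐ s ∂volume.restrict (Ioc (0 : ℝ) 1), s ∈ ⋃ i, A i := by
    filter_upwards [h, hIoo] with s hs hmem
    have hCm := measurableSet_sliceCyl hE k s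
    obtain ⟨X, hX, hX2⟩ := exists_test_gt hs hθ0
    obtain ⟨Y, hY, hY2⟩ := exists_flat hCm (isPeriodicSet_sliceCyl hp k s)
      (invAlong_sliceCyl E k s) hX
    obtain ⟨i, hi⟩ := hdense Y hY θ hθ0
    refine mem_iUnion.2 ⟨i, hmem, ?_⟩
    show c s - 2 * θ ≤ g i s
    have hge := hX2.trans hY2
    rw [setIntegral_inter_cell hCm] at hge
    have i1 := integrable_cell_mul (measurable_ind hCm) (abs_ind_le _)
      (continuous_dv hY.test.smooth)
    have i2 := integrable_cell_mul (measurable_ind hCm) (abs_ind_le _)
      (continuous_dv (hF i).test.smooth)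
    have hdiff : (∫ x in cell, ind (sliceCyl E k s) x * dv Y x) - g i s ≤ θ := by
      have e0 : g i s = ∫ x in cell, ind (sliceCyl E k s) x * dv (F i) x := by
        simp [hg, ind_sliceCyl]
      rw [e0, ← integral_sub i1 i2]
      calc _ ≤ ∫ x in cell, θ := by
            refine setIntegral_mono_on (i1.sub i2) (integrable_const θ) measurableSet_cell
              fun x hx => ?_
            rw [← mul_sub]
            exact (le_abs_self _).trans ((abs_mul _ _).le.trans
              ((mul_le_of_le_one_left (abs_nonneg _) (abs_ind_le _ x)).trans (hi x hx)))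
        _ = θ := by simp [Measure.real, volume_cell]
    simp only [ind] at hdiff
    linarith
  set B : ℕ → Set ℝ := disjointed A with hB
  have Bm : ∀ i, MeasurableSet (B i) := fun i => MeasurableSet.disjointed Am i
  have BA : ∀ i, B i ⊆ A i := fun i => disjointed_subset A i
  have Bd : Pairwise (Function.onFun Disjoint B) := disjoint_disjointed A
  have htend : Tendsto (fun N : ℕ => ∑ i ∈ Finset.range N,
      ∫ s in B i, c s * w s ∂volume.restrict (Ioc (0 : ℝ) 1)) atTop (𝓝 M) := by
    have h1 : M = ∫ s in ⋃ i, B i, c s * w s ∂volume.restrict (Ioc (0 : ℝ) 1) := by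
      rw [hMdef, ← setIntegral_univ]
      refine setIntegral_congr_set ?_
      rw [hB, iUnion_disjointed]
      filter_upwards [hfull] with s hs
      exact propext ⟨fun _ => hs, fun _ => trivial⟩
    rw [h1]
    exact (hasSum_integral_iUnion Bm Bd hcwi.integrableOn).tendsto_sum_nat
  obtain ⟨N, hN⟩ := (htend.eventually (lt_mem_nhds (show M - θ < M by linarith))).exists
  -- the glued fields
  set S : ℕ → Set R3 := fun i => heights k (B i) with hS
  have Sm : ∀ i, MeasurableSet (S i) := fun i => measurableSet_heights k (Bm i)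
  set ψ : ℕ → ℕ → R3 → ℝ := fun n i => moll (bump n) (S i) with hψ
  set X : ℕ → R3 → R3 := fun n x => ∑ i ∈ Finset.range N, ψ n i x • F i x with hX
  have hψc : ∀ n i, ContDiff ℝ 1 (ψ n i) := fun n i =>
    (moll_contDiff (bump n) (Sm i)).of_le (by norm_cast)
  have hsum : ∀ n x, ∑ i ∈ Finset.range N, ψ n i x ≤ 1 := fun n x => by
    simp only [hψ, moll_apply]
    have hmem : ∀ y, ∑ i ∈ Finset.range N, (S i).indicator (1 : R3 → ℝ) y ≤ 1 := fun y => by
      rw [← Finset.indicator_biUnion_apply]
      · exact (indicator_one_mem _ y).2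
      · exact fun i _ j _ hij => (Bd hij).preimage fun z : R3 => Int.fract (z k)
    have hint : ∀ i ∈ Finset.range N, Integrable (fun t =>
        (bump n).normed volume t * (S i).indicator (1 : R3 → ℝ) (x - t)) := fun i _ => by
      refine Integrable.mono' ((bump n).integrable_normed (μ := volume))
        ((bump n).continuous_normed.measurable.mul
          ((measurable_ind (Sm i)).comp (measurable_const.sub measurable_id))).aestronglyMeasurable
        (ae_of_all _ fun t => ?_)
      rw [norm_mul, Real.norm_of_nonneg ((bump n).nonneg_normed t)]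
      exact mul_le_of_le_one_right ((bump n).nonneg_normed t) (abs_ind_le (S i) _)
    rw [← integral_finsetSum _ hint]
    calc _ ≤ ∫ t, (bump n).normed volume t := by
          refine integral_mono (integrable_finsetSum _ hint) (bump n).integrable_normed fun t => ?_
          rw [← Finset.mul_sum]
          exact mul_le_of_le_one_right ((bump n).nonneg_normed t) (hmem _)
      _ = 1 := (bump n).integral_normed
  have hXt : ∀ n, IsTestField (X n) := fun n => by
    refine ⟨ContDiff.sum fun i _ => (hψc n i).smul (hF i).test.smooth, fun j x => ?_, fun x => ?_⟩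
    · simp only [hX]
      refine Finset.sum_congr rfl fun i _ => ?_
      rw [(hF i).test.periodic j x]
      exact congrArg (· • F i x) (moll_isPer (bump n) (isPeriodicSet_heights k (B i)) j x)
    · refine (norm_sum_le _ _).trans (le_trans (Finset.sum_le_sum fun i _ => ?_) (hsum n x))
      rw [norm_smul, Real.norm_of_nonneg (moll_mem _ x).1]
      exact mul_le_of_le_one_right (moll_mem _ x).1 ((hF i).test.norm_le x)
  have hdv : ∀ n x, dv (X n) x = ∑ i ∈ Finset.range N, ψ n i x * dv (F i) x := fun n x => by
    have hd : HasFDerivAt (X n) (∑ i ∈ Finset.range N, (ψ n i x • fderiv ℝ (F i) x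
        + (fderiv ℝ (ψ n i) x).smulRight (F i x))) x :=
      HasFDerivAt.fun_sum fun i _ => ((hψc n i).differentiable one_ne_zero x).hasFDerivAt.smul
        (((hF i).test.smooth.differentiable one_ne_zero) x).hasFDerivAt
    have hz : ∀ i j, fderiv ℝ (ψ n i) x (e j) * F i x j = 0 := fun i j => by
      by_cases hjk : j = k
      · subst hjk; simp [(hF i).orth x]
      · rw [fderiv_eq_zero_of_line ((hψc n i).differentiable one_ne_zero x)
          fun t => (invAlong_heights hjk (B i)).moll _ x t, zero_mul]
    simp only [dv, hd.fderiv, _root_.sum_apply, WithLp.ofLp_sum, Finset.sum_apply]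
    rw [Finset.sum_comm]
    refine Finset.sum_congr rfl fun i _ => ?_
    rw [Finset.mul_sum]
    refine Finset.sum_congr rfl fun j _ => ?_
    simp [hz i j]
  -- the limit of the pairings
  have gm := measurable_ind hE
  have hwF : ∀ i, IsPer (fun x : R3 => w (x k) * dv (F i) x) ∧
      Continuous fun x : R3 => w (x k) * dv (F i) x := fun i => by
    refine ⟨fun j x => ?_, (hw.comp (PiLp.continuous_apply 2 _ k)).mul
      (continuous_dv (hF i).test.smooth)⟩
    simp only [(hF i).test.periodic.dv j x]
    by_cases a : j = k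
    · subst a; simp only [PiLp.add_apply, e_self, hwp _]
    · simp [e_ne a]
  have hlim : Tendsto (fun n => ∫ x in cell, ind E x * (w (x k) * dv (X n) x)) atTop
      (𝓝 (∑ i ∈ Finset.range N, ∫ x in cell, ind E x * ind (S i) x * (w (x k) * dv (F i) x))) := by
    have hterm : ∀ i, Tendsto (fun n => ∫ x in cell, ind E x * ψ n i x * (w (x k) * dv (F i) x)) atTop
        (𝓝 (∫ x in cell, ind E x * ind (S i) x * (w (x k) * dv (F i) x))) := fun i => by
      obtain ⟨D, hD0, hD⟩ := (hwF i).1.bounded (hwF i).2
      have hli : LocallyIntegrable ((S i).indicator (1 : R3 → ℝ)) volume :=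
        (locallyIntegrable_const (1 : ℝ)).indicator (Sm i)
      have hae : ∀ᵐ x, Tendsto (fun n => ψ n i x) atTop (𝓝 (ind (S i) x)) :=
        ContDiffBump.ae_convolution_tendsto_right_of_locallyIntegrable (K := 2)
          tendsto_one_div_add_atTop_nhds_zero_nat
          (Eventually.of_forall fun n => le_of_eq (by simp only [bump]; field_simp)) hli
      refine tendsto_integral_of_dominated_convergence (fun _ => D)
        (fun n => ((gm.mul (hψc n i).continuous.measurable).mul
          (hwF i).2.measurable).aestronglyMeasurable)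
        (integrable_const D) (fun n => ae_of_all _ fun x => ?_)
        ((ae_restrict_of_ae hae).mono fun x hx => (hx.const_mul _).mul_const _)
      rw [norm_mul, norm_mul]
      refine (mul_le_of_le_one_left (norm_nonneg _) (mul_le_one₀ (abs_ind_le E x)
        (norm_nonneg _) ?_)).trans (hD x)
      rw [Real.norm_of_nonneg (moll_mem _ x).1]
      exact (moll_mem _ x).2
    refine (tendsto_finsetSum _ fun i _ => hterm i).congr fun n => ?_
    rw [← integral_finsetSum _ fun i _ => ?_]
    · refine setIntegral_congr_fun measurableSet_cell fun x _ => ?_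
      simp only [hdv, Finset.mul_sum]
      exact Finset.sum_congr rfl fun i _ => by ring
    · refine integrable_cell_mul (C := 1) (gm.mul (hψc n i).continuous.measurable) (fun x => ?_)
        (hwF i).2
      rw [abs_mul]
      exact mul_le_one₀ (abs_ind_le E x) (abs_nonneg _)
        (abs_le.2 ⟨by linarith [(moll_mem (bump n) (E := S i) x).1], (moll_mem _ x).2⟩)
  -- the limit is large
  have hbig : ∀ i, (∫ s in B i, c s * w s ∂volume.restrict (Ioc (0 : ℝ) 1))
      - 2 * θ * (∫ s in B i, w s ∂volume.restrict (Ioc (0 : ℝ) 1))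
      ≤ ∫ x in cell, ind E x * ind (S i) x * (w (x k) * dv (F i) x) := fun i => by
    obtain ⟨D, hD0, hD⟩ := (hwF i).1.bounded (hwF i).2
    have qm : Measurable fun x => ind E x * ind (S i) x * (w (x k) * dv (F i) x) :=
      (gm.mul (measurable_ind (Sm i))).mul (hwF i).2.measurable
    have qb : ∀ x, |ind E x * ind (S i) x * (w (x k) * dv (F i) x)| ≤ D := fun x => by
      rw [abs_mul, abs_mul]
      exact (mul_le_of_le_one_left (abs_nonneg _)
        (mul_le_one₀ (abs_ind_le _ x) (abs_nonneg _) (abs_ind_le _ x))).trans (hD x)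
    have qp : IsPer fun x => ind E x * ind (S i) x * (w (x k) * dv (F i) x) :=
      ((isPer_ind hp).comp₂ (isPer_ind (isPeriodicSet_heights k (B i))) fun a b => a * b).comp₂
        (hwF i).1 fun a b => a * b
    rw [← setIntegral_toSlice qm qb qp k]
    have hind : ∀ s ∈ Ioo (0 : ℝ) 1, ∀ x,
        ind (S i) (toSlice k s x) = (B i).indicator 1 s := fun s hs x => by
      have hf : Int.fract s = s := Int.fract_eq_self.2 ⟨hs.1.le, hs.2⟩
      by_cases a : s ∈ B i
      · rw [indicator_of_mem a, ind_of_mem]; · rfl
        simp [hS, heights, toSlice_apply_self, hf, a]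
      · rw [indicator_of_notMem a, ind_of_notMem]
        simp [hS, heights, toSlice_apply_self, hf, a]
    have hrhs : (fun s => ∫ x in cell, ind E (toSlice k s x) * ind (S i) (toSlice k s x)
        * (w (toSlice k s x k) * dv (F i) (toSlice k s x))) =ᵐ[volume.restrict (Ioc (0 : ℝ) 1)]
        (B i).indicator (fun s => w s * g i s) := by
      filter_upwards [hIoo] with s hs
      have e2 : ∀ x, dv (F i) (toSlice k s x) = dv (F i) x := fun x => dv_line (hF i) x _
      simp only [hind s hs, e2, toSlice_apply_self]
      by_cases a : s ∈ B i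
      · simp only [indicator_of_mem a, Pi.one_apply, hg, mul_one, ← integral_const_mul]
        exact integral_congr_ae (ae_of_all _ fun x => by ring)
      · simp [a]
    rw [integral_congr_ae hrhs, integral_indicator (Bm i)]
    obtain ⟨D₀, -, hD₀⟩ :=
      (hF i).test.periodic.dv.bounded (continuous_dv (hF i).test.smooth)
    have hgi : IntegrableOn (fun s => w s * g i s) (B i) (volume.restrict (Ioc (0 : ℝ) 1)) := by
      refine (Integrable.mono' (integrable_const D₀) (hw.measurable.mul (gmeas i)).aestronglyMeasurable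
        (ae_of_all _ fun s => ?_)).integrableOn
      simp only [Pi.mul_apply]
      rw [norm_mul]
      refine (mul_le_of_le_one_left (norm_nonneg _)
        (abs_le.2 ⟨by linarith [(hw01 s).1], (hw01 s).2⟩)).trans ?_
      refine (norm_integral_le_of_norm_le_const (ae_of_all _ fun x => ?_)).trans
        (le_of_eq (by simp [Measure.real, volume_cell]; rfl))
      rw [norm_mul]
      exact (mul_le_of_le_one_left (norm_nonneg _) (abs_ind_le E _)).trans (hD₀ x)
    rw [← integral_const_mul, ← integral_sub hcwi.integrableOn (hwi.integrableOn.const_mul _)]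
    refine setIntegral_mono_on (hcwi.integrableOn.sub (hwi.integrableOn.const_mul _)) hgi (Bm i)
      fun s hs => ?_
    have h1 := mul_le_mul_of_nonneg_left ((BA i) hs).2 (hw01 s).1
    linarith
  have hL : M - η + θ ≤ ∑ i ∈ Finset.range N, ∫ x in cell, ind E x * ind (S i) x * (w (x k) * dv (F i) x) := by
    refine le_trans ?_ (Finset.sum_le_sum fun i _ => hbig i)
    rw [Finset.sum_sub_distrib, ← Finset.mul_sum]
    have hW : ∑ i ∈ Finset.range N, ∫ s in B i, w s ∂volume.restrict (Ioc (0 : ℝ) 1) ≤ 1 := by
      rw [← integral_biUnion_finset _ (fun i _ => Bm i) (fun i _ j _ hij => Bd hij)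
        (fun i _ => hwi.integrableOn)]
      refine (setIntegral_le_integral hwi (ae_of_all _ fun s => (hw01 s).1)).trans ?_
      refine (integral_mono hwi (integrable_const (1 : ℝ)) fun s => (hw01 s).2).trans ?_
      simp [Measure.real]
    have hη4 : η = 4 * θ := by rw [hθ]; ring
    linarith [mul_le_mul_of_nonneg_left hW hθ0.le, hN.le]
  obtain ⟨n, hn⟩ := (hlim.eventually (le_mem_nhds (show M - η <
    ∑ i ∈ Finset.range N, ∫ x in cell, ind E x * ind (S i) x * (w (x k) * dv (F i) x) by linarith))).exists
  refine ⟨X n, hXt n, fun x => ?_, ?_⟩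
  · simp [hX, (hF _).orth x]
  · exact hn


/-- If almost every slice has perimeter at least `c`, the slice areas satisfy the test inequality
with weight `c`. -/
theorem testBound_of_slices {E : Set R3} (hE : MeasurableSet E) (hp : IsPeriodicSet E) (k : Fin 3)
    {c : ℝ → ℝ} {K : ℝ} (hc : Measurable c) (hc0 : ∀ s, 0 ≤ c s) (hcK : ∀ s, c s ≤ K)
    (h : ∀ᵐ s ∂volume.restrict (Ioc (0 : ℝ) 1), ENNReal.ofReal (c s) ≤ per (sliceCyl E k s))
    {P : ℝ} (hP0 : 0 ≤ P) (hP : per E ≤ ENNReal.ofReal P) :
    TestBound (sliceVol E k) c P := by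
  intro α hα hαp hαb
  set w : ℝ → ℝ := fun s => Real.sqrt (1 - α s ^ 2) with hw
  have hpos : ∀ s, 0 < 1 - α s ^ 2 := fun s => by
    have := abs_lt.1 (hαb s); nlinarith
  have hwd : ContDiff ℝ 1 w := (contDiff_const.sub (hα.pow 2)).sqrt fun s => (hpos s).ne'
  have hwp : Periodic w 1 := fun s => by simp only [hw, hαp s]
  have hw01 : ∀ s, w s ∈ Icc (0 : ℝ) 1 := fun s =>
    ⟨Real.sqrt_nonneg _, Real.sqrt_le_one.2 (by nlinarith [sq_nonneg (α s)])⟩
  refine le_of_forall_pos_le_add fun η hη => ?_
  obtain ⟨X, hX, hXk, hle⟩ := exists_field_of_slices_var hE hp k hc hc0 hcK hwd.continuous hwp hw01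
    h hη
  set W : R3 → R3 := fun x => w (x k) • X x + α (x k) • e k with hW
  set pr : R3 →L[ℝ] ℝ := EuclideanSpace.proj k with hpr
  have hprc : ∀ x : R3, pr x = x k := fun x => rfl
  have hpk : ContDiff ℝ 1 fun x : R3 => x k := pr.contDiff
  have hWt : IsTestField W := by
    refine ⟨((hwd.comp hpk).smul hX.smooth).add ((hα.comp hpk).smul contDiff_const),
      fun l x => ?_, fun x => ?_⟩
    · simp only [hW, hX.periodic l x]
      by_cases a : l = k
      · subst a; simp only [PiLp.add_apply, e_self, hwp _, hαp _]
      · simp [e_ne a]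
    · have h1 : ‖W x‖ ^ 2 = w (x k) ^ 2 * ‖X x‖ ^ 2 + α (x k) ^ 2 := by
        simp only [hW]
        rw [norm_add_sq_real, norm_smul, norm_smul, real_inner_smul_left, real_inner_smul_right,
          show ‖e k‖ = 1 by simp [e], show ⟪X x, e k⟫ = 0 by simp [e, EuclideanSpace.inner_single_right, hXk x]]
        simp only [mul_pow, Real.norm_eq_abs, sq_abs]
        ring
      have h2 : w (x k) ^ 2 = 1 - α (x k) ^ 2 := Real.sq_sqrt (hpos _).le
      have h3 : ‖X x‖ ^ 2 ≤ 1 := by nlinarith [hX.norm_le x, norm_nonneg (X x)]
      nlinarith [norm_nonneg (W x), mul_le_mul_of_nonneg_left h3 (sq_nonneg (w (x k)))]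
  have hdv : ∀ x, dv W x = w (x k) * dv X x + deriv α (x k) := fun x => by
    have d1 : HasFDerivAt (fun y : R3 => w (pr y)) (deriv w (pr x) • pr) x :=
      (hwd.differentiable one_ne_zero _).hasDerivAt.comp_hasFDerivAt x pr.hasFDerivAt
    have d2 : HasFDerivAt (fun y : R3 => α (pr y)) (deriv α (pr x) • pr) x :=
      (hα.differentiable one_ne_zero _).hasDerivAt.comp_hasFDerivAt x pr.hasFDerivAt
    have d3 := (d1.smul ((hX.smooth.differentiable one_ne_zero) x).hasFDerivAt).add
      (d2.smul_const (e k))
    have h6 : fderiv ℝ W x = _ := d3.fderiv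
    have hterm : ∀ l, fderiv ℝ W x (e l) l
        = w (x k) * fderiv ℝ X x (e l) l + if l = k then deriv α (x k) else 0 := fun l => by
      rw [h6]
      by_cases a : l = k
      · subst a; simp [hprc, e_self, hXk x]
      · simp [hprc, e_ne a, a]
    simp only [dv, hterm, Finset.sum_add_distrib, ← Finset.mul_sum, Finset.sum_ite_eq',
      Finset.mem_univ, if_true]
  have hb := (setIntegral_dv_le_per (ne_top_of_le_ne_top ENNReal.ofReal_ne_top hP) hWt).trans
    (ENNReal.toReal_le_of_le_ofReal hP0 hP)
  rw [setIntegral_inter_cell hE] at hb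
  have hdαc : Continuous fun x : R3 => deriv α (x k) :=
    (hα.continuous_deriv le_rfl).comp hpk.continuous
  have i1 := integrable_cell_mul (measurable_ind hE) (abs_ind_le E)
    (h := fun x => w (x k) * dv X x)
    ((hwd.continuous.comp hpk.continuous).mul (continuous_dv hX.smooth))
  have i2 := integrable_cell_mul (measurable_ind hE) (abs_ind_le E) hdαc
  have hsum : ∫ x in cell, E.indicator 1 x * dv W x
      = (∫ x in cell, ind E x * (w (x k) * dv X x)) + ∫ x in cell, ind E x * deriv α (x k) := by
    rw [← integral_add i1 i2]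
    exact setIntegral_congr_fun measurableSet_cell fun x _ => by simp only [hdv, ind]; ring
  have hdper : Periodic (deriv α) 1 := fun s => by
    rw [← deriv_comp_add_const, show (fun u => α (u + 1)) = α from funext hαp]
  obtain ⟨D, hD⟩ := (hdper.compact_of_continuous one_ne_zero
    (hα.continuous_deriv le_rfl)).isBounded.exists_norm_le
  have hD' : ∀ s, |deriv α s| ≤ D := fun s => hD _ (mem_range_self s)
  have hdp : IsPer fun x : R3 => ind E x * deriv α (x k) := fun l x => by
    simp only [isPer_ind hp l x]
    by_cases a : l = k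
    · subst a; simp only [PiLp.add_apply, e_self, hdper _]
    · simp [e_ne a]
  have hl2 : ∫ x in cell, ind E x * deriv α (x k)
      = ∫ s in Ioc (0 : ℝ) 1, sliceVol E k s * deriv α s := by
    rw [← setIntegral_toSlice (h := fun x => ind E x * deriv α (x k)) (C := D)
      ((measurable_ind hE).mul hdαc.measurable) (fun x => by
        rw [abs_mul]
        exact (mul_le_of_le_one_left (abs_nonneg _) (abs_ind_le E x)).trans (hD' _)) hdp k]
    refine setIntegral_congr_fun measurableSet_Ioc fun s _ => ?_
    simp only [toSlice_apply_self, integral_mul_const, sliceVol, ind_sliceCyl]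
  rw [intervalIntegral.integral_of_le zero_le_one, integral_add]
  · rw [hsum, hl2] at hb
    simp only at hle ⊢
    linarith
  · exact Integrable.mono' (integrable_const D)
      ((measurable_sliceVol hE k).mul (hα.continuous_deriv le_rfl).measurable).aestronglyMeasurable
      (ae_of_all _ fun s => by
        rw [norm_mul, Real.norm_of_nonneg (sliceVol_mem E k s).1]
        exact (mul_le_of_le_one_left (norm_nonneg _) (sliceVol_mem E k s).2).trans (hD' s))
  · exact Integrable.mono' (integrable_const K)
      (hc.mul hwd.continuous.measurable).aestronglyMeasurable (ae_of_all _ fun s => by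
        rw [Real.norm_of_nonneg (mul_nonneg (hc0 s) (hw01 s).1)]
        exact (mul_le_of_le_one_right (hc0 s) (hw01 s).2).trans (hcK s))

end Vale.Agent.P232
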